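import Vale.Agent.P269L.I.Ell
import Vale.Agent.P269.Pt.Bnd

/-!
# Unstable components have infinitely many automorphisms
-/

set_option linter.unusedSectionVars false

namespace Vale.Agent.P269L.I

open Set Function Topology Filter Module Vale.Agent.P269 Vale.Agent.P269.Cv

variable {X Y : Type} [TopologicalSpace X] [TopologicalSpace Y] {R : RS X} {Q : RS Y}
  [T2Space X] [CompactSpace X] [T2Space Y] [CompactSpace Y] {k k' : Y → X} {E T : Set X}

theorem liso_extend (h : LIso Q R k) (h' : LIso Q R k') (hk : Injective k) :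
    LIso R R (extend k k' id) := by
  have key : ∀ x, ContinuousAt (extend k k' id) x ∧
      R.Hol (fun y => R.e (extend k k' id x) (extend k k' id y)) x ∧
      R.d (fun y => R.e (extend k k' id x) (extend k k' id y)) x ≠ 0 := fun x => by
    by_cases a : x ∈ range k
    · obtain ⟨y, rfl⟩ := a
      have b : R.Hol (fun z => R.e (extend k k' id (k y)) (extend k k' id z)) (k y) :=
        h.hol_iff.1 (by simpa only [hk.extend_apply] using h'.hol y)
      refine ⟨?_, b, fun c => h'.ne y ?_⟩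
      · rw [ContinuousAt, ← h.map_nhds, tendsto_map'_iff, extend_comp hk, hk.extend_apply]
        exact h'.cont.continuousAt
      · have := h.d_comp b
        rwa [c, mul_zero, funext fun z => congrArg _ (hk.extend_apply k' id z),
          hk.extend_apply] at this
    · have b : id =ᶠ[𝓝 x] extend k k' id := Eventually.mono
        (h.isClopen_range.compl.isOpen.mem_nhds a) fun z hz => (extend_apply' _ _ _ hz).symm
      have c : R.e x =ᶠ[𝓝 x] fun y => R.e (extend k k' id x) (extend k k' id y) :=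
        b.mono fun z hz => by beta_reduce; rw [← hz, ← b.self_of_nhds]; rfl
      exact ⟨continuousAt_id.congr b, (RS.hol_e (R.mem x)).congr c,
        (RS.d_congr c).symm.trans_ne (RS.d_e_ne (R.mem x))⟩
  exact ⟨continuous_iff_continuousAt.2 fun x => (key x).1, fun x => (key x).2.1,
    fun x => (key x).2.2⟩

/-- Two parametrisations of an open and closed part differ by an automorphism. -/
theorem exists_ext (h : LIso Q R k) (h' : LIso Q R k') (hk : Injective k) (hk' : Injective k')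
    (e : range k = range k') :
    ∃ σ : X ≃ X, LIso R R σ ∧ (∀ y, σ (k y) = k' y) ∧ ∀ x ∉ range k, σ x = x := by
  have key : ∀ {u v : Y → X}, Injective u → Injective v → range u = range v →
      LeftInverse (extend v u id) (extend u v id) := fun {u v} a b c x => by
    by_cases d : x ∈ range u
    · obtain ⟨y, rfl⟩ := d
      rw [a.extend_apply, b.extend_apply]
    · rw [extend_apply' _ _ _ d, id, extend_apply' _ _ _ (c ▸ d : x ∉ range v), id]
  exact ⟨⟨_, _, key hk hk' e, key hk' hk e.symm⟩, liso_extend h h' hk,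
    fun y => hk.extend_apply _ _ y, fun x hx => extend_apply' _ _ _ hx⟩

include R in
theorem infinite_of_open (hE : IsOpen E) (hn : E.Nonempty) : E.Infinite := by
  obtain ⟨x, hx⟩ := hn
  have := R.neBot x
  exact infinite_of_mem_nhds x (hE.mem_nhds hx)

/-- On an unstable component the automorphisms supported there move a point to almost every other
point. -/
theorem exists_move (hE : IsClopen E) (hc : IsConnected E) (hT : (T ∩ E).Finite)
    (h : degOn R.K E + (T ∩ E).ncard ≤ 0) : ∃ a ∈ E, ∃ F : Set X, F.Finite ∧ ∀ b ∈ E \ F,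
      ∃ σ : X ≃ X, LIso R R σ ∧ (∀ p ∈ T, σ p = p) ∧ (∀ y ∉ E, σ y = y) ∧ σ a = b := by
  have hi := infinite_of_open (R := R) hE.isOpen hc.nonempty
  obtain ⟨h1, c, h2⟩ := degOn_K_ge (R := R) hE hc
  by_cases h0 : degOn R.K E = -2
  · obtain ⟨s, s1, s2, s3⟩ := hi.exists_superset_ncard_eq inter_subset_right hT (k := 2) (by omega)
    obtain ⟨p, q, hpq, rfl⟩ := ncard_eq_two.1 s3
    have hp := s2 (mem_insert _ _)
    have hq := s2 (mem_insert_of_mem _ rfl)
    have par : ∀ r ∈ E \ {p, q}, _ := fun r hr => IsRat.exists_param (R := R) ⟨hE, hc, h0⟩ hp hq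
      hr.1 hpq (fun e => hr.2 (.inl e.symm)) fun e => hr.2 (.inr e.symm)
    obtain ⟨a, ha⟩ := (hi.sdiff (toFinite {p, q})).nonempty
    refine ⟨a, ha.1, _, toFinite {p, q}, fun b hb => ?_⟩
    obtain ⟨k, k1, k2, k3, k4, k5, k6⟩ := par a ha
    obtain ⟨l, l1, l2, l3, l4, l5, l6⟩ := par b hb
    obtain ⟨σ, u, v, w⟩ := exists_ext k1 l1 k2 l2 (k3.trans l3.symm)
    refine ⟨σ, u, fun z hz => ?_, k3 ▸ w, by rw [← k6, v, l6]⟩
    by_cases e : z ∈ E
    · rcases s1 ⟨hz, e⟩ with rfl | rfl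
      · exact (congrArg σ k4.symm).trans ((v _).trans l4)
      · exact (congrArg σ k5.symm).trans ((v _).trans l5)
    · exact w z (k3.symm ▸ e)
  · obtain ⟨R', _, _, k, e, -⟩ := exists_sub_conn (R := R) hE hc
    obtain ⟨a, ha⟩ := hc.nonempty
    have t : T ∩ E = ∅ := (ncard_eq_zero hT).1 (by omega)
    refine ⟨a, ha, _, finite_singleton a, fun b hb => ?_⟩
    obtain ⟨τ, t1, t2⟩ := exists_inv (R := R') (by omega) (a := ⟨a, ha⟩) (b := ⟨b, hb.1⟩)
      fun i => hb.2 (congrArg Subtype.val i).symm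
    obtain ⟨σ, u, v, w⟩ := exists_ext k (k.comp t1) Subtype.val_injective
      (Subtype.val_injective.comp τ.injective) (τ.surjective.range_comp _).symm
    rw [Subtype.range_coe] at w
    exact ⟨σ, u, fun z hz => w z fun i => (t.le ⟨hz, i⟩ : z ∈ (∅ : Set X)), w,
      (v ⟨a, ha⟩).trans (congrArg Subtype.val t2)⟩

/-- **An unstable component has infinitely many automorphisms.** -/
theorem infinite_aut (hE : IsClopen E) (hc : IsConnected E) (hT : (T ∩ E).Finite)
    (h : degOn R.K E + (T ∩ E).ncard ≤ 0) :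
    {σ : X ≃ X | LIso R R σ ∧ (∀ p ∈ T, σ p = p) ∧ ∀ y ∉ E, σ y = y}.Infinite := by
  obtain ⟨a, -, F, hF, key⟩ := exists_move hE hc hT h
  refine .of_image (fun σ => σ a)
    (((infinite_of_open (R := R) hE.isOpen hc.nonempty).sdiff hF).mono fun b hb => ?_)
  obtain ⟨σ, u, v, w, e⟩ := key b hb
  exact ⟨σ, ⟨u, v, w⟩, e⟩

theorem ne_of_degOn {L : LB R} {s : X → ℂ} {x : X} (hE : IsClopen E) (hc : IsConnected E)
    (hL : degOn L E = 0) (hs : s ∈ L.Γ) (hx : x ∈ E) (h0 : s x ≠ 0) : ∀ y ∈ E, s y ≠ 0 :=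
  fun y hy e => by
    have := card_le_degOn hE (fun z _ => hs z) (hc.isPreconnected.subset_isClopen
      (isClopen_gen hs) ⟨x, hx, (hs x).mem_gen h0⟩) (T := {y}) (by simpa using ⟨hy, e⟩)
    simp [hL] at this

theorem map_mem {σ : X ≃ X} (h : ∀ y ∉ E, σ y = y) {x : X} (hx : x ∈ E) : σ x ∈ E :=
  by_contra fun a => a ((σ.injective (h _ a)).symm ▸ hx)

open Classical in
theorem quot_mem {L : LB R} {u : X → ℂ} {σ : X ≃ X} (hσ : LIso R R σ) (hE : IsClopen E)
    (h : ∀ y ∉ E, σ y = y) (hu : ∀ x ∈ E, L.Sec u x ∧ u x ≠ 0) :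
    E.piecewise (fun x => u (σ x) / u x) 1 ∈ (hσ.pb L / L).Γ :=
  LB.piecewise_mem hE (fun x a => (hσ.sec_pb.2 (hu _ (map_mem h a)).1).div (hu x a).1 (hu x a).2)
    fun x a => LB.sec_iff.2 ((RS.hol_const (1 : ℂ)).congr (Eventually.mono
      (hE.compl.isOpen.mem_nhds a) fun y b => by simp [h x a, h y b, L.ne x y]))

variable {S Λ ρ J K ν κ : Type} [Fintype S] [Fintype Λ] [Fintype ρ] [Fintype J] [Fintype K]
  [Fintype ν] [Fintype κ] [DecidableEq ρ] {F : Fam S Λ ρ J K} {θ₀ : ρ → ℤ} {N : ℕ}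
  {m : AM Λ ρ J ν κ}

/-- On a component of degree zero the line bundles are trivial. -/
theorem exists_triv (hA : F.Ample θ₀ N) (h : m.Sol F) {E : Set m.X} (hE : IsClopen E)
    (hc : IsConnected E) (h0 : ∀ r, degOn (m.L r) E = 0) (r : ρ) :
    ∃ u, ∀ x ∈ E, (m.L r).Sec u x ∧ u x ≠ 0 := by
  obtain ⟨x, hx⟩ := hc.nonempty
  have key : ∀ c : ρ → ℤ, (c = N • θ₀ ∨ ∃ i, c = N • θ₀ + Pi.single i 1 ∨
      c = N • θ₀ - Pi.single i 1) → ∃ s ∈ (bz m.L c).Γ, ∀ y ∈ E, s y ≠ 0 := fun c a => by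
    obtain ⟨s, b, d⟩ := bpf_of_ample hA h.2.1 h.2.2 a x
    exact ⟨s, b.1, ne_of_degOn hE hc (by simp [degOn_bz, h0]) b.1 hx d⟩
  obtain ⟨s, a, b⟩ := key _ (.inl rfl)
  obtain ⟨t, c, d⟩ := key _ (.inr ⟨r, .inl rfl⟩)
  refine ⟨t / s, fun y hy => ⟨?_, div_ne_zero (d y hy) (b y hy)⟩⟩
  have := (c y).div (a y) (b y hy)
  rwa [bz_add, bz_single, zpow_one, mul_div_cancel_left] at this

/-- **A map that is not stable has infinitely many automorphisms.** -/
theorem infinite_isoD (hA : F.Ample θ₀ N) (h : m.Sol F) (hs : ¬m.Stable F.θ) :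
    {e : m.X ≃ m.X | (∀ x y, Jn m.N x y → e x = x) ∧
      ∃ t, AM.IsoD F.toWt univ m m e t 1}.Infinite := by
  classical
  obtain ⟨x, hx⟩ := not_forall.1 (mt (ge_iff_comp zero_le_one).2 hs)
  have hE := (exists_comp (R := m.R) x).1
  have hc := isConnected_connectedComponent (x := x)
  generalize connectedComponent x = E at hx hE hc
  generalize hT : m.N.image Prod.fst ∪ m.N.image Prod.snd ∪ m.P = T
  have d : degOn m.ω E = degOn m.R.K E + ((T : Set m.X) ∩ E).ncard := by
    rw [AC.degOn_ω, omega_eq m.nd AC.sm_P, degOn_mul, degOn_cst, add_zero, lg, degOn_mul,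
      degOn_prod, hT, show (T : Set m.X) ∩ E = (T.filter (· ∈ E) : Finset _) by simp [inter_def],
      ncard_coe_finset]
    simp only [degOn_pt hE, Finset.sum_boole]
  have k := (degOn_K_ge (R := m.R) hE hc).1
  rw [degOn_mul, d] at hx
  have h0 : ∀ r, degOn (m.L r) E = 0 := fun r => by_contra fun a => by
    have := h.degOn_θ hA ⟨r, a⟩
    omega
  have h1 : degOn (bz m.L F.θ) E = 0 := by simp [degOn_bz, h0]
  choose u hu using exists_triv hA h hE hc h0
  refine (infinite_aut (R := m.R) hE hc (T.finite_toSet.inter_of_left E) (by omega)).mono ?_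
  rintro σ ⟨a, b, c⟩
  have nd : ∀ x y, Jn m.N x y → σ x = x := fun x y e => b x (by
    rw [← hT]
    simp only [Finset.coe_union, Finset.coe_image]
    exact .inl (e.imp (fun i => ⟨_, i, rfl⟩) fun i => ⟨_, i, rfl⟩))
  have mk : ∀ n, σ (m.p n) = m.p n := fun n => b _ (by
    rw [← hT]
    exact Finset.mem_union_right _ (AC.mem_P.2 ⟨n, rfl⟩))
  let t : ρ → m.X → ℂ := fun r => E.piecewise (fun x => u r (σ x) / u r x) 1
  have t1 : ∀ r x, σ x = x → t r x = 1 := fun r x e => by
    by_cases i : x ∈ E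
    · simp [t, i, e, (hu r x i).2]
    · simp [t, i]
  refine ⟨nd, t, a, isUnit_one, fun x y => ⟨fun e => ?_, fun e => ?_⟩, mk, fun r =>
    mem_H0_iff.2 ⟨quot_mem a hE c (hu r), fun x y e => (t1 r x (nd x y e)).trans
      (t1 r y (nd y x e.symm)).symm⟩, fun r x => ?_, fun r q => (t1 r _ (mk _)).trans
        (t1 r _ (mk _)).symm, funext fun _ => by simp [Wt.actL], fun j _ x => ?_⟩
  · rwa [nd x y e, nd y x e.symm]
  · rwa [σ.injective (nd _ _ e), σ.injective (nd _ _ e.symm)] at e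
  · by_cases i : x ∈ E
    · simp [t, i, (hu r x i).2, (hu r _ (map_mem c i)).2]
    · simp [t, i]
  · by_cases i : x ∈ E
    · obtain ⟨w, e⟩ := exists_const (L := bz m.L (F.w j)) (s := ∏ r, u r ^ F.w j r) (t := m.y j) hE
        hc (fun z hz => LB.Sec.prod fun r _ => (hu r z hz).1.zpow (hu r z hz).2 _)
        (fun z _ => (h.2.1 j).1 z) fun z hz => by
          rw [Finset.prod_apply]
          exact Finset.prod_ne_zero_iff.2 fun r _ => zpow_ne_zero _ (hu r z hz).2
      have : ∏ r, u r x ^ F.w j r ≠ 0 :=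
        Finset.prod_ne_zero_iff.2 fun r _ => zpow_ne_zero _ (hu r x i).2
      simp only [Wt.actT, AM.vl, e x i, e _ (map_mem c i), t, piecewise_eq_of_mem _ _ _ i,
        Finset.prod_apply, Pi.pow_apply, Pi.one_apply, one_zpow, Finset.prod_const_one, div_zpow,
        Finset.prod_div_distrib]
      field_simp
    · simp [Wt.actT, AM.vl, c x i, t1 _ x (c x i)]

/-- **A map with finitely many automorphisms is stable.** -/
theorem stable_of_finite (hA : F.Ample θ₀ N) (h : m.Sol F)
    (hf : {e : m.X ≃ m.X | ∃ t, AM.IsoD F.toWt univ m m e t 1}.Finite) : m.Stable F.θ :=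
  by_contra fun a => infinite_isoD hA h a (hf.subset fun _ b => b.2)

end Vale.Agent.P269L.I
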