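import Vale.Agent.P269.Cv.Nod

/-!
# The additive Cousin problem on a nodal curve
-/

open Set Function Topology Filter Module Metric
open scoped ContDiff
open Vale.Agent.P269.Cv Vale.Agent.P275GC Vale.Agent.P275RR Vale.Agent.P281Z.Hm

namespace Vale.Agent.P269L.I

variable {X : Type} [TopologicalSpace X] {R : RS X} (L : LB R)

/-- the functions that are holomorphic sections near `x` -/
def secAt (x : X) : Submodule ℂ (X → ℂ) where
  carrier := {s | L.Sec s x}
  add_mem' := LB.Sec.add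
  zero_mem' := LB.sec_zero
  smul_mem' c _ h := LB.Sec.smul h c

variable {Z : Type*} [AddCommGroup Z] [Module ℂ Z] (f : Z →ₗ[ℂ] X → X → ℂ)

/-- solutions of the Cousin problem -/
def CSol : Submodule ℂ (Z × (X → ℂ)) :=
  ⨅ x, (secAt L x).comap (LinearMap.snd ℂ _ _ - LinearMap.proj x ∘ₗ f ∘ₗ LinearMap.fst ℂ _ _)

variable {L f}

theorem mem_CSol {q : Z × (X → ℂ)} : q ∈ CSol L f ↔ ∀ x, L.Sec (q.2 - f q.1 x) x :=
  Submodule.mem_iInf _

variable [T2Space X] [CompactSpace X] [FiniteDimensional ℂ Z]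

theorem cousin0 (hf : ∀ v x, ∀ᶠ y in 𝓝 x, L.Sec (f v x - f v y) y) :
    finrank ℂ Z ≤ finrank ℂ ((CSol L f).map (LinearMap.fst ℂ _ _)) + finrank ℂ (R.K / L).Γ := by
  let b := finBasis ℂ Z
  obtain ⟨A, c, h⟩ := R.exists_at fun x =>
    (L.sec_φ x).and (eventually_all.2 fun k => hf (b k) x)
  have hA := fun i => (h i).1
  let η := fun i => L.φ (c i)
  have hη : Fr A L η := fun i y hy => ⟨((h i).2 y hy).1, L.ne _ _⟩
  have hG := cc_ln (hη.cc hA)
  have h1 (v i y) (hy : y ∈ (A.e i).source) : L.Sec (f v (c i) - f v y) y := by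
    have : ⊤ ≤ (secAt L y).comap (LinearMap.proj (c i) ∘ₗ f - LinearMap.proj y ∘ₗ f) :=
      b.span_eq.ge.trans (Submodule.span_le.2 (range_subset_iff.2 ((h i).2 y hy).2))
    exact this (Submodule.mem_top (x := v))
  have h2 (v i j z) (hz : z ∈ A.O i j) :
      AnalyticAt ℂ (fam A η (f v (c i) - f v (c j)) i) z := (hη.an hA hz.1).1 (by
    simpa using (h1 v i _ (At.map_tgt hz.1)).sub (h1 v j _ hz.2))
  let gl : Z → X → ℂ := fun v y => ∑ j, A.ψ j y • f v (c j) y
  let S : Z → Fam A ℂ := fun v i z => ∑ j, A.φ j i z • fam A η (f v (c i) - f v (c j)) i z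
  have hS (v i z) : S v i z = fam A η (f v (c i) - gl v) i z := by
    simp only [S, gl, fam, Pi.sub_apply, sub_div, smul_sub, Finset.sum_sub_distrib,
      ← Finset.sum_smul, At.sum_φ, one_smul, Finset.sum_div, smul_div_assoc]
    rfl
  have sm (v) : A.Sm ∞ (S v) := fun i =>
    ContDiffOn.sum fun j _ => At.cd_φ_smul (m := ⊤) fun z hz => cd_an (h2 v i j z hz)
  have df (v i z) (hz : z ∈ ball (0 : ℂ) A.R) : DifferentiableAt ℝ (S v i) z :=
    ((sm v).at hz i).differentiableAt (by simp)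
  have mem (v) : cut A (fun i => wb 1 (S v i)) ∈ Γ A ∞ (bar A (ln A (co A η))) := by
    refine cut_mem (fun i _ a => (P275FR.sm_db ((sm v).at a i)).contDiffWithinAt) fun i j z a => ?_
    have e : S v i =ᶠ[𝓝 z] fun w => ln A (co A η) i j w (S v j (A.tr i j w)) +
        fam A η (f v (c i) - f v (c j)) i w := eventually_of_mem (At.O_nhds a) fun w hw => by
      simp only [hS, ← hη.sv _ i j w hw]
      simp only [fam, Pi.sub_apply]
      ring
    have d := (h2 v i j z a).differentiableAt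
    have d' : DifferentiableAt ℝ (fun w => S v j (A.tr i j w)) z :=
      (df v j _ (At.tr_ball a)).comp z ((At.df_tr a).restrictScalars ℝ)
    rw [← wb_tr hG a (df v j _ (At.tr_ball a)), wb_congr e 1, wb_add (df_app
      ((hG.an a).differentiableAt.restrictScalars ℝ) d') (d.restrictScalars ℝ), wb_hol d, add_zero]
  let Φ : Z →ₗ[ℂ] Γ A ∞ (bar A (ln A (co A η))) :=
    { toFun := fun v => ⟨_, mem v⟩
      map_add' := fun v w => Subtype.ext ((nz_cut _).ext (add_mem (mem v) (mem w)).2.2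
        fun i z a => by
          simp only [Submodule.coe_add, Pi.add_apply, cut_of _ a]
          rw [← wb_add (df v i z a) (df w i z a) 1]
          congr 1
          funext y
          simp only [S, fam, map_add, Pi.sub_apply, Pi.add_apply, ← Finset.sum_add_distrib,
            ← smul_add]
          exact Finset.sum_congr rfl fun j _ => by congr 1; ring)
      map_smul' := fun a v => Subtype.ext ((nz_cut _).ext (Submodule.smul_mem _ a (mem v)).2.2
        fun i z a' => by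
          simp only [Submodule.coe_smul, Pi.smul_apply, cut_of _ a', RingHom.id_apply]
          rw [← wb_const_smul a (df v i z a') 1]
          congr 1
          funext y
          simp only [S, fam, map_smul, Pi.sub_apply, Pi.smul_apply, smul_eq_mul, Finset.mul_sum,
            Complex.real_smul]
          exact Finset.sum_congr rfl fun j _ => by ring) }
  let Ψ : Z →ₗ[ℂ] H1 A (ln A (co A η)) := Submodule.mkQ _ ∘ₗ Φ
  have := fin_H1 hG
  rw [← hη.h1_eq hA, ← Ψ.finrank_range_add_finrank_ker, add_comm]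
  refine add_le_add (Submodule.finrank_mono fun v hv => ?_) (Submodule.finrank_le _)
  obtain ⟨s, hs, e⟩ := mk_zero.1 hv
  refine ⟨(v, gl v + glue η s), mem_CSol.2 fun x => ?_, rfl⟩
  have k : ∀ z ∈ ball (0 : ℂ) A.R, DifferentiableAt ℂ (fun w => s (ch A x) w - S v (ch A x) w) z :=
    fun z hz => by
      have d := (hs.1.at hz (ch A x)).differentiableAt (by simp)
      refine P275RR.hol_of_db (d.sub (df v _ z hz)) ?_
      rw [wb_sub d (df v _ z hz), e _ z hz]
      exact sub_eq_zero.2 (cut_of (fun i => wb 1 (S v i)) hz)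
  have k2 : L.Sec (gl v + glue η s - f v (c (ch A x))) x := by
    rw [← symm_pc (A := A) x, hη.an hA (pc_ball x), symm_pc]
    refine (DifferentiableOn.analyticAt (fun z hz => (k z hz).differentiableWithinAt)
      (isOpen_ball.mem_nhds (pc_ball x))).congr (eventually_of_mem
        (isOpen_ball.mem_nhds (pc_ball x)) fun w hw => ?_)
    simp only [hS, ← fam_glue hs.2.1 hw]
    simp only [fam, Pi.sub_apply, Pi.add_apply]
    ring
  simpa using k2.add (h1 v _ x (ch_src x))

/-- **The Cousin problem on a nodal curve** has at most `h¹` obstructions. -/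
theorem cousin (N : Finset (X × X)) (hf : ∀ v x, ∀ᶠ y in 𝓝 x, L.Sec (f v x - f v y) y) :
    ∃ Z₀ : Submodule ℂ Z, (finrank ℂ Z : ℤ) ≤ finrank ℂ Z₀ + P269.Cv.h1 N L ∧ ∀ v ∈ Z₀, ∃ g : X → ℂ,
      (∀ x, L.Sec (g - f v x) x) ∧ ∀ n ∈ N, g n.1 - f v n.1 n.1 = g n.2 - f v n.2 n.2 := by
  let Z₁ := (CSol L f).map (LinearMap.fst ℂ _ _)
  obtain ⟨σ, hσ⟩ := ((LinearMap.fst ℂ _ _).submoduleMap (CSol L f)).exists_rightInverse_of_surjective
    (LinearMap.range_eq_top.2 (LinearMap.submoduleMap_surjective _ _))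
  have h1 (v : Z₁) : (σ v).1.1 = v := congrArg Subtype.val (LinearMap.congr_fun hσ v)
  let ev : (X → ℂ) →ₗ[ℂ] N → ℂ := .pi fun n => .proj n.1.1 - .proj n.1.2
  let dg : Z →ₗ[ℂ] X → ℂ := .pi fun x => .proj x ∘ₗ .proj x ∘ₗ f
  let e := ev ∘ₗ L.Γ.subtype
  let Ψ : Z₁ →ₗ[ℂ] (N → ℂ) ⧸ LinearMap.range e := Submodule.mkQ _ ∘ₗ ev ∘ₗ
    (LinearMap.snd ℂ _ _ ∘ₗ (CSol L f).subtype ∘ₗ σ - dg ∘ₗ Z₁.subtype)
  refine ⟨(LinearMap.ker Ψ).map Z₁.subtype, ?_, ?_⟩
  · have a1 := cousin0 hf
    have a2 := Ψ.finrank_range_add_finrank_ker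
    have a3 := (LinearMap.range Ψ).finrank_le
    have a4 := (LinearMap.range e).finrank_quotient_add_finrank
    have a5 := e.finrank_range_add_finrank_ker
    have a6 : (LinearMap.ker e).map L.Γ.subtype = P269.Cv.H0 N L := Submodule.ext fun s =>
      ⟨fun ⟨t, ht, e'⟩ => e' ▸ ⟨t.2, fun n hn => sub_eq_zero.1 (congrFun ht ⟨n, hn⟩)⟩,
        fun hs => ⟨⟨s, hs.1⟩, funext fun n => sub_eq_zero.2 (hs.2 n.1 n.2), rfl⟩⟩
    rw [finrank_fintype_fun_eq_card, Fintype.card_coe] at a4
    rw [Submodule.finrank_map_subtype_eq, P269.Cv.h1_eq, P269.Cv.chi, ← a6,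
      Submodule.finrank_map_subtype_eq]
    change finrank ℂ Z ≤ finrank ℂ Z₁ + _ at a1
    omega
  · rintro _ ⟨v, hv, rfl⟩
    obtain ⟨s, hs⟩ := (Submodule.Quotient.mk_eq_zero _).1 hv
    refine ⟨(σ v).1.2 - s, fun x => ?_, fun n hn => ?_⟩
    · have := (mem_CSol.1 (σ v).2 x).sub (s.2 x)
      rwa [h1, sub_right_comm] at this
    · have : s.1 n.1 - s.1 n.2 = ((σ v).1.2 n.1 - f v n.1 n.1) - ((σ v).1.2 n.2 - f v n.2 n.2) :=
        congrFun hs ⟨n, hn⟩
      simp only [Pi.sub_apply, Submodule.subtype_apply]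
      linear_combination -this

end Vale.Agent.P269L.I
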