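import Vale.Agent.P269L.Tx

/-!
# The virtual class depends only on the germ of the presentation along the solutions
-/

set_option linter.unusedSectionVars false

namespace Vale.Agent.P269L.I

open Set Function Topology Filter Vale.Agent.P269.Pub

variable {A W P E : Type} [NormedRing A] [NormedAlgebra ℂ A] [NormedAddCommGroup W] [NormedSpace ℂ W]
  [NormedAddCommGroup E] [NormedSpace ℂ E] [AddCommGroup P] [Module ℂ P] [TopologicalSpace P]
  {act : A → W → W} {ρ : A → P → P} {S S' sol : Set W} {pol : Set P} {van van' obs obs' : W → Set P}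
  {σ σ' : W → P}

theorem isCyc_congr {m m' : W → ℂ → Prop} (h : ∀ x ∈ S, m x = m' x) {β : Bm (Quo act S)}
    (hβ : Tx.IsCyc act S m β) : Tx.IsCyc act S m' β :=
  let ⟨a, d, b, c⟩ := hβ
  ⟨a, d, b, fun r U φ h0 Φ h1 h2 h3 h4 h5 => ⟨(c r U φ h0 Φ h1 h2 h3 h4 h5).1, fun a k1 k2 k3 =>
    h (Φ 0) (h3 ⟨0, h0⟩ ▸ (φ _).2) ▸ (c r U φ h0 Φ h1 h2 h3 h4 h5).2 a k1 k2 k3⟩⟩

theorem ini_congr {M M' : Set (W × E)} {y : W × E} (h : M =ᶠ[𝓝 (y.1, 0)] M') :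
    Tx.Ini M y = Tx.Ini M' y := by
  rw [Tx.Ini, Tx.Ini, nhdsWithin_eq_iff_eventuallyEq.2 h]

/-- `IsLoc` with the set of vectors as a parameter. -/
def Loc (act : A → W → W) (ρ : A → P → P) (S : Set W) (p : W × P → Prop)
    (B N : W → Submodule ℂ P) (σ : W → P) (e : Co (Quo act S)) : Prop :=
  let r := fun x y : Subtype p => ∃ a, IsUnit a ∧ y.1.1 = act a x.1.1 ∧ y.1.2 - ρ a x.1.2 ∈ N y.1.1
  let T := fun x v (z : Quot r) => ∃ y : Subtype p, y.1 = (x, v) ∧ z = Quot.mk _ y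
  ∃ s t, IsThom B N T t ∧ e = pull s t ∧
    ∀ z, T (pick act S z) (open Classical in
      if σ (pick act S z) ∈ B (pick act S z) then σ (pick act S z) else 0) (s z)

theorem isLoc_congr {B B' N : W → Submodule ℂ P} (h : ∀ x ∈ S, B x = B' x) {e : Co (Quo act S)}
    (he : IsLoc act ρ S B N σ e) : IsLoc act ρ S B' N σ e := by
  have k : Loc act ρ S (fun z => z.1 ∈ S ∧ z.2 ∈ B' z.1) B N σ e :=
    (funext fun z : W × P => propext (and_congr_right fun a : z.1 ∈ S => by rw [h _ a]) :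
      (fun z : W × P => z.1 ∈ S ∧ z.2 ∈ B z.1) = _) ▸
      (he : Loc act ρ S (fun z => z.1 ∈ S ∧ z.2 ∈ B z.1) B N σ e)
  obtain ⟨s, t, ⟨a, b, c, d⟩, f, g⟩ := k
  refine ⟨s, t, ⟨a, b, c, fun r φ x v k1 k2 k3 => d r φ x v k1 ?_ k3⟩, f, fun z => ?_⟩
  · obtain ⟨y, i, -⟩ := k3 0
    exact k2.trans (h x (congrArg Prod.fst i ▸ y.2.1 :)).symm
  · have := g z
    rwa [h (pick act S z) (Quot.out z).2] at this

/-- The last part of `VirE` with the cone and the multiplicities as parameters. -/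
def Cap (act : A → W → W) (ρ : A → P → P) (sol : Set W) (obs : W → Set P) (j : E → P)
    (ρ' : A → E → E) (v : Bm (Quo act sol)) (m : W × E → ℂ → Prop) (C : Set (W × E)) : Prop :=
  (∀ y ∈ C, j y.2 ∈ obs y.1) ∧ ∃ β e, ∃ π : Quo (Tx.act2 act ρ') C → Quo act sol,
    Tx.IsCyc (Tx.act2 act ρ') C m β ∧
    IsLoc (Tx.act2 act ρ') ρ C (fun y => Submodule.span ℂ (obs y.1)) (fun _ => ⊥)
      (fun y => j y.2) e ∧
    (∀ y : C, ∃ x : sol, x.1 = y.1.1 ∧ π (Quot.mk _ y) = Quot.mk _ x) ∧ IsBM v ∧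
    ∀ a, Zc a → v a = β (cup (pull π a) e)

/-- **The virtual class depends on the germ along the solutions.** -/
theorem isVir_congr (h : ∀ x ∈ sol, ∀ᶠ z in 𝓝 x, ∀ u ∈ pol,
      z ∈ S ∧ σ z - u ∈ van z ↔ z ∈ S' ∧ σ' z - u ∈ van' z)
    (ho : ∀ x ∈ sol, Submodule.span ℂ (obs x) = Submodule.span ℂ (obs' x) ∧
      ∀ u ∈ pol, u ∈ obs x → u ∈ obs' x)
    {v : Bm (Quo act sol)} (hv : Tx.IsVir act ρ S sol pol van obs σ v) :
    Tx.IsVir act ρ S' sol pol van' obs' σ' v := by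
  obtain ⟨r, j, ρ', h1, h2, h3, h4, h5⟩ := hv
  refine ⟨r, j, ρ', h1, h2, h3, h4, ?_⟩
  have k : ∀ y : W × (Fin r → ℂ), y.1 ∈ sol →
      Tx.Ini (Tx.Rp S van σ j) y = Tx.Ini (Tx.Rp S' van' σ' j) y := fun y hy =>
    ini_congr (((continuousAt_fst (p := (y.1, (0 : Fin r → ℂ)))).eventually (h _ hy)).mono
      fun z hz => propext (hz _ (h3 ▸ mem_range_self _)))
  have e : Tx.Cone sol (Tx.Rp S' van' σ' j) = Tx.Cone sol (Tx.Rp S van σ j) :=
    Set.ext fun y => and_congr_right fun hy => by rw [k y hy]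
  change Cap act ρ sol obs' j ρ' v (Tx.Mul (Tx.Rp S' van' σ' j)) (Tx.Cone sol (Tx.Rp S' van' σ' j))
  rw [e]
  obtain ⟨a, β, t, π, b, c, d⟩ := h5
  exact ⟨fun y hy => (ho _ hy.1).2 _ (h3 ▸ mem_range_self _) (a y hy), β, t, π,
    isCyc_congr (fun y hy => congrArg (Tx.MltS _) (k y hy.1)) b, isLoc_congr (fun y hy => (ho _ hy.1).1) c, d⟩

theorem isVir_inter {O : Set W} (hO : IsOpen O) (hs : sol ⊆ O) {v : Bm (Quo act sol)} :
    Tx.IsVir act ρ (S ∩ O) sol pol van obs σ v ↔ Tx.IsVir act ρ S sol pol van obs σ v :=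
  have k : ∀ x ∈ sol, ∀ᶠ z in 𝓝 x, ∀ u ∈ pol,
      z ∈ S ∩ O ∧ σ z - u ∈ van z ↔ z ∈ S ∧ σ z - u ∈ van z := fun _ hx =>
    Eventually.mono (hO.mem_nhds (hs hx)) fun _ a _ _ => and_congr_left' (and_iff_left a)
  ⟨isVir_congr k fun _ _ => ⟨rfl, fun _ _ => id⟩, isVir_congr
    (fun x hx => (k x hx).mono fun _ a u b => (a u b).symm) fun _ _ => ⟨rfl, fun _ _ => id⟩⟩

end Vale.Agent.P269L.I
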