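import Vale.Agent.P269L.G.Main
import Vale.Agent.P269L.I.Shr

/-!
# The virtual class in coordinates
-/

set_option linter.all false

namespace Vale.Agent.P269L.I

open Set Function Topology Filter P291Z P269 P269.Ch

section loc

variable {A W P P' : Type} [NormedRing A] [NormedAlgebra ℂ A] [NormedAddCommGroup W]
  [NormedSpace ℂ W] [AddCommGroup P] [Module ℂ P] [TopologicalSpace P] [AddCommGroup P']
  [Module ℂ P'] [TopologicalSpace P'] {act : A → W → W} {ρ : A → P → P} {ρ' : A → P' → P'}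
  {S : Set W} {B : W → Submodule ℂ P} {B' : W → Submodule ℂ P'} {σ : W → P} {σ' : W → P'}

/-- change of the ambient vector space of a bundle -/
theorem isLoc_map (k : P' →ₗ[ℂ] P) {R : Set P'} (hc : ContinuousOn k R)
    (hR : ∀ x ∈ S, (B' x : Set P') ⊆ R) (hB : ∀ x ∈ S, (B' x).map k = B x)
    (hi : ∀ x ∈ S, ∀ v ∈ B' x, k v = 0 → v = 0)
    (he : ∀ v ∈ R, ∀ a, IsUnit a → k (ρ' a v) = ρ a (k v))
    (h0 : ∀ x ∈ S, ∀ v ∈ B x, ∀ a, IsUnit a → (ρ a v = 0 ↔ v = 0))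
    (hσ : ∀ x ∈ S, σ' x ∈ B' x ∧ k (σ' x) = σ x) {e : Pub.Co (Quo act S)}
    (h : Pub.IsLoc act ρ S B (fun _ => ⊥) σ e) : Pub.IsLoc act ρ' S B' (fun _ => ⊥) σ' e := by
  obtain ⟨t, ⟨h1, h2, h3⟩, rfl⟩ := Tf.isLoc_iff.1 h
  have m : ∀ x ∈ S, ∀ v ∈ B' x, k v ∈ B x := fun x hx v hv => hB x hx ▸ ⟨v, hv, rfl⟩
  let Θ : Tot act ρ' S B' (fun _ => ⊥) → Tot act ρ S B fun _ => ⊥ :=
    Quot.map (fun y => ⟨(y.1.1, k y.1.2), y.2.1, m _ y.2.1 _ y.2.2⟩) fun x y ⟨a, ha, e1, e2⟩ =>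
      ⟨a, ha, e1, by
        rw [← he _ (hR _ x.2.1 x.2.2) a ha, ← map_sub, show y.1.2 - ρ' a x.1.2 = 0 from e2,
          map_zero]
        exact zero_mem _⟩
  have hΘ : Continuous Θ := continuous_quot_lift _ (continuous_quot_mk.comp
    (((continuous_fst.comp continuous_subtype_val).prodMk (hc.comp_continuous
      (continuous_snd.comp continuous_subtype_val) fun y => hR _ y.2.1 y.2.2)).subtype_mk _))
  let z0 : Tot act ρ S B (fun _ => ⊥) → Prop := Quot.lift (fun y => y.1.2 = 0)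
    fun x y ⟨a, ha, _, e⟩ => propext ((h0 _ x.2.1 _ x.2.2 a ha).symm.trans
      (by rw [sub_eq_zero.1 (show y.1.2 - ρ a x.1.2 = 0 from e)]))
  refine Tf.isLoc_iff.2 ⟨pull Θ t, ⟨cocycle_pull hΘ h1, fun z hz => ?_, ?_⟩, ?_⟩
  · obtain ⟨x, k1, k2⟩ := h2 (supp_pull hΘ t hz)
    obtain ⟨y, rfl⟩ := Quot.exists_rep z
    exact ⟨y, hi _ y.2.1 _ y.2.2 ((congrArg z0 k2).mpr k1), rfl⟩
  · rintro r φ ⟨x, hx, l, k1, k2, k3⟩
    have k4 : ∀ v, l v ∈ B' x := fun v => (k3 v).1.2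
    have := h3 r (Θ ∘ φ) ⟨x, hx, k ∘ₗ l, fun v hv => k1 v (hi x hx _ (k4 v) hv), by
      rw [sup_bot_eq] at k2 ⊢
      rw [LinearMap.range_comp, k2, hB x hx], fun v =>
        let ⟨a, b⟩ := k3 v
        ⟨⟨hx, m x hx _ a.2⟩, congrArg Θ b⟩⟩
    exact ⟨(congrArg (Cohom {0} · (tau r)) (pull_pull φ Θ t)).mpr this.1, fun z l hl =>
      this.2 z (l.map Θ) fun e => hl ((List.length_map Θ).symm.trans e)⟩
  · rw [pull_pull]
    refine congrArg (fun f => (pull f t).1) (funext fun z => congrArg (Quot.mk _)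
      (Subtype.ext (Prod.ext rfl ?_)))
    obtain ⟨a, b⟩ := hσ _ z.out.2
    exact (congrArg k (if_pos a)).trans (b.trans (if_pos (b ▸ m _ z.out.2 _ a)).symm)

end loc

variable {A W P : Type} [NormedRing A] [NormedAlgebra ℂ A] [NormedAddCommGroup W]
  [NormedSpace ℂ W] [AddCommGroup P] [Module ℂ P] [TopologicalSpace P]
  [FiniteDimensional ℂ A] [FiniteDimensional ℂ W] [IsTopologicalAddGroup P] [ContinuousSMul ℂ P]
  [T2Space P] {D : KD A W P} {act : A → W → W} {Z S O : Set W} {v r d n : ℕ}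
  {j : (Fin n → ℂ) →ₗ[ℂ] P} {ρ' : A → (Fin n → ℂ) → Fin n → ℂ}
  (h : T.Kur D act Z S O v r d) (c : G.Crd D j ρ')
include h c

open G in
theorem virL_stm (w : BM (Quo act Z)) : VirL D act Z S j ρ' w ↔ D.Stm act Z S w := by
  have k := kurM h c
  obtain ⟨g1, g2⟩ := (df h c).gysin (D := dM D j) ⟨k.dom, k.ok⟩ (fun _ => rfl) c.inj c.rng c.eqv
    (fun _ => rfl) (B := fun y => D.obs y.1) (fun _ _ => rfl) (cone_mem h c)
  refine (virL_iff h c (fun _ _ a _ _ => mul_unique h c a) (cy_lim h c (df h c)) g1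
    (fun t ht a ha => ?_) w).trans (stm_vr h).symm
  obtain ⟨e1, e2⟩ := ev_tot h c ha
  let p : Quo (Tx.act2 act ρ') (CC D j Z S) → Quo (Tx.act2 act ρ') (Z ×ˢ {0}) :=
    Quot.map (fun y => ⟨(y.1.1, 0), y.2.1, rfl⟩) fun _ _ ⟨s, hs, e⟩ =>
      ⟨s, hs, Prod.ext (congrArg Prod.fst e :) (rho_zero h c hs).symm⟩
  rw [e2, g2 t ht p (fun y => ⟨⟨(y.1.1, 0), y.2.1, rfl⟩, rfl, rfl⟩) _ _ e1, pull_pull,
    show pz act ρ' Z ∘ p = prC D act Z S j ρ' from funext (Quot.ind fun _ => rfl)]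
  rfl

theorem rho_eq_zero {a : A} (ha : IsUnit a) (u : Fin n → ℂ) : ρ' a u = 0 ↔ u = 0 := by
  refine ⟨fun e => ?_, fun e => e ▸ G.rho_zero h c ha⟩
  obtain ⟨a, rfl⟩ := ha
  rw [← G.rho_one h c u, ← a.inv_mul, G.rho_mul h c a⁻¹.isUnit a.isUnit, e,
    G.rho_zero h c a⁻¹.isUnit]

theorem loc_crd {C : Set (W × (Fin n → ℂ))} (hC : ∀ y ∈ C, y.1 ∈ Z ∧ j y.2 ∈ D.obs y.1)
    {B' : W × (Fin n → ℂ) → Submodule ℂ (Fin n → ℂ)} (hB : ∀ y ∈ C, B' y = (D.obs y.1).comap j)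
    {e : Pub.Co (Quo (Tx.act2 act ρ') C)} :
    Pub.IsLoc (Tx.act2 act ρ') ρ' C B' (fun _ => ⊥) (fun y => y.2) e ↔
      Pub.IsLoc (Tx.act2 act ρ') D.ρ C (fun y => D.obs y.1) (fun _ => ⊥) (fun y => j y.2) e := by
  have h1 : ∀ y ∈ C, D.obs y.1 ≤ LinearMap.range j := fun y hy =>
    have a := h.dom.sub (hC y hy).1
    c.rng ▸ h.ok.obs_le _ a ((h.dom.zero _ a).2 (hC y hy).1)
  have h2 : ∀ y ∈ C, (B' y).map j = D.obs y.1 := fun y hy => by
    rw [hB y hy, Submodule.map_comap_eq_self (h1 y hy)]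
  obtain ⟨g, hg⟩ := j.exists_leftInverse_of_injective (LinearMap.ker_eq_bot.2 c.inj)
  have g1 : ∀ u, g (j u) = u := LinearMap.congr_fun hg
  have em := (j.isClosedEmbedding_of_injective (LinearMap.ker_eq_bot.2 c.inj)).isEmbedding
  refine ⟨isLoc_map g (R := range j) ?_ (fun y hy => h1 y hy) (fun y hy => ?_) (fun y hy u hu e => ?_)
    ?_ (fun _ _ u _ a ha => rho_eq_zero h c ha u) fun y hy => ⟨(hC y hy).2, g1 _⟩,
    isLoc_map j (R := univ) em.continuous.continuousOn (fun _ _ => subset_univ _) h2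
      (fun _ _ _ _ e => c.inj (e.trans j.map_zero.symm)) (fun u _ a ha => c.eqv a u ha)
      (fun y hy u hu a ha => ?_) fun y hy => ⟨hB y hy ▸ (hC y hy).2, rfl⟩⟩
  · exact em.isInducing.continuousOn_iff.2 (continuousOn_id.congr (by
      rintro _ ⟨u, rfl⟩
      exact congrArg j (g1 u)))
  · rw [← h2 y hy, ← Submodule.map_comp, hg, Submodule.map_id]
  · obtain ⟨u, rfl⟩ := h1 y hy hu
    rw [g1] at e
    rw [e, map_zero]
  · rintro _ ⟨u, rfl⟩ a ha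
    rw [← c.eqv a u ha, g1, g1]
  · obtain ⟨u, rfl⟩ := h1 y hy hu
    rw [← c.eqv a u ha, map_eq_zero_iff _ c.inj, map_eq_zero_iff _ c.inj, rho_eq_zero h c ha]

/-- **The virtual class in coordinates.** -/
theorem virE_crd {S' : Set W} {van' obs' : W → Set (Fin n → ℂ)} {σ' : W → Fin n → ℂ}
    (hM : ∀ x ∈ Z, ∀ᶠ z in 𝓝 x, ∀ u,
      z ∈ S' ∧ σ' z - u ∈ van' z ↔ z ∈ S ∧ D.s z - j u ∈ D.van z)
    (ho : ∀ x ∈ Z, ∀ u, u ∈ obs' x ↔ j u ∈ D.obs x) (b : Pub.Bm (Quo act Z)) :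
    Tx.VirE act ρ' S' Z univ van' obs' σ' id ρ' b ↔ ∃ w, D.Stm act Z S w ∧ Tf.fn w = b := by
  have k : ∀ y : W × (Fin n → ℂ), y.1 ∈ Z →
      Tx.Ini (Tx.Rp S' van' σ' id) y = Tx.Ini (G.RM D j S) y := fun y hy =>
    ini_congr (((continuousAt_fst (p := (y.1, (0 : Fin n → ℂ)))).eventually (hM _ hy)).mono
      fun z hz => propext (hz _))
  have e : Tx.Cone Z (Tx.Rp S' van' σ' id) = G.CC D j Z S :=
    Set.ext fun y => and_congr_right fun hy => by rw [k y hy]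
  have hC : ∀ y ∈ G.CC D j Z S, y.1 ∈ Z ∧ j y.2 ∈ D.obs y.1 := fun y hy =>
    ⟨hy.1, G.cone_obs h c y hy⟩
  have hB : ∀ y ∈ G.CC D j Z S, Submodule.span ℂ (obs' y.1) = (D.obs y.1).comap j := fun y hy => by
    rw [show obs' y.1 = (D.obs y.1).comap j from Set.ext (ho _ hy.1), Submodule.span_eq]
  have e2 : Cap act ρ' Z obs' id ρ' b (Tx.Mul (Tx.Rp S' van' σ' id)) (G.CC D j Z S) ↔
      Cap act D.ρ Z (fun x => D.obs x) j ρ' b (Tx.Mul (G.RM D j S)) (G.CC D j Z S) := by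
    unfold Cap
    simp only [Submodule.span_eq]
    exact and_congr (forall₂_congr fun y hy => ho _ hy.1 _) (exists₃_congr fun β t π => and_congr
      ⟨isCyc_congr fun y hy => congrArg (Tx.MltS _) (k y hy.1),
        isCyc_congr fun y hy => congrArg (Tx.MltS _) (k y hy.1).symm⟩
      (and_congr_left' (loc_crd h c hC hB)))
  have e4 := ((congrArg (Cap act ρ' Z obs' id ρ' b (Tx.Mul (Tx.Rp S' van' σ' id))) e).to_iff).trans e2
  have e3 := G.virE_iff (D := D) (act := act) (Z := Z) (S := S) (b := b) (j := j) (ρ' := ρ')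
  exact Iff.trans ⟨fun a => ⟨j.isLinear, c.inj, congrArg SetLike.coe c.rng, c.eqv,
    e4.1 a.2.2.2.2⟩, fun a => ⟨LinearMap.id.isLinear, injective_id, range_id, fun _ _ _ => rfl,
      e4.2 a.2.2.2.2⟩⟩ (e3.trans ((and_iff_right c).trans
        (exists_congr fun w => and_congr_left' (virL_stm h c w))))

end Vale.Agent.P269L.I
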