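import Vale.Agent.P269.Base.Open

/-!
# The equations of a member of a family of curves extend
-/

set_option linter.unusedSectionVars false

namespace Vale.Agent.P269L.I

open Set Function Topology Filter Vale.Agent.P269 Vale.Agent.P269.Base Vale.Agent.P269.Holo

variable {ι : Type} [Fintype ι] {M : ι → ℕ} {a : ι → ℕ} {g : ℤ} {m : ι → ℤ} {o : ι}
  {T P : Type*} [TopologicalSpace T] [NormedAddCommGroup P] [NormedSpace ℂ P]
  [FiniteDimensional ℂ P] {C : T → Set (V M)} {π : T → P} {t₀ : T}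

/-- An analytic family of projections onto the ideals. -/
theorem exists_proj (h : LocFam o C π t₀) (h0 : IsCurve o g m (C t₀)) (ha : a ≠ 0) :
    ∃ Φ : P → Tens M a →L[ℂ] Tens M a, AnalyticAt ℂ Φ (π t₀) ∧ ∀ᶠ t in 𝓝 t₀, ∀ μ,
      (∀ c ∈ C t, val (Φ (π t) μ) c = 0) ∧ ((∀ c ∈ C t, val μ c = 0) → Φ (π t) μ = μ) := by
  obtain ⟨y, h1, h2⟩ := h.exists_ev h0 ha (h0.finrank_Hs ha)
  obtain ⟨i, hi⟩ := exists_rightInv (l := evP a fun k => y k (π t₀)) h2.self_of_nhds.2.1
  have h4 : AnalyticAt ℂ (fun q => evP a fun k => y k q) (π t₀) :=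
    (analyticAt_evP _).comp (f := fun q k => y k q) (AnalyticAt.pi fun k => (h1 k).1)
  have h5 : AnalyticAt ℂ (fun q => (evP a fun k => y k q).comp i) (π t₀) :=
    an_comp h4 analyticAt_const
  have h6 : Bijective ((evP a fun k => y k (π t₀)).comp i) :=
    ⟨fun u v e => (hi u).symm.trans (e.trans (hi v)), fun u => ⟨u, hi u⟩⟩
  refine ⟨fun q => .id ℂ _ - i.comp ((((evP a fun k => y k q).comp i).inverse).comp
    (evP a fun k => y k q)), analyticAt_const.sub (an_comp analyticAt_const (an_comp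
      ((analyticAt_clm_inverse h6).comp (f := fun q => (evP a fun k => y k q).comp i) h5) h4)), ?_⟩
  filter_upwards [h2, h.cont.self_of_nhds.eventually (eventually_bijective h5.continuousAt h6)]
    with t b1 b4 μ
  refine ⟨b1.2.2 _ (Pol.isSec (val_mem _)) fun k => ?_, fun e => ?_⟩
  · have := (isInvertible_of_bijective b4).self_apply_inverse (evP a (fun k => y k (π t)) μ)
    exact congrFun (((evP a fun k => y k (π t)).map_sub μ _).trans (sub_eq_zero.2 this.symm)) k
  · have : evP a (fun k => y k (π t)) μ = 0 := funext fun k => e _ (b1.1 k)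
    simp [this]

/-- **The equations extend.** -/
theorem ext_form (h : LocFam o C π t₀) (h0 : IsCurve o g m (C t₀)) (ha : a ≠ 0) {μ₀ : Tens M a}
    (hμ : ∀ c ∈ C t₀, val μ₀ c = 0) : ∃ μ : P → Tens M a, AnalyticAt ℂ μ (π t₀) ∧
      μ (π t₀) = μ₀ ∧ ∀ᶠ t in 𝓝 t₀, ∀ c ∈ C t, val (μ (π t)) c = 0 :=
  let ⟨_, b, c⟩ := exists_proj h h0 ha
  ⟨_, an_apply b analyticAt_const, (c.self_of_nhds μ₀).2 hμ, c.mono fun _ e => (e μ₀).1⟩

end Vale.Agent.P269L.I
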