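import Vale.Agent.P269L.I.St
import Vale.Agent.P269L.I.Flat
import Vale.Agent.P269.Holo.Set

/-!
# Curves in the words of the statement
-/

set_option linter.unusedSectionVars false

namespace Vale.Agent.P269L.I

open Set Function Topology Filter Vale.Agent.P269 Vale.Agent.P269.Base Vale.Agent.P269.Holo

variable {ι : Type} [Fintype ι] {M : ι → ℕ} {a : ι → ℕ} {q : V M → ℂ} {c : V M}

theorem an_of_diff {E F : Type*} [NormedAddCommGroup E] [NormedSpace ℂ E] [FiniteDimensional ℂ E]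
    [NormedAddCommGroup F] [NormedSpace ℂ F] [CompleteSpace F] {f : E → F}
    (h : Differentiable ℂ f) (x : E) : AnalyticAt ℂ f x :=
  P281.MF.analyticOnNhd_of_differentiableOn isOpen_univ h.differentiableOn x trivial

theorem euler_of (hq : Differentiable ℂ q)
    (h : ∀ t : ι → ℂ, (∀ i, t i ≠ 0) → ∀ c, q (t • c) = Base.chr a t * q c) (c : V M) (s : ι → ℂ) :
    fderiv ℂ q c (s • c) = (∑ i, a i * s i) * q c := by
  have h1 : HasDerivAt (fun z : ℂ => (fun i => 1 + z * s i) • c) (s • c) 0 := by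
    refine hasDerivAt_pi.2 fun i => ?_
    simpa using (((hasDerivAt_id (0 : ℂ)).mul_const (s i)).const_add 1).smul_const (c i)
  have h2 : HasFDerivAt q (fderiv ℂ q c) ((fun i => 1 + (0 : ℂ) * s i) • c) := by
    rw [show (fun i => 1 + (0 : ℂ) * s i) = 1 from funext fun i => by simp, one_smul]
    exact (hq c).hasFDerivAt
  have h4 : HasDerivAt (fun z : ℂ => Base.chr a (fun i => 1 + z * s i) * q c)
      ((∑ i, a i * s i) * q c) 0 := by
    classical
    refine HasDerivAt.mul_const ?_ _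
    have := HasDerivAt.fun_finsetProd (u := Finset.univ) (x := (0 : ℂ))
      fun i _ => (((hasDerivAt_id (0 : ℂ)).mul_const (s i)).const_add 1).fun_pow (a i)
    simpa [Base.chr] using this
  refine (h2.comp_hasDerivAt (0 : ℂ) h1).unique (h4.congr_of_eventuallyEq
    ((eventually_all.2 fun i => ?_).mono fun z hz => h _ hz _))
  exact (by fun_prop : ContinuousAt (fun z : ℂ => 1 + z * s i) 0).eventually_ne (by simp)

/-- Entire homogeneous functions are polynomials. -/
theorem mem_Pol_of (hq : Differentiable ℂ q)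
    (h : ∀ t : ι → ℂ, (∀ i, t i ≠ 0) → ∀ c, q (t • c) = Base.chr a t * q c) : q ∈ Pol M a := by
  classical
  generalize hn : ∑ i, a i = n
  induction n generalizing a q with
  | zero =>
    obtain rfl : a = 0 := funext fun i => Finset.sum_eq_zero_iff.1 hn i (Finset.mem_univ i)
    have : q = q 0 • (1 : V M → ℂ) := funext fun c => by
      have k : ContinuousAt (fun z : ℂ => q ((fun _ : ι => z) • c)) 0 :=
        hq.continuous.continuousAt.comp (by fun_prop)
      have := tendsto_nhds_unique (k.tendsto.mono_left (nhdsWithin_le_nhds (s := {0}ᶜ)))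
        (tendsto_const_nhds (x := q c) |>.congr' (eventually_nhdsWithin_of_forall fun z hz => by
          simp [h _ fun _ => hz, Base.chr]))
      rw [← this, show (fun _ : ι => (0 : ℂ)) = 0 from rfl, zero_smul]
      simp
    exact this ▸ Submodule.smul_mem _ _ Pol.one
  | succ n ih =>
    obtain ⟨i, -, hi⟩ := Finset.exists_ne_zero_of_sum_ne_zero (hn.trans_ne n.succ_ne_zero)
    obtain ⟨b, rfl⟩ : ∃ b, a = Pi.single i 1 + b := ⟨a - Pi.single i 1, funext fun k => by
      by_cases e : k = i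
      · subst e
        simp only [Pi.add_apply, Pi.sub_apply, Pi.single_eq_same]
        omega
      · simp [e]⟩
    have m : ∀ v, (fun c => fderiv ℂ q c (Pi.single i v)) ∈ Pol M b := fun v => by
      refine ih (fun c => (an_apply (an_of_diff hq c).fderiv analyticAt_const).differentiableAt)
        (fun t ht c => mul_left_cancel₀ (ht i) ?_) (by
          simp only [Pi.add_apply, Finset.sum_add_distrib, Finset.sum_pi_single'] at hn
          simp at hn
          omega)
      let l : V M →L[ℂ] V M := .pi fun k => t k • .proj k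
      have e := ((hq (l c)).hasFDerivAt.comp c l.hasFDerivAt).unique
        (((hq c).hasFDerivAt.const_mul (Base.chr (Pi.single i 1 + b) t)).congr_of_eventuallyEq
          (.of_forall fun y => h t ht y))
      have e' := congrArg (· (Pi.single i v)) e
      have e2 : l (Pi.single i v) = t i • Pi.single i v := funext fun k => by
        by_cases e : k = i
        · subst e; simp [l]
        · simp [l, e]
      simp only [ContinuousLinearMap.comp_apply, e2, map_smul, smul_apply,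
        smul_eq_mul, chr_add] at e'
      refine e'.trans ?_
      simp [Base.chr, Pi.single_apply, mul_assoc]
    have : q = ((Pi.single i 1 + b : ι → ℕ) i : ℂ)⁻¹ • ∑ j, (fun c : V M => c i j) *
        fun c => fderiv ℂ q c (Pi.single i (Pi.single j 1)) := funext fun c => by
      have e := euler_of hq h c (Pi.single i 1)
      have e2 : (Pi.single i 1 : ι → ℂ) • c = ∑ j, c i j • Pi.single i (Pi.single j 1) :=
        funext fun k => by
          by_cases e : k = i
          · subst e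
            funext j
            simp [Finset.sum_apply, Pi.single_apply]
          · simp [Finset.sum_apply, e]
      rw [e2, map_sum, Finset.sum_eq_single_of_mem i (Finset.mem_univ i)
        fun k _ e => by simp [e], Pi.single_eq_same, mul_one] at e
      simp only [map_smul, smul_eq_mul] at e
      rw [Pi.smul_apply, Finset.sum_apply, smul_eq_mul, eq_inv_mul_iff_mul_eq₀ (by exact_mod_cast hi)]
      exact e.symm
    exact this ▸ Submodule.smul_mem _ _ (Submodule.sum_mem _ fun j _ =>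
      Pol.mul (Pol.lin i (.proj j)) (m _))

theorem pol_eq : pol (fun (t : ι → ℂ) (c : V M) => t • c) chr a = Pol M a :=
  Set.ext fun _ => ⟨fun h => mem_Pol_of h.1 fun t _ => h.2 t,
    fun h => ⟨fun c => (Pol.an h c).differentiableAt, Pol.hom h⟩⟩

variable (M) in
/-- The action of the torus. -/
abbrev sm : (ι → ℂ) → V M → V M := fun t c => t • c

variable {o : ι} {C : Set (V M)} {γ δ : ℂ → V M} {g : ℤ} {m : ι → ℤ} {n : ℕ} {p : Fin n → V M}

theorem inj_iff : Injective (fun t : ι → ℂ => t • c) ↔ ∀ i, c i ≠ 0 := by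
  classical
  refine ⟨fun h i e => ?_, fun h t s e => funext fun i => smul_left_injective ℂ (h i) (congrFun e i)⟩
  have := h (a₁ := Pi.single i 1) (a₂ := 0) (funext fun k => by
    by_cases b : k = i
    · subst b
      simp [e]
    · simp [b])
  simpa using congrFun this i

theorem same_orb {c' : V M} : Same (sm M) c c' ↔ Orb c c' :=
  exists_congr fun _ => and_congr_left' (by simp [Pi.isUnit_iff])

theorem br_of (h : IsBranch o C γ) : Br (sm M) C γ :=
  ⟨h.holo, h.mem, fun ⟨t, e⟩ => one_ne_zero ((li_pair_iff.1 h.imm).2 1 (t o)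
    ((one_smul _ _).trans (congrFun e o).symm))⟩

theorem cross_of (h : IsCross o C c γ δ) : Cross (sm M) C c γ δ :=
  ⟨br_of h.1, br_of h.2.1, h.2.2.1, h.2.2.2.1, fun s ⟨t, e⟩ =>
    one_ne_zero ((li_triple_iff.1 h.2.2.2.2).2 1 (-s) (t o) (by
      rw [one_smul, neg_smul, ← sub_eq_add_neg]
      exact (congrFun e o).symm)).1⟩

theorem not_cross (hC : Nod o C) (hc : c ∈ C) (hn : ¬IsNode o C c) : ¬Cross (sm M) C c γ δ := by
  rintro ⟨a, b, a0, b0, h⟩
  obtain ⟨η, k⟩ := hC.exists_loc hc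
  obtain ⟨j, s, ψ, -, -, -, -, -, e⟩ := k.lift a.1 a.2.1 a0
  obtain ⟨j', s', ψ', -, -, -, -, -, e'⟩ := k.lift b.1 b.2.1 b0
  rw [k.eq_of_not_node hn] at e e'
  have : deriv ψ' 0 ≠ 0 := fun z => b.2.2 ⟨deriv s' 0, by rw [e', z, zero_smul, zero_add, b0]⟩
  refine h (deriv ψ 0 / deriv ψ' 0) ⟨deriv s 0 - (deriv ψ 0 / deriv ψ' 0) • deriv s' 0, ?_⟩
  rw [e, e', smul_add, smul_smul, div_mul_cancel₀ _ this, add_sub_add_left_eq_sub]
  simp only [sub_smul, smul_assoc]

theorem sec_iff (hC : Nod o C) {f : V M → ℂ} :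
    Sec (sm M) C (fun t z => chr a t * z) (fun _ => {0}) f ↔ IsSec o C a f := by
  simp only [Sec, mem_singleton_iff, sub_eq_zero, Pi.isUnit_iff, isUnit_iff_ne_zero]
  exact ⟨fun h => isSec_of_hol (fun t b c d => (h c d).1 t b) fun c d => (h c d).2,
    fun h c d => ⟨fun t b => h.hom t b c d, h.hol hC d⟩⟩

theorem finrank_pol : Set.finrank ℂ (C.domRestrict '' pol (sm M) chr a) = Module.finrank ℂ
    (Submodule.span ℂ (range fun (μ : Tens M a) (c : C) => val μ c)) := by
  rw [pol_eq, show (Pol M a : Set (V M → ℂ)) = range val from rfl, ← range_comp]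
  rfl

/-- **A curve of the chart is a curve of the statement.** -/
theorem crv_of (h : IsCurve o g m C) (hp : ∀ i, p i ∈ C ∧ ¬IsNode o C (p i))
    (hi : ∀ i j, ∀ s : ι → ℂ, p i = s • p j → i = j) : Crv (sm M) C chr g m p := by
  refine ⟨fun c hc => ⟨fun b => inj_iff.2 (h.ne_zero c b), fun b => h.closed c hc (inj_iff.1 b)⟩,
    fun c b c' e => h.nod.orb b (same_orb.1 e), fun c hc => ?_, fun a ha => ⟨fun f hf => ?_, ?_⟩,
    fun i => ⟨(hp i).1, fun _ _ => not_cross h.nod (hp i).1 (hp i).2⟩,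
    fun i j ⟨t, _, e⟩ => (hi j i t e).symm⟩
  · obtain ⟨γ, δ, b, d⟩ := h.nodal c hc
    exact ⟨γ, δ, b.imp (And.imp_left br_of) cross_of, d⟩
  · obtain ⟨μ, e⟩ := h.normal a (ne_iff.2 ha) f ((sec_iff h.nod).1 hf)
    exact ⟨_, pol_eq.ge (val_mem μ), e⟩
  · rw [finrank_pol, h.hilbert a (ne_iff.2 ha)]

section

variable [Subsingleton ι]

theorem smul_eq_of {v : V M} {s : ℂ} (o : ι) (h : v o = s • c o) : (fun _ : ι => s) • c = v :=
  funext fun i => Subsingleton.elim o i ▸ h.symm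

theorem Br.isBranch (h : Br (sm M) C γ) (h0 : γ 0 o ≠ 0) : IsBranch o C γ :=
  ⟨h.1, h.2.1, li_pair_iff.2 ⟨h0, fun e s k => by_contra fun b => h.2.2 ⟨_, smul_eq_of o
    (s := e⁻¹ * s) (by rw [mul_smul, ← k, inv_smul_smul₀ b])⟩⟩⟩

theorem Cross.isCross (h : Cross (sm M) C c γ δ) (h0 : c o ≠ 0) : IsCross o C c γ δ := by
  obtain ⟨a, b, a0, b0, h⟩ := h
  have k := b.isBranch (o := o) (b0 ▸ h0)
  refine ⟨a.isBranch (a0 ▸ h0), k, a0, b0, li_triple_iff.2 ⟨h0, fun e e' s l => ?_⟩⟩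
  obtain rfl : e = 0 := by_contra fun b => h (-(e⁻¹ * e')) ⟨_, smul_eq_of o (s := e⁻¹ * s) (by
    rw [mul_smul, ← l, smul_add, inv_smul_smul₀ b, neg_smul, sub_neg_eq_add, mul_smul]
    rfl)⟩
  rw [zero_smul, zero_add, ← b0] at l
  exact ⟨rfl, (li_pair_iff.1 k.imm).2 _ _ l⟩

/-- **A curve of the statement in one projective space is a curve of the chart.** -/
theorem isCurve_of (o : ι) (h : Crv (sm M) C chr g m p) : IsCurve o g m C ∧
    (∀ i, p i ∈ C ∧ ¬IsNode o C (p i)) ∧ ∀ i j, ∀ s : ι → ℂ, p i = s • p j → i = j := by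
  obtain ⟨h1, h2, h3, h4, h5, h6⟩ := h
  have ne : ∀ c ∈ C, ∀ i, c i ≠ 0 := fun c b => inj_iff.1 ((h1 c (subset_closure b)).1 b)
  have hC : Nod o C := ⟨ne, fun c b d => (h1 c b).2 (inj_iff.2 d),
    fun t b c d => h2 c d _ (same_orb.2 ⟨t, b, rfl⟩), fun c hc => by
      obtain ⟨γ, δ, b, d⟩ := h3 c hc
      exact ⟨γ, δ, b.imp (fun e => ⟨e.1.isBranch (e.2.1 ▸ ne c hc o), e.2⟩)
        fun e => e.isCross (ne c hc o), d⟩⟩
  refine ⟨⟨hC.ne_zero, hC.closed, hC.cone, hC.nodal, fun a ha f hf => ?_, fun a ha => ?_⟩,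
    fun i => ⟨(h5 i).1, fun ⟨_, _, e⟩ => (h5 i).2 _ _ (cross_of e)⟩, fun i j s e =>
      (h6 j i (same_orb.2 (.of_smul (ne _ (h5 i).1) e))).symm⟩
  · obtain ⟨q, b, e⟩ := (h4 a (ne_iff.1 ha)).1 f ((sec_iff hC).2 hf)
    obtain ⟨μ, rfl⟩ := pol_eq.le b
    exact ⟨μ, e⟩
  · rw [← finrank_pol, (h4 a (ne_iff.1 ha)).2]

end

variable {W : Type} [NormedAddCommGroup W] [NormedSpace ℂ W] [FiniteDimensional ℂ W] {S : Set W}
  {D : W → Set (V M)} {x : W}

/-- **The flatness clause.** -/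
theorem flat (hx : x ∈ S) (h : LocFam o (fun y : S => D y) Subtype.val ⟨x, hx⟩)
    (h0 : IsCurve o g m (D x)) (k : ι → ℕ) (q : V M → ℂ) (hq : q ∈ pol (sm M) chr k)
    (hv : ∀ c ∈ D x, q c = 0) : ∃ Q : W × V M → ℂ, (∀ c, Q (x, c) = q c) ∧
      (∀ y, (fun c => Q (y, c)) ∈ pol (sm M) chr k) ∧ (∀ c, AnalyticAt ℂ Q (x, c)) ∧
      ∀ᶠ y in 𝓝[S] x, ∀ c ∈ D y, Q (y, c) = 0 := by
  obtain ⟨μ₀, rfl⟩ := pol_eq.le hq
  have ev : ∀ {r : W → Prop}, (∀ᶠ y : S in 𝓝 ⟨x, hx⟩, r y) → ∀ᶠ y in 𝓝[S] x, r y := fun a => by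
    rwa [← map_nhds_subtype_val ⟨x, hx⟩, eventually_map]
  by_cases hk : k = 0
  · subst hk
    have e : ∀ c c', val μ₀ c = val μ₀ c' := fun c c' =>
      congrArg μ₀ (funext fun s => s.2.elim0)
    refine ⟨fun z => val μ₀ z.2, fun _ => rfl, fun _ => hq,
      fun c => an_val analyticAt_const analyticAt_snd, ?_⟩
    rcases (D x).eq_empty_or_nonempty with b | ⟨c, b⟩
    · refine ev (r := fun y => ∀ c ∈ D y, val μ₀ c = 0) ?_
      filter_upwards [h.ne_zero, h.cone, (isCompact_univ_pi fun i => isCompact_sphere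
        (0 : Fin (M i) → ℂ) 1).eventually_forall_of_forall_eventually (P := fun (y : S) c => c ∉ D y)
          fun c hc => h.usc c (fun i => ne_zero_of_mem_unit_sphere ⟨_, hc i trivial⟩)
            (b ▸ notMem_empty c)] with y k1 k2 k3 c hc
      obtain ⟨_, ⟨t, k4, rfl⟩, k5⟩ := exists_orb_sphere (k1 c hc)
      exact (k3 _ (fun i _ => mem_sphere_zero_iff_norm.2 (k5 i)) (k2 t k4 c hc)).elim
    · exact .of_forall fun y c' _ => (e c' c).trans (hv c b)
  · obtain ⟨μ, a, b, d⟩ := ext_form h h0 hk hv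
    exact ⟨fun z => val (μ z.1) z.2, fun c => congrArg (val · c) b,
      fun y => pol_eq.ge (val_mem (μ y)), fun c => an_val
        (a.comp_of_eq (analyticAt_fst (p := (x, c))) rfl) analyticAt_snd, ev d⟩

/-- **The manifold clause.** -/
theorem mfd_clause {d : ℕ} (h : MfdAt S d x) : ∃ Φ : (Fin d → ℂ) → W, AnalyticAt ℂ Φ 0 ∧
    Injective (fderiv ℂ Φ 0) ∧ map Φ (𝓝 0) = 𝓝[S] x := by
  obtain ⟨hx, ψ, a, b⟩ := h
  exact ⟨_, a.an, a.injective, (map_map (m := ψ) (m' := Subtype.val)).symm.trans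
    (by rw [a.lh.map_nhds, b, map_nhds_subtype_val])⟩

end Vale.Agent.P269L.I
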