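import Vale.Agent.P269L.I.St
import Vale.Agent.P269L.G.Co
import Vale.Agent.P269L.T.Real
import Vale.Agent.P269.Gen.Top
import Vale.Agent.P269.Base.Mfd
import Vale.Agent.P269.Pub.T3
import Vale.Agent.P269.Pub.Wd2

/-!
# The chart as a presentation: the data and the statements of the leaves
-/

set_option linter.unusedSectionVars false
set_option linter.unusedVariables false

noncomputable section

namespace Vale.Agent.P269L.I

open Set Function Topology Filter MvPolynomial P291Z P269 P269.Ch P269.Tf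

section

variable {ι J K ν : Type} [Fintype ι] [DecidableEq ι] [Fintype J] [Fintype K] [Fintype ν]

/-- Evaluation of forms at a point. -/
def valL {M : ι → ℕ} (b : ι → ℕ) (c : V M) : Tens M b →L[ℂ] ℂ :=
  ContinuousMultilinearMap.apply ℂ _ ℂ fun s => c s.1

theorem valL_apply {M : ι → ℕ} (b : ι → ℕ) (c : V M) (μ : Tens M b) : valL b c μ = val μ c := rfl

variable (ch : Ch ι J)

/-- The space of the thickened target. -/
abbrev Vv : Type := ∀ j, Tens ch.M (ch.b j) →L[ℂ] ℂ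

variable (K) in
/-- The indices of the equations. -/
abbrev Lam : Type :=
  (Σ j, Tens ch.M (ch.b j) × Tens ch.M (ch.b j)) ⊕ K × ∀ i, (Fin (ch.M i) → ℂ) →L[ℂ] ℂ

variable {ch}

/-- The evaluations at `c`. -/
def uu (x : ch.W ν) (c : V ch.M) : ∀ l, ch.E l →L[ℂ] ℂ := Classical.epsilon fun u => (c, u) ∈ gr x

theorem uu_mem {x : ch.W ν} {c : V ch.M} (h : c ∈ crv x) : (c, uu x c) ∈ gr x :=
  let ⟨z, a, b⟩ := h
  Classical.epsilon_spec (p := fun u => (c, u) ∈ gr x) ⟨z.2, b ▸ a⟩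

theorem uu_eq {x : ch.W ν} (hx : x ∈ ch.base ν) {c : V ch.M} {u} (h : (c, u) ∈ gr x) : uu x c = u :=
  funext fun l => ContinuousLinearMap.ext fun w => by
    obtain ⟨μ, rfl⟩ := hx.1 l w
    exact ((uu_mem ⟨_, h, rfl⟩).2 l μ).trans (h.2 l μ).symm

/-- The components of a function. -/
def evL (κ : ch.P K) (l : Lam K ch) (z : ch.Pt) : ℂ :=
  l.elim (fun l => κ.1 l.1 z l.2) fun l => κ.2 l.1 z l.2

variable (ch) in
/-- The data of the chart. -/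
def dat (n : ℕ) (T : Tgt Unit J K) (e : K → ι → ℕ) (a b : ι → ℕ) {r : ℕ}
    (jj : (Fin r → ℂ) →ₗ[ℂ] ch.P K) (ρ' : ch.A (Fin n) → (Fin r → ℂ) → Fin r → ℂ) :
    Dat (ch.A (Fin n)) (ι → ℂ) (ch.W (Fin n)) (V ch.M) (Vv ch) (Fin r → ℂ) (J → ℂ) ι (Lam K ch) n where
  α := act
  ε s c i := s.1 i (c i)
  ν s w j := w j ∘L sub s _
  ρ := ρ'
  τ t c := t • c
  r s l := l.map (fun l => ⟨l.1, sub s _ l.2.1, sub s _ l.2.2⟩) fun l => (l.1, fun i => l.2 i ∘L s.1 i)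
  t i s := s.2.2 i
  S := ch.base _
  d := (ch.dimB (Fin n)).toNat
  C := crv
  m := ch.m
  p i x := x.p i
  a := a
  b := b
  s q j := uu q.1 q.2 (some j) ∘L q.1.X j
  j q j := q.2 j • valL _ q.1
  H l q := l.elim (fun l => val l.2.2 q.1 * q.2 l.1 l.2.1 - val l.2.1 q.1 * q.2 l.1 l.2.2)
    fun l => hmg T e l.1 l.2 q.1 fun j => q.2 j (pw l.2 _)
  ev κ l q := evL (jj κ) l (q.2, uu q.1 q.2)
  σ x := invFun jj (sct T e x)
  f := fld

end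

variable {N c : ℕ} (F : Fin c → MvPolynomial (Fin (N + 1)) ℂ) (g d : ℤ) (n k D : ℕ)

/-- The chart. -/
abbrev cH : Ch (Option Unit) (Fin (N + 1)) := (ci F).chart g n (fun _ => d) k D

/-- The degrees of the equations. -/
abbrev eH : Fin c → Option Unit → ℕ :=
  fun q o => ((ci F).F q).totalDegree * ∑ j, (cH F g d n k D).b j o

/-- The twist. -/
def bH : Option Unit → ℕ := fun o => o.elim 2 fun _ => 0

theorem cH_a (j) : (cH F g d n k D).a (some j) = fun _ => 1 := funext fun o => by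
  rcases o with _ | o <;> rfl

theorem cH_b (j) : (cH F g d n k D).b j = bH := funext fun o => by
  rcases o with _ | o <;> rfl

variable {r : ℕ} (jj : (Fin r → ℂ) →ₗ[ℂ] (cH F g d n k D).P (Fin c))
  (ρ' : (cH F g d n k D).A (Fin n) → (Fin r → ℂ) → Fin r → ℂ)

/-- The presentation. -/
abbrev dt := dat (cH F g d n k D) n (ci F) (eH F g d n k D) (fun _ => 1) bH jj ρ'

/-- The standing hypotheses. -/
structure Hyp (dg : Fin c → ℕ) : Prop where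
  sm : SmCI F dg
  ne : (ci F).cone.Nonempty
  big : (ciF F dg).Big k
  bigD : (ciF F dg).BigD k D
  g0 : 0 ≤ g
  d0 : 0 ≤ d
  pos : 0 < 2 * g - 2 + n + 3 * d
  crd : G.Crd (T.kdT (cH F g d n k D) (Fin n) (ci F) (eH F g d n k D)) jj ρ'
  kur : T.IsKur (cH F g d n k D) (Fin n) (ci F) (eH F g d n k D)
  num : (cH F g d n k D).Num₀
  std : ∃ K₀, (cH F g d n k D).Std (ciF F dg) (eH F g d n k D) K₀ ℓs
  lat : (cH F g d n k D).Lat (ciF F dg).toWt ℓs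

/-- A statement about all good charts. -/
def All (Q : ∀ {N c : ℕ} (F : Fin c → MvPolynomial (Fin (N + 1)) ℂ) (g d : ℤ) (n k D : ℕ) {r : ℕ}
    (jj : (Fin r → ℂ) →ₗ[ℂ] (cH F g d n k D).P (Fin c))
    (_ : (cH F g d n k D).A (Fin n) → (Fin r → ℂ) → Fin r → ℂ), Prop) : Prop :=
  ∀ N c F g d n k D r jj ρ' dg, Hyp F g d n k D jj ρ' dg → @Q N c F g d n k D r jj ρ'

/-- The torus action on the multicone. -/
abbrev tor {ι : Type} {M : ι → ℕ} (t : ι → ℂ) (c : V M) : V M := t • c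

/-- Leaf: equivariance. -/
def LEqv : Prop := All fun F g d n k D _ jj ρ' => (dt F g d n k D jj ρ').Eqv

/-- Leaf: the embedding of the target. -/
def LEmb : Prop := All fun F g d n k D _ jj ρ' =>
  (dt F g d n k D jj ρ').Emb chr (ci F).cone (ci F).tan

/-- Leaf: curves. -/
def LCrv : Prop := ∀ (ι : Type) [Fintype ι] (M : ι → ℕ) (o : ι) (g : ℤ) (m : ι → ℤ) (C : Set (V M))
  (n : ℕ) (p : Fin n → V M), IsCurve o g m C → (∀ i, p i ∈ C ∧ ¬IsNode o C (p i)) →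
    (∀ i j, ∀ s : ι → ℂ, p i = s • p j → i = j) → Crv tor C chr g m p

/-- Leaf: test curves; `C` is seen in `V fun _ : Unit => M`. -/
def LTst : Prop := ∀ (M : ℕ) (g : ℤ) (m : Unit → ℤ) (C : Set (Fin M → ℂ)) (n : ℕ)
  (p : Fin n → Fin M → ℂ), Crv Pub.scal C chr g m p →
    let C' : Set (V fun _ : Unit => M) := {c | c () ∈ C}
    IsCurve () g m C' ∧ (∀ i, p i ∈ C ∧ ¬IsNode () C' fun _ => p i) ∧
      ∀ i j, ∀ s : Unit → ℂ, ((fun _ => p i) : V fun _ : Unit => M) = s • (fun _ => p j) → i = j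

/-- Leaf: the family. -/
def LFam : Prop := All fun F g d n k D _ jj ρ' => (dt F g d n k D jj ρ').Fam chr g

/-- Leaf: solutions, vanishing functions, the section. -/
def LSol : Prop := All fun {N c} F g d n k D _ jj ρ' =>
  let 𝒟 := dt F g d n k D jj ρ'
  𝒟.sol (ci F).cone = (cH F g d n k D).sol (Fin n) (ci F) ∧
  (∀ x ∈ 𝒟.S, 𝒟.van x = jj ⁻¹' van (ci F) (eH F g d n k D) x ∧
    jj (𝒟.σ x) = sct (ci F) (eH F g d n k D) x) ∧
  ∀ x ∈ 𝒟.sol (ci F).cone, (∀ᶠ y in 𝓝[𝒟.S] x, Set.finrank ℂ (𝒟.van y) = Set.finrank ℂ (𝒟.van x)) ∧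
    ∀ c ∈ 𝒟.C x, 𝒟.f x c ∈ (ci F).cone ∧ 𝒟.s (x, c) = 𝒟.j (c, 𝒟.f x c)

/-- Leaf: the obstruction space is the space of sections of the normal bundle. -/
def LNm : Prop := All fun {N c} F g d n k D _ jj ρ' =>
  let 𝒟 := dt F g d n k D jj ρ'
  ∀ x ∈ (cH F g d n k D).sol (Fin n) (ci F), (∀ e, 𝒟.Nm chr (ci F).tan x e → ∃ κ, 𝒟.Df x κ e) ∧
    {κ | ∃ e, 𝒟.Nm chr (ci F).tan x e ∧ 𝒟.Df x κ e} = jj ⁻¹' obs (ci F) (eH F g d n k D) x

section

variable {A B W E V P X ι Λ : Type} [NormedRing A] [NormedAlgebra ℂ A] [NormedRing B]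
  [NormedAlgebra ℂ B] [NormedAddCommGroup W] [NormedSpace ℂ W] [NormedAddCommGroup E]
  [NormedSpace ℂ E] [NormedAddCommGroup V] [NormedSpace ℂ V] [NormedAddCommGroup P] [NormedSpace ℂ P]
  [NormedAddCommGroup X] [NormedSpace ℂ X] [Fintype ι] {n : ℕ} (D : Dat A B W E V P X ι Λ n) (x : W)

/-- The relative tangent space. -/
def Dat.TT (v : W) (ξ : E → E) : Prop :=
  v ∈ Tan D.S x ∧ Sec D.τ (D.C x) D.τ (dir D.τ) ξ ∧ (∀ c ∈ D.C x, (v, ξ c) ∈ Tan D.U (x, c)) ∧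
    ∀ i, ξ (D.p i x) - fderiv ℂ (D.p i) x v ∈ dir D.τ (D.p i x)

/-- The line of the map. -/
def Dat.LL (c : E) : Set V := range fun z : ℂ => z • D.s (x, c)

/-- The derivative of the map. -/
def Dat.RR (v : W) (ξ : E → E) (e : E → V) : Prop :=
  ∀ c ∈ D.C x, ∀ h, Ext D.U D.s (x, c) h →
    fderiv ℂ h (x, c) (v, ξ c) - fderiv ℂ D.j (c, D.f x c) (ξ c, 0) - e c ∈ D.LL x c

end

/-- Leaf: the relative tangent space maps onto the sections of the tangent bundle. -/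
def LOnto : Prop := All fun {N c} F g d n k D _ jj ρ' =>
  let 𝒟 := dt F g d n k D jj ρ'
  ∀ x ∈ (cH F g d n k D).sol (Fin n) (ci F), ∀ e, 𝒟.Sc chr x (𝒟.LL x) e →
    ∃ v ξ, 𝒟.TT x v ξ ∧ 𝒟.RR x v ξ e

/-- Leaf: the kernel is the Lie algebra. -/
def LKer : Prop := All fun {N c} F g d n k D _ jj ρ' =>
  let 𝒟 := dt F g d n k D jj ρ'
  ∀ x ∈ (cH F g d n k D).sol (Fin n) (ci F), ∀ v ξ, 𝒟.TT x v ξ → 𝒟.RR x v ξ (fun _ => 0) →
    ∃ u, v = fderiv ℂ (𝒟.α · x) 1 u ∧ ∀ c ∈ 𝒟.C x, ξ c - fderiv ℂ (𝒟.ε · c) 1 u ∈ dir 𝒟.τ c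

/-- Leaf: isomorphisms are the elements of the group. -/
def LIsoG : Prop := All fun {N c} F g d n k D _ jj ρ' =>
  let 𝒟 := dt F g d n k D jj ρ'
  ∀ x ∈ (cH F g d n k D).sol (Fin n) (ci F), ∀ y ∈ (cH F g d n k D).sol (Fin n) (ci F), ∀ φ,
    Iso 𝒟.τ 𝒟.τ (ci F).act (𝒟.C x) (𝒟.C y) (𝒟.p · x) (𝒟.p · y) (𝒟.f x) (𝒟.f y) φ →
      ∃! u, IsUnit u ∧ 𝒟.α u x = y ∧ ∀ c ∈ 𝒟.C x, Same 𝒟.τ (𝒟.ε u c) (φ c)

/-- Leaf: the solutions are stable maps. -/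
def LStb : Prop := All fun {N c} F g d n k D _ jj ρ' =>
  let 𝒟 := dt F g d n k D jj ρ'
  ∀ x ∈ (cH F g d n k D).sol (Fin n) (ci F),
    Stb 𝒟.τ (ci F).act (𝒟.C x) (ci F).cone chr g 𝒟.m (𝒟.p · x) (𝒟.f x)

/-- Leaf: every stable map occurs in the chart of its degree. -/
def LOcc : Prop := ∀ (N c : ℕ) (F : Fin c → MvPolynomial (Fin (N + 1)) ℂ) (dg : Fin c → ℕ) (g : ℤ)
  (n k D M : ℕ) (C : Set (Fin M → ℂ)) (m : Unit → ℤ) (p : Fin n → Fin M → ℂ)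
  (f : (Fin M → ℂ) → Fin (N + 1) → ℂ), SmCI F dg → (ciF F dg).Big k → (ciF F dg).BigD k D →
    Stb Pub.scal (ci F).act C (ci F).cone chr g m p f → IsConnected C →
    ∃ d : ℕ, 0 < 2 * g - 2 + n + 3 * d ∧ ∃ x ∈ (cH F g d n k D).sol (Fin n) (ci F), ∃ φ,
      Iso Pub.scal tor (ci F).act C (crv x) p x.p f (fld x) φ

/-- Leaf: the class is invariant under isomorphisms. -/
def LCls : Prop := ∀ (N c : ℕ) (F : Fin c → MvPolynomial (Fin (N + 1)) ℂ) (g g' : ℤ) (n M : ℕ)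
  (C : Set (Fin M → ℂ)) (m : Unit → ℤ) (p : Fin n → Fin M → ℂ) (f : (Fin M → ℂ) → Fin (N + 1) → ℂ)
  (M' : Option Unit → ℕ) (C' : Set (V M')) (m' : Option Unit → ℤ) (p' : Fin n → V M')
  (f' : V M' → Fin (N + 1) → ℂ) (φ) (β : Pub.Bm (ci F).X), Crv Pub.scal C chr g m p →
    IsCurve none g' m' C' → Hol Pub.scal (ci F).act C (ci F).cone f →
    Hol tor (ci F).act C' (ci F).cone f' →
    Iso Pub.scal tor (ci F).act C C' p p' f f' φ → Cls Pub.scal C (Quo.mk (ci F).act) f β →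
    Cls tor C' (Quo.mk (ci F).act) f' β

/-- Leaf: the class in the two languages. -/
def LCls' : Prop := All fun {N c} F g d n k D _ _ _ =>
  ∀ (x : (cH F g d n k D).sol (Fin n) (ci F)) (β : BM (ci F).X),
    Cls tor (crv x.1) (Quo.mk (ci F).act) (fld x.1) (fn β) ↔ IsConnected (crv x.1) ∧ HasClass x β

/-- Leaf: the tangent line at a smooth point. -/
def LPsi : Prop := ∀ (ι : Type) [Fintype ι] [DecidableEq ι] (M : ι → ℕ) (o : ι) (g : ℤ) (m : ι → ℤ)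
  (C : Set (V M)) (p : V M), IsCurve o g m C → p ∈ C → ¬IsNode o C p →
    Submodule.span ℂ (Tan C p) = Submodule.span ℂ {v | ∃ γ : ℂ → V M, AnalyticAt ℂ γ 0 ∧
      (∀ᶠ t in 𝓝 0, γ t ∈ C) ∧ γ 0 = p ∧ v = deriv γ 0} ∧
    Submodule.span ℂ (dir tor p) = Submodule.span ℂ (range fun i => (Pi.single i (p i) : V M))

/-- Leaf: the virtual class in coordinates. -/
def LVir : Prop := ∀ (A W P : Type) [NormedRing A] [NormedAlgebra ℂ A] [NormedAddCommGroup W]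
  [NormedSpace ℂ W] [AddCommGroup P] [Module ℂ P] [TopologicalSpace P] [FiniteDimensional ℂ A]
  [FiniteDimensional ℂ W] [IsTopologicalAddGroup P] [ContinuousSMul ℂ P] [T2Space P] (D : KD A W P)
  (act : A → W → W) (Z S O : Set W) (v r d n : ℕ) (j : (Fin n → ℂ) →ₗ[ℂ] P)
  (ρ' : A → (Fin n → ℂ) → Fin n → ℂ) (van obs : W → Set (Fin n → ℂ)) (σ : W → Fin n → ℂ),
    T.Kur D act Z S O v r d → G.Crd D j ρ' → (∀ x ∈ S, van x = j ⁻¹' D.van x ∧ j (σ x) = D.s x) →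
    (∀ x ∈ Z, obs x = j ⁻¹' D.obs x) → ∀ b,
      Tx.VirE act ρ' S Z univ van obs σ id ρ' b ↔ ∃ w, D.Stm act Z S w ∧ Tf.fn w = b

/-- The integral of the text in the chart. -/
def IntH (β : Pub.Bm (ci F).X) : (Fin n → ℕ × Pub.Co (ci F).X) → ℂ → Prop :=
  let 𝒟 := dt F g d n k D jj ρ'
  Intg 𝒟.α 𝒟.ρ 𝒟.S (𝒟.sol (ci F).cone) 𝒟.van
    (fun x => {κ | ∃ e, 𝒟.Nm chr (ci F).tan x e ∧ 𝒟.Df x κ e}) 𝒟.σ
    (fun x => Cls 𝒟.τ (𝒟.C x) (Quo.mk (ci F).act) (𝒟.f x) β)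
    (fun i x y => ∃ h, y = Quo.mk (ci F).act ⟨𝒟.f x (𝒟.p i x), h⟩)
    (fun i u c => 𝒟.τ (𝒟.t i u) (𝒟.ε u c)) (fun i x => Tan (𝒟.C x) (𝒟.p i x))
    fun i x => dir 𝒟.τ (𝒟.p i x)

/-- Leaf: the integrals. -/
def LInt : Prop := All fun {N c} F g d n k D _ jj ρ' =>
  ∀ (β : BM (ci F).X) (u : Fin n → ℕ) (a : Fin n → Coch (ci F).X) (z : ℂ),
    IntH F g d n k D jj ρ' (fn β) (fun i => (u i, (a i).1)) z ↔
      ∃ v e s, (cH F g d n k D).IsVir (Fin n) (ci F) (eH F g d n k D) v ∧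
        (∀ i, (cH F g d n k D).IsTan (ci F) i (e i)) ∧ s = (cH F g d n k D).igd (ci F) β u e a ∧
        CompactSpace ((cH F g d n k D).Mod (Fin n) (ci F)) ∧ s ∈ Zc _ ∧ z = ev v s

/-- Leaf: the degree is a function of the class, and the values do not depend on the chart. -/
def LVal : Prop := ∀ (N c : ℕ) (F : Fin c → MvPolynomial (Fin (N + 1)) ℂ) (dg : Fin c → ℕ), SmCI F dg →
  (ci F).cone.Nonempty → ∃ (V : ℤ → BM (ci F).X → ∀ n, (Fin n → ℕ) → (Fin n → H (ci F).X) → ℤ → ℂ)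
    (s : Coch (ci F).X),
    (∀ g β n d, ∀ᶠ k in atTop, ∀ᶠ D in atTop, ∀ m c,
      (cH F g d n k D).ValC (ci F) β m c (V g β n m c d) ∧ (cH F g d n k D).Cpc (ci F) β m) ∧
    (∀ g β n m c d, V g β n m c d ≠ 0 → ev β s = d) ∧
    ∀ g d n k D, (ciF F dg).Big k → (ciF F dg).BigD k D →
      ∀ (x : (cH F g d n k D).sol (Fin n) (ci F)) β, HasClass x β → ev β s = d

/-- Leaf: good charts exist. -/
def LHyp : Prop := ∀ (N c : ℕ) (F : Fin c → MvPolynomial (Fin (N + 1)) ℂ) (dg : Fin c → ℕ) (g d : ℤ)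
  (n : ℕ), SmCI F dg → (ci F).cone.Nonempty → 0 ≤ g → 0 ≤ d → 0 < 2 * g - 2 + n + 3 * d →
    ∀ᶠ k in atTop, ∀ᶠ D in atTop, ∃ r jj ρ', @Hyp N c F g d n k D r jj ρ' dg

end Vale.Agent.P269L.I
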