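import Vale.Agent.P269L.I.Eul
import Vale.Agent.P269.Cv.Dict
import Vale.Agent.P269.Holo.Bundle

/-!
# The derivative of a family of maps to projective space along a lifted vector field
-/

set_option linter.unusedSectionVars false

namespace Vale.Agent.P269L.I

open Set Function Topology Filter Module P269 P269.Cv P269.Cv.Dict

variable {W F ι : Type} [NormedAddCommGroup W] [NormedSpace ℂ W] [NormedAddCommGroup F]
  [NormedSpace ℂ F] [Fintype ι] {M : ι → ℕ} {a : ι → ℤ} {S : W × V M → F} {x v : W} {c e : V M}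

/-- the torus action as a linear map -/
noncomputable def tL (t : ι → ℂ) : V M →L[ℂ] V M :=
  .pi fun i => t i • ContinuousLinearMap.proj i

theorem tL_apply (t : ι → ℂ) (c : V M) : tL t c = t • c := rfl

section hom

variable (hh : ∀ y (t : ι → ℂ) c, (∀ i, t i ≠ 0) → S (y, t • c) = (∏ i, t i ^ a i) • S (y, c))
include hh

theorem fderiv_scale {t : ι → ℂ} (ht : ∀ i, t i ≠ 0) (h : DifferentiableAt ℂ S (x, c))
    (h' : DifferentiableAt ℂ S (x, t • c)) :
    fderiv ℂ S (x, t • c) (v, t • e) = (∏ i, t i ^ a i) • fderiv ℂ S (x, c) (v, e) := by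
  have h1 := h'.hasFDerivAt.comp (x, c)
    ((ContinuousLinearMap.id ℂ W).prodMap (tL (M := M) t)).hasFDerivAt
  have h2 := h.hasFDerivAt.const_smul (∏ i, t i ^ a i)
  exact DFunLike.congr_fun (h1.unique (h2.congr_of_eventuallyEq
    (.of_forall fun q => hh q.1 t q.2 ht))) (v, e)

theorem fderiv_euler (h : DifferentiableAt ℂ S (x, c)) (α : ι → ℂ) :
    fderiv ℂ S (x, c) (0, α • c) = (∑ i, a i * α i) • S (x, c) := by
  have h1 : HasDerivAt (fun ε : ℂ => (x, (fun i => Complex.exp (ε * α i)) • c)) (0, α • c) 0 :=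
    (hasDerivAt_const _ _).prodMk (hasDerivAt_pi.2 fun i => by
      simpa using (((hasDerivAt_id (0 : ℂ)).mul_const (α i)).cexp).smul_const (c i))
  have h2 := h.hasFDerivAt.comp_hasDerivAt_of_eq 0 h1 (Prod.ext rfl (funext fun i => by simp))
  have h3 := (((hasDerivAt_id (0 : ℂ)).mul_const (∑ i, a i * α i)).cexp).smul_const (S (x, c))
  refine (h2.unique (h3.congr_of_eventuallyEq (.of_forall fun ε => ?_))).trans (by simp)
  refine (hh x _ c fun i => Complex.exp_ne_zero _).trans (congrArg (· • _) ?_)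
  simp only [← Complex.exp_int_mul, ← Complex.exp_sum, id, Finset.mul_sum]
  exact congrArg _ (Finset.sum_congr rfl fun i _ => by ring)

theorem fderiv_add_torus (h : DifferentiableAt ℂ S (x, c)) (α : ι → ℂ) :
    fderiv ℂ S (x, c) (v, α • c + e) =
      fderiv ℂ S (x, c) (v, e) + (∑ i, a i * α i) • S (x, c) := by
  rw [← fderiv_euler hh h, ← map_add, Prod.mk_add_mk, add_zero, add_comm e]

end hom

variable {X J : Type} [TopologicalSpace X] [T2Space X] [CompactSpace X] {R : RS X} [Fintype J]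
  {o : ι} {C : Set (V M)} {N : Finset (X × X)} {A : ι → LB R} {π : X → V M}

/-- `ξ` is a holomorphic vector field along the curve, modulo the torus directions -/
structure Vf (o : ι) (C : Set (V M)) (ξ : V M → V M) : Prop where
  hom : ∀ t : ι → ℂ, (∀ i, t i ≠ 0) → ∀ c ∈ C, ∃ α : ι → ℂ, ξ (t • c) = α • t • c + t • ξ c
  hol : ∀ γ, IsBranch o C γ → ∃ η, AnalyticAt ℂ η 0 ∧
    ∀ᶠ t in 𝓝 0, ∃ α : ι → ℂ, ξ (γ t) = α • γ t + η t

variable (h : Cv.Par o C N A π) {ξ : V M → V M}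
include h

theorem tsec_of {Φ : V M → V M → J → ℂ} {s : V M → J → ℂ} (hξ : Vf o C ξ)
    (h1 : ∀ t : ι → ℂ, (∀ i, t i ≠ 0) → ∀ c ∈ C, ∀ e, Φ (t • c) (t • e) = (∏ i, t i ^ a i) • Φ c e)
    (h2 : ∀ c ∈ C, ∀ (α : ι → ℂ) e, ∃ r : ℂ, Φ c (α • c + e) = Φ c e + r • s c)
    (h3 : ∀ γ η, IsBranch o C γ → AnalyticAt ℂ η 0 → AnalyticAt ℂ (fun t => Φ (γ t) (η t)) 0) :
    (fun y => Φ (π y) (ξ (π y))) ∈ TSec N (bz A a) fun y => s (π y) := by
  refine ⟨fun p => ?_, fun n hn => ⟨0, by simp only [zero_smul, node_eq h.sec hn, sub_self]⟩⟩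
  obtain ⟨η, k1, k2⟩ := hξ.hol _ (h.isBranch p)
  refine ⟨fun y => (bz A a).φ p y • Φ (br A π p (R.e p y)) (η (R.e p y)), fun j => ?_, ?_⟩
  · refine (analyticAt_pi_iff.1 (h3 _ _ (h.isBranch p) k1) j).congr
      ((R.tgt_nhds p).mono fun t ht => ?_)
    simp only [LB.loc, R.e_i ht, Pi.smul_apply, smul_eq_mul]
    rw [mul_div_cancel_left₀ _ ((bz A a).ne _ _)]
  · filter_upwards [R.src_nhds p, (R.tends_e p).eventually k2] with y hy ⟨α, e1⟩
    have ht := fun i => (A i).ne p y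
    obtain ⟨β, e2⟩ := hξ.hom _ ht _ (h.br_mem p (R.e p y))
    obtain ⟨r, e3⟩ := h2 _ (h.mem y) (β + α) ((fun i => (A i).φ p y) • η (R.e p y))
    refine ⟨r, ?_⟩
    rw [br_e (A := A) (π := π) hy] at e3 ⊢
    rw [e2, e1, smul_add, smul_comm _ α, ← add_assoc, ← add_smul, e3,
      h1 _ ht _ (h.br_mem p _), bz_φ, add_sub_cancel_left]

/-- the derivative of `j (f c, c)` in the direction of the curve only -/
theorem dj_mem {w : ι → ℤ} {b : ι → ℕ} (hw : ∀ i, a i = w i + b i) {y : V M → J → ℂ}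
    (hy : ∀ j, IsSecZ o C w fun c => y c j) (μ : J → Tens M b) (hξ : Vf o C ξ) :
    (fun z j => y (π z) j * fderiv ℂ (val (μ j)) (π z) (ξ (π z))) ∈
      TSec N (bz A a) fun z j => y (π z) j * val (μ j) (π z) := by
  have hh : ∀ j (u : ℂ) (t : ι → ℂ) c, (∀ i, t i ≠ 0) → (fun q : ℂ × V M => val (μ j) q.2) (u, t • c) =
      (∏ i, t i ^ (b i : ℤ)) • (fun q : ℂ × V M => val (μ j) q.2) (u, c) := fun j u t c _ => by
    simp only [val_smul, zpow_natCast, smul_eq_mul]
  have hd : ∀ j c, HasFDerivAt (fun q : ℂ × V M => val (μ j) q.2)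
      (fderiv ℂ (val (μ j)) c ∘L .snd ℂ _ _) (0, c) := fun j c =>
    HasFDerivAt.comp ((0 : ℂ), c) (f := Prod.snd) (an_val (μ j) c).differentiableAt.hasFDerivAt
      hasFDerivAt_snd
  refine tsec_of h (Φ := fun c e j => y c j * fderiv ℂ (val (μ j)) c e)
    (s := fun c j => y c j * val (μ j) c) hξ (fun t ht c hc e => funext fun j => ?_)
    (fun c _ α e => ⟨∑ i, (b i : ℤ) * α i, funext fun j => ?_⟩) fun γ η hγ hη =>
      analyticAt_pi_iff.2 fun j => ((hy j).holo γ hγ).mul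
        (Holo.an_apply ((an_val (μ j) _).fderiv.comp hγ.holo) hη)
  · have k := fderiv_scale (v := 0) (e := e) (hh j) ht (hd j c).differentiableAt
      (hd j _).differentiableAt
    rw [(hd j _).fderiv, (hd j _).fderiv] at k
    simp only [Pi.smul_apply, smul_eq_mul, (hy j).hom t ht c hc, hw, zpow_add₀ (ht _),
      Finset.prod_mul_distrib]
    rw [show fderiv ℂ (val (μ j)) (t • c) (t • e) = _ from k, smul_eq_mul]
    exact mul_mul_mul_comm _ _ _ _
  · have k := fderiv_add_torus (v := 0) (e := e) (hh j) (hd j c).differentiableAt α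
    rw [(hd j _).fderiv] at k
    simp only [Pi.smul_apply, Pi.add_apply, smul_eq_mul]
    rw [show fderiv ℂ (val (μ j)) c (α • c + e) = _ from k, smul_eq_mul, mul_add, mul_left_comm]
    rfl

variable {S : W × V M → J → ℂ}
  (hh : ∀ y (t : ι → ℂ) c, (∀ i, t i ≠ 0) → S (y, t • c) = (∏ i, t i ^ a i) • S (y, c))
  (hS : ∀ c ∈ C, AnalyticAt ℂ S (x, c))
include hh hS

theorem s_mem (j : J) : (fun y => S (x, π y) j) ∈ H0 N (bz A a) :=
  h.mem_of_isSecZ (f := fun c => S (x, c) j)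
    ⟨fun c hc => ((analyticAt_pi_iff.1 (hS c hc) j).comp
      (analyticAt_const.prod analyticAt_id)).continuousAt.continuousWithinAt,
    fun t ht c _ => congrFun (hh x t c ht) j, fun γ hγ =>
      (analyticAt_pi_iff.1 (hS _ hγ.mem.self_of_nhds) j).comp_of_eq (f := fun t => (x, γ t))
        (analyticAt_const.prod hγ.holo) rfl⟩

/-- **The derivative of `s` along a lift is a section of `s^* T_ℙ`.** -/
theorem ds_mem (hξ : Vf o C ξ) (v : W) :
    (fun y => fderiv ℂ S (x, π y) (v, ξ (π y))) ∈ TSec N (bz A a) fun y => S (x, π y) :=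
  tsec_of h (Φ := fun c e => fderiv ℂ S (x, c) (v, e)) (s := fun c => S (x, c)) hξ
    (fun t ht c hc _ => fderiv_scale hh ht (hS c hc).differentiableAt
      (hS _ (h.cone t ht c hc)).differentiableAt)
    (fun c hc α _ => ⟨_, fderiv_add_torus hh (hS c hc).differentiableAt α⟩) fun γ _ hγ hη =>
      Holo.an_apply ((hS _ hγ.mem.self_of_nhds).fderiv.comp_of_eq (f := fun t => (x, γ t))
        (analyticAt_const.prod hγ.holo) rfl) (analyticAt_const.prod hη)

end Vale.Agent.P269L.I
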