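import Vale.Agent.P269.Cv.Rat

/-!
# Involutions of a surface of genus one
-/

set_option linter.unusedSectionVars false

namespace Vale.Agent.P269L.I

open Set Function Topology Filter Module Vale.Agent.P269 Vale.Agent.P269.Cv

theorem deck_one {f g : ℂ → ℂ} (hf : AnalyticAt ℂ f 0) (f0 : f 0 = 0) (fd : deriv f 0 ≠ 0)
    (hg : AnalyticAt ℂ g 0) (g0 : g 0 = 0) (gd : deriv g 0 ≠ 0) : ∃ ψ : ℂ → ℂ,
    AnalyticAt ℂ ψ 0 ∧ ψ 0 = 0 ∧ deriv ψ 0 ≠ 0 ∧ ∀ᶠ t in 𝓝 0, g (ψ t) = f t := by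
  have hd := hg.hasStrictDerivAt
  let χ := hd.localInverse g _ 0 gd
  have h1 : ∀ᶠ z in 𝓝 (f 0), g (χ z) = z := (g0.trans f0.symm) ▸ hd.eventually_right_inverse gd
  have h2 : χ (f 0) = 0 := (g0.trans f0.symm) ▸ (hd.eventually_left_inverse gd).self_of_nhds
  have h3 : AnalyticAt ℂ (fun t => χ (f t)) 0 :=
    (hg.analyticAt_localInverse gd).comp_of_eq hf (f0.trans g0.symm)
  have h4 := hf.continuousAt.eventually h1
  refine ⟨_, h3, h2, fun e => fd ?_, h4⟩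
  have := deriv_comp (h₂ := g) (h := fun t => χ (f t)) 0 (by rw [h2]; exact hg.differentiableAt)
    h3.differentiableAt
  rwa [e, mul_zero, EventuallyEq.deriv_eq (f₁ := g ∘ fun t => χ (f t)) (f := f) h4] at this

theorem deck_two {f : ℂ → ℂ} (hf : AnalyticAt ℂ f 0) (o : analyticOrderAt f 0 = (2 : ℕ)) :
    ∃ ψ : ℂ → ℂ, AnalyticAt ℂ ψ 0 ∧ ψ 0 = 0 ∧ deriv ψ 0 ≠ 0 ∧
      ∀ᶠ t in 𝓝 0, f (ψ t) = f t ∧ (ψ t = t → t = 0) := by
  obtain ⟨h, h1, h2, h3⟩ := hf.analyticOrderAt_eq_natCast.1 o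
  obtain ⟨c, hc⟩ := IsAlgClosed.exists_pow_nat_eq (h 0) two_pos
  have h4 : AnalyticAt ℂ (fun t => h t / h 0) 0 := h1.div_const
  have h5 : AnalyticAt ℂ (fun t => c * Complex.exp (Complex.log (h t / h 0) / 2)) 0 :=
    analyticAt_const.mul ((h4.clog (by simp [h2])).div_const.cexp)
  generalize hr : (fun t => c * Complex.exp (Complex.log (h t / h 0) / 2)) = r at h5
  have h6 : ∀ᶠ t in 𝓝 0, r t ≠ 0 ∧ f t = (t * r t) ^ 2 := by
    filter_upwards [h3, h1.continuousAt.eventually_ne h2] with t a b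
    have e : r t ^ 2 = h t := by
      rw [← hr, mul_pow, hc, ← Complex.exp_nat_mul, Nat.cast_ofNat, mul_div_cancel₀ _ two_ne_zero,
        Complex.exp_log (div_ne_zero b h2), mul_div_cancel₀ _ h2]
    exact ⟨fun k => b (by rw [← e, k]; simp), by rw [a, mul_pow, e]; simp⟩
  have h7 : AnalyticAt ℂ (fun t => t * r t) 0 := analyticAt_id.mul h5
  have h8 : deriv (fun t => t * r t) 0 ≠ 0 := by
    rw [((hasDerivAt_id' (0 : ℂ)).fun_mul h5.differentiableAt.hasDerivAt).deriv]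
    simpa using h6.self_of_nhds.1
  obtain ⟨ψ, a, b, d, e⟩ := deck_one h7.fun_neg (by simp) (by rwa [deriv.fun_neg, neg_ne_zero]) h7
    (by simp) h8
  refine ⟨ψ, a, b, d, ?_⟩
  filter_upwards [e, h6, (a.continuousAt.tendsto.mono_right (congrArg 𝓝 b).le).eventually h6]
    with t k1 k2 k3
  refine ⟨by rw [k3.2, k1, k2.2, neg_sq], fun k => ?_⟩
  rw [k] at k1
  exact (mul_eq_zero.1 (self_eq_neg.1 k1)).resolve_right k2.1

variable {X Y : Type} [TopologicalSpace X] [TopologicalSpace Y] {R : RS X} {Q : RS Y}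

theorem liso_of {σ : X → Y} (h : ∀ x, ∃ ψ : ℂ → ℂ, AnalyticAt ℂ ψ 0 ∧ ψ 0 = 0 ∧ deriv ψ 0 ≠ 0 ∧
    ∀ᶠ t in 𝓝 0, σ (R.i x t) = Q.i (σ x) (ψ t)) : LIso R Q σ := by
  choose ψ a b c d using h
  have t := fun x => (a x).continuousAt.tendsto.mono_right (congrArg 𝓝 (b x)).le
  have e : ∀ x, (fun t => Q.e (σ x) (σ (R.i x t))) =ᶠ[𝓝 0] ψ x := fun x => by
    filter_upwards [d x, (t x).eventually (Q.tgt_nhds (σ x))] with z k1 k2
    rw [k1, Q.e_i k2]
  refine ⟨continuous_iff_continuousAt.2 fun x => ?_, fun x => (a x).congr (e x).symm,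
    fun x => (e x).deriv_eq.trans_ne (c x)⟩
  rw [ContinuousAt, ← R.map_i x, tendsto_map'_iff]
  exact ((Q.tends_i _).comp (t x)).congr' ((d x).mono fun _ => .symm)

variable [T2Space X] [CompactSpace X] [ConnectedSpace X]

theorem finrank_ell (h : chi (1 : LB R) = 0) {L : LB R} (hL : 1 ≤ deg L) :
    (finrank ℂ L.Γ : ℤ) = deg L := by
  have h1 := chi_eq L
  rw [chi, Ge.finrank_eq_zero (L := R.K / L) fun U a b => by
    rw [a.eq_univ b, degOn_univ, deg_inv, deg_div, deg_K]; omega] at h1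
  omega

theorem ord_div {L : LB R} {s t : X → ℂ} {x : X} (hs : L.Sec s x) (ht : L.Sec t x) (h0 : t x ≠ 0) :
    analyticOrderAt (fun z => s (R.i x z) / t (R.i x z)) 0 = L.ord s x := by
  have := (R.cmp_e x).ord_eq (R.mem x) hs ht h0
  rwa [R.zero] at this

/-- **A surface of genus one is homogeneous.** -/
theorem exists_inv (h : chi (1 : LB R) = 0) {a b : X} (hab : a ≠ b) :
    ∃ σ : X ≃ X, LIso R R σ ∧ σ a = b := by
  let L := R.pt a * R.pt b
  have dL : deg L = 2 := by rw [deg_mul, deg_pt, deg_pt]; rfl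
  have d1 : ∀ x, deg (L / R.pt x) = 1 := fun x => by rw [deg_div, dL, deg_pt]; rfl
  have r1 : ∀ x, finrank ℂ (L / R.pt x).Γ = 1 := fun x => by
    have := finrank_ell h (d1 x).ge
    rw [d1] at this
    omega
  choose u hu h1 using fun x => finrank_eq_one_iff'.1 (r1 x)
  have n : ∀ x, ∃ y, (u x).1 y ≠ 0 := fun x => ne_iff.1 fun e => hu x (Subtype.ext e)
  choose σ z1 z2 z3 using fun x => one_zero (d1 x) (u x).2 (n x).choose_spec
  let s := fun x => (u x).1 * RS.can x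
  have sm : ∀ x, s x ∈ L.Γ := fun x => div_mul_cancel L (R.pt x) ▸ LB.mul_mem (u x).2 (R.can_mem x)
  have so : ∀ x y, L.ord (s x) y = (L / R.pt x).ord (u x) y + (R.pt x).ord (RS.can x) y :=
    fun x y => by
      conv_lhs => rw [← div_mul_cancel L (R.pt x)]
      exact LB.ord_mul ((u x).2 y) (R.can_mem x y)
  have s0 : ∀ x, s x x = 0 := fun x => by simp [s, RS.can]
  have k1 : ∀ x, ∀ w ∈ L.Γ, w x = 0 → ∃ c : ℂ, w = c • s x := fun x w hw w0 => by
    obtain ⟨w', a1, a2, -⟩ := exists_div (L := L / R.pt x) ((div_mul_cancel L _).symm ▸ hw) w0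
    obtain ⟨c, e⟩ := h1 x ⟨w', a1⟩
    exact ⟨c, by rw [a2, ← smul_mul_assoc, ← show _ = w' from congrArg Subtype.val e]; rfl⟩
  have k2 : ∀ x y, ∀ w ∈ L.Γ, w ≠ 0 → w x = 0 → w y = 0 → y ≠ x → y = σ x :=
    fun x y w hw w0 wx wy e => by
      obtain ⟨c, rfl⟩ := k1 x w hw wx
      refine z3 x y ?_
      simpa [s, can_ne e, show c ≠ 0 from fun k => w0 (by rw [k, zero_smul])] using wy
  have sn : ∀ x, s x ≠ 0 := fun x e => by
    have := so x x
    rw [e, (LB.ord_eq_top (s := 0)).2 (.of_forall fun _ => rfl), R.ord_can] at this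
    exact WithTop.add_ne_top.2 ⟨((u x).2 x).ord_ne_top.2
      (gen_univ (u x).2 (n x).choose_spec ▸ mem_univ x), ENat.one_ne_top⟩ this.symm
  have s1 : ∀ x, s x (σ x) = 0 := fun x => by simp [s, z1]
  have iv : Involutive σ := fun x => by
    by_cases e : x = σ x
    · rw [← e, ← e]
    · exact (k2 _ _ _ (sm x) (sn x) (s1 x) (s0 x) e).symm
  refine ⟨iv.toPerm σ, liso_of (σ := σ) fun x => ?_, (k2 a b _ (LB.mul_mem (R.can_mem a) (R.can_mem b))
    (fun e => ?_) (by simp [RS.can]) (by simp [RS.can]) hab.symm).symm⟩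
  swap
  · have := R.neBot a
    obtain ⟨y, k⟩ := (mem_gen.1 (show a ∈ Gen (RS.can a * RS.can b) by
      rw [gen_mul, gen_can, gen_can]; simp)).exists
    exact k (congrFun e y)
  obtain ⟨t, tm, t0⟩ : ∃ t ∈ L.Γ, t x ≠ 0 := by
    by_contra! c
    have := finrank_le_one (⟨s x, sm x⟩ : L.Γ) fun w =>
      let ⟨c, e⟩ := k1 x w w.2 (c w w.2)
      ⟨c, Subtype.ext e.symm⟩
    have := finrank_ell h (L := L) (by omega)
    omega
  have t1 : t (σ x) ≠ 0 := fun e => by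
    by_cases c : x = σ x
    · exact t0 (c ▸ e)
    · obtain ⟨c, rfl⟩ := k1 _ t tm e
      exact t0 (mul_eq_zero_of_right _ (by simpa only [iv x] using s1 (σ x)))
  have an : ∀ y, t y ≠ 0 → AnalyticAt ℂ (fun z => s x (R.i y z) / t (R.i y z)) 0 :=
    fun y k => (sm x y).hol_div (tm y) k
  obtain ⟨ψ, a1, a2, a3, a4⟩ : ∃ ψ : ℂ → ℂ, AnalyticAt ℂ ψ 0 ∧ ψ 0 = 0 ∧ deriv ψ 0 ≠ 0 ∧
      ∀ᶠ z in 𝓝 0, s x (R.i (σ x) (ψ z)) / t (R.i (σ x) (ψ z)) = s x (R.i x z) / t (R.i x z) ∧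
        (R.i (σ x) (ψ z) = R.i x z → z = 0) := by
    by_cases c : σ x = x
    · obtain ⟨ψ, a1, a2, a3, a4⟩ := deck_two (an x t0) (by
        rw [ord_div (sm x x) (tm x) t0, so, R.ord_can, (congrArg _ c).symm.trans (z2 x)]
        rfl)
      refine ⟨ψ, a1, a2, a3, ?_⟩
      rw [c]
      filter_upwards [a4, R.tgt_nhds x, (a1.continuousAt.tendsto.mono_right
        (congrArg 𝓝 a2).le).eventually (R.tgt_nhds x)] with z b1 b2 b3
      exact ⟨b1.1, fun e => b1.2 (by rw [← R.e_i b3, e, R.e_i b2])⟩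
    · have o : ∀ y, t y ≠ 0 → L.ord (s x) y = 1 →
          deriv (fun z => s x (R.i y z) / t (R.i y z)) 0 ≠ 0 := fun y k e =>
        d_ne_of_ord (R := R) (f := fun z => s x z / t z) (an y k) (by
          rw [← e, ← ord_div (sm x y) (tm y) k, LB.ord]
          congr 1
          exact funext fun _ => div_one _)
      obtain ⟨ψ, a1, a2, a3, a4⟩ := deck_one (an x t0) (by simp [R.i_zero, s0]) (o x t0 (by
        rw [so, R.ord_can, (LB.ord_eq_zero ((u x).2 x)).2 fun e => c (z3 x x e).symm, zero_add]))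
        (an _ t1) (by simp [R.i_zero, s1]) (o _ t1 (by
          rw [so, z2, (LB.ord_eq_zero (R.can_mem x _)).2 (by simp [can_ne c]), add_zero]))
      refine ⟨ψ, a1, a2, a3, ?_⟩
      obtain ⟨U, V, b1, b2, b3⟩ := t2_separation_nhds c
      filter_upwards [a4, R.tends_i x b2, (a1.continuousAt.tendsto.mono_right
        (congrArg 𝓝 a2).le).eventually (R.tends_i _ b1)] with z c1 c2 c3
      exact ⟨c1, fun e => (disjoint_left.1 b3 c3 (e ▸ c2)).elim⟩
  refine ⟨ψ, a1, a2, a3, ?_⟩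
  filter_upwards [a4, R.ev_iff.1 ((tm x).ev_ne t0), (a1.continuousAt.tendsto.mono_right
    (congrArg 𝓝 a2).le).eventually (R.ev_iff.1 ((tm _).ev_ne t1))] with z c1 c2 c3
  by_cases e : z = 0
  · rw [e, a2, R.i_zero, R.i_zero]
  refine (k2 _ _ (s x - (s x (R.i x z) / t (R.i x z)) • t)
    (sub_mem (sm x) (Submodule.smul_mem _ _ tm)) (fun k => sn x ?_) (by simp [c2])
    (by simp [← c1.1, c3]) fun k => e (c1.2 k)).symm
  have k0 := congrFun k x
  simp only [Pi.sub_apply, s0, Pi.smul_apply, smul_eq_mul, zero_sub, Pi.zero_apply, neg_eq_zero,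
    mul_eq_zero, t0, or_false] at k0
  rwa [k0, zero_smul, sub_zero] at k

end Vale.Agent.P269L.I
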