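import Vale.Agent.P269.Vir.Van
import Vale.Agent.P269.G3.Mod

/-!
# The equations of the embedded target are reduced
-/

set_option linter.unusedSectionVars false

namespace Vale.Agent.P269L.I

open Set Function Topology Filter Module P269 P269.Ch P269.Ch.AnM P269.Vir P269.Base
open MvPolynomial hiding funext

variable {R J K ι ν : Type} [Fintype R] [Fintype J] [Fintype K] [Fintype ι] [DecidableEq ι]
  [Fintype ν] {ch : Ch ι J} (T : Tgt R J K) (e : K → ι → ℕ)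

variable (ch) in
/-- the values of the thickened fields at a point of the curve -/
def Yf : Type := ∀ j, ch.Th j →L[ℂ] ℂ

noncomputable instance : NormedAddCommGroup (Yf ch) :=
  inferInstanceAs (NormedAddCommGroup (∀ j, ch.Th j →L[ℂ] ℂ))

noncomputable instance : NormedSpace ℂ (Yf ch) :=
  inferInstanceAs (NormedSpace ℂ (∀ j, ch.Th j →L[ℂ] ℂ))

instance : FiniteDimensional ℂ (Yf ch) :=
  inferInstanceAs (FiniteDimensional ℂ (∀ j, ch.Th j →L[ℂ] ℂ))

/-- a component -/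
def Yf.ap (y : Yf ch) (j : J) : ch.Th j →L[ℂ] ℂ := y j

theorem Yf.ext {y y' : Yf ch} (h : ∀ j μ, y.ap j μ = y'.ap j μ) : y = y' :=
  funext fun j => ContinuousLinearMap.ext (h j)

/-- evaluation of a component at a test -/
noncomputable def Yf.evL (j : J) (μ : ch.Th j) : Yf ch →L[ℂ] ℂ :=
  LinearMap.toContinuousLinearMap
    { toFun := fun y => y.ap j μ
      map_add' := fun _ _ => rfl
      map_smul' := fun _ _ => rfl }

@[simp] theorem Yf.evL_apply (j : J) (μ : ch.Th j) (y : Yf ch) : Yf.evL j μ y = y.ap j μ := rfl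

@[simp] theorem Yf.add_ap (y y' : Yf ch) (j : J) (μ : ch.Th j) :
    (y + y').ap j μ = y.ap j μ + y'.ap j μ := rfl

@[simp] theorem Yf.sub_ap (y y' : Yf ch) (j : J) (μ : ch.Th j) :
    (y - y').ap j μ = y.ap j μ - y'.ap j μ := rfl

@[simp] theorem Yf.smul_ap (t : ℂ) (y : Yf ch) (j : J) (μ : ch.Th j) :
    (t • y).ap j μ = t * y.ap j μ := rfl

section

variable {P : Type} [NormedAddCommGroup P] [NormedSpace ℂ P] {y : P → Yf ch} {p : P}

theorem Yf.an_ap (h : AnalyticAt ℂ y p) (j : J) (μ : ch.Th j) :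
    AnalyticAt ℂ (fun q => (y q).ap j μ) p := ((Yf.evL j μ).analyticAt _).comp h

theorem Yf.an_of (h : ∀ j μ, AnalyticAt ℂ (fun q => (y q).ap j μ) p) : AnalyticAt ℂ y p :=
  (AnalyticAt.pi fun j => Holo.analyticAt_of_apply (h j) :
    AnalyticAt ℂ (F := ∀ j, ch.Th j →L[ℂ] ℂ) y p)

end

/-- the embedding of the cone over the target that belongs to the point `c` -/
noncomputable def jm (c : V ch.M) : (J → ℂ) →L[ℂ] Yf ch :=
  LinearMap.toContinuousLinearMap
    { toFun := fun y j => y j • evL (ch.b j) c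
      map_add' := fun _ _ => Yf.ext fun _ _ => add_mul _ _ _
      map_smul' := fun _ _ => Yf.ext fun _ _ => mul_assoc _ _ _ }

@[simp] theorem jm_apply (c : V ch.M) (y : J → ℂ) (j : J) (μ : ch.Th j) :
    (jm c y).ap j μ = y j * val μ c := rfl

/-- the section: the values of the fields -/
noncomputable def sv (x : ch.W ν) (z : ch.Pt) : Yf ch := fun j => z.2 (some j) ∘L x.X j

@[simp] theorem sv_apply (x : ch.W ν) (z : ch.Pt) (j : J) (μ : ch.Th j) :
    (sv x z).ap j μ = z.2 (some j) (x.X j μ) := rfl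

/-- the equations -/
noncomputable def Hq (τ : Ts K ch) (c : V ch.M) (y : Yf ch) : ℂ :=
  τ.elim (fun t => val t.2.2 c * y.ap t.1 t.2.1 - val t.2.1 c * y.ap t.1 t.2.2)
    fun t => hmg T e t.1 t.2 c fun j => y.ap j (pw t.2 _)

theorem ev1_sct (x : ch.W ν) (z : ch.Pt) (τ : Ts K ch) :
    ev1 z τ (sct T e x) = Hq T e τ z.1 (sv x z) := by cases τ <;> rfl

theorem an_Hq {P : Type} [NormedAddCommGroup P] [NormedSpace ℂ P] {c : P → V ch.M}
    {y : P → Yf ch} {p : P} (hc : AnalyticAt ℂ c p) (hy : AnalyticAt ℂ y p) (τ : Ts K ch) :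
    AnalyticAt ℂ (fun q => Hq T e τ (c q) (y q)) p := by
  have a := Yf.an_ap hy
  have b := fun {a} (μ : Tens ch.M a) => (analyticAt_val μ _).comp hc
  rcases τ with ⟨j, m⟩ | ⟨k, ζ⟩
  · exact ((b _).mul (a j _)).sub ((b _).mul (a j _))
  · exact Finset.analyticAt_fun_sum _ fun α _ => (analyticAt_const.mul
      (Finset.analyticAt_fun_prod _ fun j _ => (a j _).pow _)).mul (Finset.analyticAt_fun_prod _
        fun i _ => (((ζ i).analyticAt _).comp (analyticAt_pi_iff.1 hc i)).pow _)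

theorem an_jm {P : Type} [NormedAddCommGroup P] [NormedSpace ℂ P] {c : P → V ch.M}
    {y : P → J → ℂ} {p : P} (hc : AnalyticAt ℂ c p) (hy : AnalyticAt ℂ y p) :
    AnalyticAt ℂ (fun q => jm (c q) (y q)) p :=
  Yf.an_of fun j μ => (analyticAt_pi_iff.1 hy j).mul ((analyticAt_val μ _).comp hc)

theorem jm_smul {b : ι → ℕ} (hb : ∀ j, ch.b j = b) (t : ι → ℂ) (c : V ch.M) (y : J → ℂ) :
    jm (t • c) y = (∏ i, t i ^ b i) • jm c y := Yf.ext fun j μ => by
  rw [Yf.smul_ap, jm_apply, jm_apply, Base.val_smul, mul_left_comm, ← hb j]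
  rfl

/-- the differential of the equations in the fibre directions -/
noncomputable def dH (τ : Ts K ch) (c : V ch.M) (y : Yf ch) : Yf ch →L[ℂ] ℂ :=
  fderiv ℂ (Hq T e τ c) y

theorem hasFDerivAt_Hq (τ : Ts K ch) (c : V ch.M) (y : Yf ch) :
    HasFDerivAt (Hq T e τ c) (dH T e τ c y) y :=
  (an_Hq T e analyticAt_const analyticAt_id τ).differentiableAt.hasFDerivAt

theorem fderiv_Hq (τ : Ts K ch) (c : V ch.M) (y η : Yf ch) :
    fderiv ℂ (fun q : V ch.M × Yf ch => Hq T e τ q.1 q.2) (c, y) (0, η) = dH T e τ c y η :=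
  DFunLike.congr_fun (((an_Hq T e analyticAt_fst analyticAt_snd τ).differentiableAt.hasFDerivAt.comp
    y (hasFDerivAt_prodMk_right c y)).unique (hasFDerivAt_Hq T e τ c y)) η

theorem hasDerivAt_Hq (τ : Ts K ch) (c : V ch.M) (y η : Yf ch) :
    HasDerivAt (fun ε : ℂ => Hq T e τ c (y + ε • η)) (dH T e τ c y η) 0 :=
  HasFDerivAt.comp_hasDerivAt_of_eq (0 : ℂ) (hasFDerivAt_Hq T e τ c y)
    (by simpa using ((hasDerivAt_id (0 : ℂ)).smul_const η).const_add y) (by simp)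

theorem dH_inl (j : J) (m : ch.Th j × ch.Th j) (c : V ch.M) (y η : Yf ch) :
    dH T e (.inl ⟨j, m⟩) c y η = val m.2 c * η.ap j m.1 - val m.1 c * η.ap j m.2 :=
  (hasDerivAt_Hq T e _ c y η).unique (by
    simpa [Hq] using ((((hasDerivAt_id (0 : ℂ)).mul_const (η.ap j m.1)).const_add (y.ap j m.1)).const_mul
      (val m.2 c)).fun_sub ((((hasDerivAt_id (0 : ℂ)).mul_const (η.ap j m.2)).const_add
        (y.ap j m.2)).const_mul (val m.1 c)))

theorem dH_inr (k : K) (ζ : ch.Zt) (c : V ch.M) (y η : Yf ch) :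
    dH T e (.inr (k, ζ)) c y η =
      deriv (fun ε : ℂ => hmg T e k ζ c fun j => y.ap j (pw ζ _) + ε * η.ap j (pw ζ _)) 0 :=
  (hasDerivAt_Hq T e _ c y η).deriv.symm

variable {T e}

/-- the obstruction space consists of the functions with values in the image of `dH` -/
theorem mem_obs_iff {x : ch.W ν} {κ : ch.P K} : κ ∈ obs T e x ↔ κ ∈ ch.pol T e ∧
    ∀ z ∈ gr x, ∃ η, ∀ τ, ev1 z τ κ = dH T e τ z.1 (sv x z) η :=
  and_congr_right fun _ => forall₂_congr fun z _ =>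
    ⟨fun ⟨η, h⟩ => ⟨η, fun τ => by
      rcases τ with ⟨j, m⟩ | ⟨k, ζ⟩
      exacts [(h.1 j m).trans (dH_inl T e j m z.1 _ η).symm,
        (h.2 k ζ).trans (dH_inr T e k ζ z.1 (sv x z) η).symm]⟩,
    fun ⟨η, h⟩ => ⟨η, fun j m => (h (.inl ⟨j, m⟩)).trans (dH_inl T e j m z.1 _ η),
      fun k ζ => (h (.inr (k, ζ))).trans (dH_inr T e k ζ z.1 (sv x z) η)⟩⟩

theorem mem_van_iff {x : ch.W ν} {κ : ch.P K} :
    κ ∈ van T e x ↔ κ ∈ ch.pol T e ∧ ∀ z ∈ gr x, ∀ τ, ev1 z τ κ = 0 :=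
  and_congr_right fun _ => forall₂_congr fun _ _ =>
    ⟨fun h τ => by
      rcases τ with ⟨j, m⟩ | ⟨k, ζ⟩
      exacts [congrFun (h.1 j) m, congrFun (h.2 k) ζ],
    fun h => ⟨fun j => funext fun m => h (.inl ⟨j, m⟩), fun k => funext fun ζ => h (.inr (k, ζ))⟩⟩

variable (ch T e) in
/-- the test degrees are large enough -/
def Le : Prop := ∀ k, ∀ α ∈ (T.F k).support, ∀ i, ∑ j, α j * ch.b j i ≤ e k i

variable {c : V ch.M}

theorem Hq_jm_inl (t : Σ j, ch.Th j × ch.Th j) (y : J → ℂ) : Hq T e (.inl t) c (jm c y) = 0 := by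
  simp only [Hq, Sum.elim_inl, jm_apply]
  ring

theorem Hq_jm_inr (h : Le ch T e) (k : K) (ζ : ch.Zt) (y : J → ℂ) :
    Hq T e (.inr (k, ζ)) c (jm c y) = eval y (T.F k) * ∏ i, ζ i (c i) ^ e k i := by
  rw [eval_eq', Finset.sum_mul]
  refine Finset.sum_congr rfl fun α hα => ?_
  simp only [jm_apply, val_pw, mul_pow, Finset.prod_mul_distrib, mul_assoc]
  rw [prod_pow_pow]
  congr 3
  exact funext fun i => congrArg _ (Nat.add_sub_cancel' (h k α hα i))

theorem exists_jm (hc : ∀ i, c i ≠ 0) {η : Yf ch}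
    (h : ∀ j (m : ch.Th j × ch.Th j), val m.2 c * η.ap j m.1 - val m.1 c * η.ap j m.2 = 0) :
    ∃ y, η = jm c y := by
  choose μ hμ using fun j => exists_val_one (a := ch.b j) hc
  refine ⟨fun j => η.ap j (μ j), Yf.ext fun j m => ?_⟩
  have := h j (m, μ j)
  rw [hμ, one_mul, sub_eq_zero] at this
  exact this.trans (mul_comm _ _)

theorem jm_inj (hc : ∀ i, c i ≠ 0) : Injective (jm (ch := ch) c) := fun y y' h => funext fun j => by
  obtain ⟨μ, a⟩ := exists_val_one (a := ch.b j) hc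
  simpa [a] using congrArg (fun η : Yf ch => η.ap j μ) h

/-- **the zero set of the equations** -/
theorem Hq_eq_zero (h : Le ch T e) (hc : ∀ i, c i ≠ 0) {η : Yf ch} :
    (∀ τ, Hq T e τ c η = 0) ↔ ∃ y, (∀ k, eval y (T.F k) = 0) ∧ η = jm c y := by
  refine ⟨fun a => ?_, ?_⟩
  · obtain ⟨y, rfl⟩ := exists_jm hc fun j m => a (.inl ⟨j, m⟩)
    obtain ⟨ζ, b⟩ := exists_Zt (ch := ch) hc
    exact ⟨y, fun k => by simpa [Hq_jm_inr h, b] using a (.inr (k, ζ)), rfl⟩
  · rintro ⟨y, a, rfl⟩ (t | ⟨k, ζ⟩)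
    exacts [Hq_jm_inl t y, by rw [Hq_jm_inr h, a, zero_mul]]

theorem dH_jm_inl (t : Σ j, ch.Th j × ch.Th j) (η : Yf ch) (v : J → ℂ) :
    dH T e (.inl t) c η (jm c v) = 0 := by
  rw [dH_inl, jm_apply, jm_apply]
  ring

theorem dH_jm_inr (h : Le ch T e) (k : K) (ζ : ch.Zt) (y v : J → ℂ) :
    dH T e (.inr (k, ζ)) c (jm c y) (jm c v) =
      (∑ j, v j * eval y (pderiv j (T.F k))) * ∏ i, ζ i (c i) ^ e k i := by
  have a := hasDerivAt_Hq T e (.inr (k, ζ)) c (jm c y) (jm c v)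
  simp only [← map_smul, ← map_add, Hq_jm_inr h] at a
  simp only [mul_comm (v _)]
  exact a.unique ((hasDerivAt_eval (T.F k) y v).mul_const _)

/-- **the equations are reduced**: the kernel of their differential -/
theorem dH_eq_zero (h : Le ch T e) (hc : ∀ i, c i ≠ 0) (y : J → ℂ) {η : Yf ch} :
    (∀ τ, dH T e τ c (jm c y) η = 0) ↔
      ∃ v, (∀ k, ∑ j, v j * eval y (pderiv j (T.F k)) = 0) ∧ η = jm c v := by
  refine ⟨fun a => ?_, ?_⟩
  · obtain ⟨v, rfl⟩ := exists_jm hc fun j m => (dH_inl T e j m c _ η).symm.trans (a _)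
    obtain ⟨ζ, b⟩ := exists_Zt (ch := ch) hc
    exact ⟨v, fun k => by simpa [dH_jm_inr h, b] using a (.inr (k, ζ)), rfl⟩
  · rintro ⟨v, a, rfl⟩ (t | ⟨k, ζ⟩)
    exacts [dH_jm_inl t _ v, by rw [dH_jm_inr h, a, zero_mul]]

theorem mem_sol_iff {x : ch.W ν} :
    x ∈ ch.sol ν T ↔ x ∈ ch.base ν ∧ ∀ z ∈ gr x, ∃ y ∈ T.cone, sv x z = jm z.1 y :=
  and_congr_right fun _ => forall₂_congr fun _ _ => exists_congr fun _ => and_congr_right fun _ =>
    ⟨fun h => Yf.ext h, fun h j μ => congrArg (fun η : Yf ch => η.ap j μ) h⟩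

end Vale.Agent.P269L.I
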