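import Vale.Agent.P269L.I.Cou

/-!
# Sections of the pull-back of the tangent bundle of projective space (the Euler sequence)
-/

set_option linter.unusedSectionVars false

namespace Vale.Agent.P269L.I

open Set Function Topology Filter Module P269 P269.Cv

variable {X J : Type} [TopologicalSpace X] {R : RS X} [Fintype J] (N : Finset (X × X)) (M : LB R)
  (s : X → J → ℂ)

/-- Representatives of the sections of `s^* T_ℙ = M ⊗ V / s`. -/
def TSec : Submodule ℂ (X → J → ℂ) where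
  carrier := {ξ | (∀ x, ∃ g : X → J → ℂ, (∀ j, M.Sec (fun y => g y j) x) ∧
    ∀ᶠ y in 𝓝 x, ∃ c : ℂ, ξ y - g y = c • s y) ∧ ∀ n ∈ N, ∃ c : ℂ, ξ n.1 - ξ n.2 = c • s n.1}
  zero_mem' := ⟨fun _ => ⟨0, fun _ => LB.sec_zero, .of_forall fun _ => ⟨0, by simp⟩⟩,
    fun _ _ => ⟨0, by simp⟩⟩
  add_mem' := fun {ξ η} a b => ⟨fun x =>
    let ⟨g, a1, a2⟩ := a.1 x
    let ⟨h, b1, b2⟩ := b.1 x
    ⟨g + h, fun j => (a1 j).add (b1 j), (a2.and b2).mono fun y ⟨⟨c, e⟩, ⟨d, e'⟩⟩ =>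
      ⟨c + d, by rw [add_smul, ← e, ← e', Pi.add_apply, Pi.add_apply, add_sub_add_comm]⟩⟩,
    fun n hn =>
      let ⟨c, e⟩ := a.2 n hn
      let ⟨d, e'⟩ := b.2 n hn
      ⟨c + d, by rw [add_smul, ← e, ← e', Pi.add_apply, Pi.add_apply, add_sub_add_comm]⟩⟩
  smul_mem' := fun t ξ a => ⟨fun x =>
    let ⟨g, a1, a2⟩ := a.1 x
    ⟨t • g, fun j => (a1 j).smul t, a2.mono fun y ⟨c, e⟩ =>
      ⟨t * c, by rw [mul_smul, ← e, Pi.smul_apply, Pi.smul_apply, smul_sub]⟩⟩,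
    fun n hn =>
      let ⟨c, e⟩ := a.2 n hn
      ⟨t * c, by rw [mul_smul, ← e, Pi.smul_apply, Pi.smul_apply, smul_sub]⟩⟩

/-- The multiples of `s`. -/
def Rad : Submodule ℂ (X → J → ℂ) where
  carrier := {ξ | ∀ y, ∃ c : ℂ, ξ y = c • s y}
  zero_mem' := fun _ => ⟨0, by simp⟩
  add_mem' := fun a b y =>
    let ⟨c, e⟩ := a y
    let ⟨d, e'⟩ := b y
    ⟨c + d, by rw [add_smul, ← e, ← e', Pi.add_apply]⟩
  smul_mem' := fun t _ a y =>
    let ⟨c, e⟩ := a y
    ⟨t * c, by rw [mul_smul, ← e, Pi.smul_apply]⟩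

variable {N M s} {ξ : X → J → ℂ}

theorem mem_TSec (h : ∀ j, (fun y => ξ y j) ∈ H0 N M) : ξ ∈ TSec N M s :=
  ⟨fun x => ⟨ξ, fun j => (h j).1 x, .of_forall fun _ => ⟨0, by simp⟩⟩,
    fun n hn => ⟨0, by rw [zero_smul, sub_eq_zero]; exact funext fun j => (h j).2 n hn⟩⟩

variable (hs : ∀ j, (fun y => s y j) ∈ H0 N M)
include hs

theorem Rad_le : Rad s ≤ TSec N M s := fun ξ h =>
  ⟨fun _ => ⟨0, fun _ => LB.sec_zero, .of_forall fun y => by simpa using h y⟩, fun n hn =>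
    let ⟨c, e⟩ := h n.1
    let ⟨d, e'⟩ := h n.2
    ⟨c - d, by rw [e, e', sub_smul, show s n.1 = s n.2 from funext fun j => (hs j).2 n hn]⟩⟩

/-- the local lift whose component `i` vanishes -/
theorem tsec_lift (h : ξ ∈ TSec N M s) {x : X} {i : J} (hi : s x i ≠ 0) (j : J) :
    M.Sec (fun y => ξ y j - ξ y i / s y i * s y j) x := by
  obtain ⟨g, a, b⟩ := h.1 x
  refine ((a j).sub (LB.Sec.hol_mul ((a i).hol_div ((hs i).1 x) hi) ((hs j).1 x))).congr ?_
  filter_upwards [b, ((hs i).1 x).ev_ne hi] with y ⟨c, e⟩ h0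
  have e1 := congrFun e i
  have e2 := congrFun e j
  simp only [Pi.sub_apply, Pi.smul_apply, smul_eq_mul, Pi.mul_apply] at e1 e2 ⊢
  rw [eq_add_of_sub_eq e1, eq_add_of_sub_eq e2]
  field_simp
  ring

variable [T2Space X] [CompactSpace X] (h0 : ∀ x, s x ≠ 0) {Z : Type*} [AddCommGroup Z] [Module ℂ Z]
  [FiniteDimensional ℂ Z] {f : Z →ₗ[ℂ] X → J → ℂ} (hf : ∀ v, f v ∈ TSec N M s)
include h0 hf

/-- the obstruction to lifting lies in `H¹(O)` -/
theorem exists_lift : ∃ Z₀ : Submodule ℂ Z, (finrank ℂ Z : ℤ) ≤ finrank ℂ Z₀ + h1 N (1 : LB R) ∧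
    ∀ v ∈ Z₀, ∃ G : X → J → ℂ, (∀ j, (fun y => G y j) ∈ H0 N M) ∧ f v - G ∈ Rad s := by
  have : ∀ w : J → ℂ, w ≠ 0 → ∃ i, w i ≠ 0 := fun w => Function.ne_iff.1
  choose i' hi' using this
  let i := fun x => i' (s x) (h0 x)
  have hi : ∀ x, s x (i x) ≠ 0 := fun x => hi' _ _
  let F : Z →ₗ[ℂ] X → X → ℂ :=
    { toFun := fun v x y => f v y (i x) / s y (i x)
      map_add' := fun v w => by ext x y; simp [add_div]
      map_smul' := fun t v => by ext x y; simp [mul_div_assoc] }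
  obtain ⟨Z₀, h1, h2⟩ := cousin (L := 1) (f := F) N fun v x => by
    filter_upwards [((hs (i x)).1 x).ev_ne (hi x)] with y hy
    refine LB.sec_one.2 ((((tsec_lift hs (hf v) (hi y) (i x)).hol_div ((hs (i x)).1 y) hy)).congr ?_)
    filter_upwards [((hs (i x)).1 y).ev_ne hy] with z hz
    show _ = f v z (i x) / s z (i x) - f v z (i y) / s z (i y)
    field_simp
  refine ⟨Z₀, h1, fun v hv => ?_⟩
  obtain ⟨g, a, b⟩ := h2 v hv
  refine ⟨fun y => f v y - g y • s y, fun j => ⟨fun x => ?_, fun n hn => ?_⟩,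
    fun y => ⟨g y, by simp⟩⟩
  · refine ((tsec_lift hs (hf v) (hi x) j).sub
      (LB.Sec.hol_mul (LB.sec_one.1 (a x)) ((hs j).1 x))).congr (.of_forall fun y => ?_)
    show f v y j - f v y (i x) / s y (i x) * s y j - (g y - f v y (i x) / s y (i x)) * s y j =
      f v y j - g y * s y j
    ring
  · obtain ⟨c, e⟩ := (hf v).2 n hn
    have e0 : s n.1 = s n.2 := funext fun j => (hs j).2 n hn
    have e1 : i n.1 = i n.2 := by simp only [i, e0]
    have e2 : g n.1 - f v n.1 (i n.1) / s n.1 (i n.1) = g n.2 - f v n.2 (i n.2) / s n.2 (i n.2) :=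
      b n hn
    have e3 := congrFun e (i n.1)
    have e4 := congrFun e j
    have e5 := hi n.1
    rw [← e1, ← e0] at e2
    simp only [Pi.sub_apply, Pi.smul_apply, smul_eq_mul, ← e0] at e3 e4 ⊢
    rw [eq_add_of_sub_eq e3] at e2
    rw [eq_add_of_sub_eq e4, eq_add_of_sub_eq e2]
    field_simp
    ring

/-- **`h⁰(s^* T_ℙ) ≤ dim V · h⁰(M) + g - 1`.** -/
theorem euler (hi : ∀ v, f v ∈ Rad s → v = 0) :
    (finrank ℂ Z : ℤ) ≤ Fintype.card J * finrank ℂ (H0 N M) + gen R N - 1 := by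
  obtain ⟨Z₀, h1, h2⟩ := exists_lift hs h0 hf
  let c : (J → H0 N M) →ₗ[ℂ] X → J → ℂ :=
    { toFun := fun G y j => (G j).1 y, map_add' := fun _ _ => rfl, map_smul' := fun _ _ => rfl }
  let Y : Submodule ℂ (Z × (J → H0 N M)) :=
    (Rad s).comap (f ∘ₗ LinearMap.fst ℂ _ _ - c ∘ₗ LinearMap.snd ℂ _ _)
  have k1 : finrank ℂ Y ≤ Fintype.card J * finrank ℂ (H0 N M) := by
    have := LinearMap.finrank_le_finrank_of_injective (f := LinearMap.snd ℂ _ _ ∘ₗ Y.subtype)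
      ((injective_iff_map_eq_zero _).2 fun y e => Subtype.ext (Prod.ext (hi _ (by
        have := y.2
        rwa [Submodule.mem_comap, LinearMap.sub_apply, LinearMap.comp_apply, LinearMap.comp_apply,
          show LinearMap.snd ℂ _ _ y.1 = 0 from e, map_zero, sub_zero] at this)) (by exact e)))
    simpa [finrank_pi_fintype] using this
  let p := LinearMap.fst ℂ _ _ ∘ₗ Y.subtype
  have k2 : finrank ℂ Z₀ ≤ finrank ℂ (LinearMap.range p) := Submodule.finrank_mono fun v hv =>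
    let ⟨G, a, b⟩ := h2 v hv
    ⟨⟨(v, fun j => ⟨_, a j⟩), b⟩, rfl⟩
  have k3 : finrank ℂ (H0 N (1 : LB R)) ≤ finrank ℂ (LinearMap.ker p) := by
    let m : H0 N (1 : LB R) →ₗ[ℂ] LinearMap.ker p :=
      { toFun := fun g => ⟨⟨(0, fun j => ⟨g.1 * fun y => s y j, by
            simpa using H0.mul_mem g.2 (hs j)⟩), fun y => ⟨-g.1 y, by ext j; simp [c]⟩⟩, rfl⟩
        map_add' := fun _ _ => by ext j y <;> simp [add_mul]
        map_smul' := fun _ _ => by ext j y <;> simp [mul_assoc] }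
    refine LinearMap.finrank_le_finrank_of_injective (f := m)
      ((injective_iff_map_eq_zero _).2 fun g e => Subtype.ext (funext fun y => ?_))
    obtain ⟨j, hj⟩ := Function.ne_iff.1 (h0 y)
    have : g.1 y * s y j = 0 := congrArg (fun q : LinearMap.ker p => (q.1.1.2 j).1 y) e
    exact (mul_eq_zero.1 this).resolve_right hj
  have k4 := LinearMap.finrank_range_add_finrank_ker (K := ℂ) (V := Y) p
  rw [Cv.h1, deg, sub_self] at h1
  have k5 : (finrank ℂ Y : ℤ) ≤ Fintype.card J * finrank ℂ (H0 N M) := by exact_mod_cast k1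
  omega

/-- in the case of equality every section is hit -/
theorem euler_onto (hi : ∀ v, f v ∈ Rad s → v = 0)
    (he : Fintype.card J * finrank ℂ (H0 N M) + gen R N - 1 ≤ (finrank ℂ Z : ℤ))
    (hξ : ξ ∈ TSec N M s) : ∃ v, ξ - f v ∈ Rad s := by
  by_contra! k
  have := euler hs h0 (f := f.coprod (LinearMap.toSpanSingleton ℂ _ ξ))
    (fun v => add_mem (hf _) (Submodule.smul_mem _ _ hξ)) fun v hv => by
      have hv' : f v.1 + v.2 • ξ ∈ Rad s := hv
      have e : v.2 = 0 := by_contra fun e => k (-(v.2⁻¹ • v.1)) (by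
        simpa [e, add_comm] using Submodule.smul_mem _ v.2⁻¹ hv')
      exact Prod.ext (hi _ (by simpa [e] using hv')) e
  rw [finrank_prod, finrank_self] at this
  push_cast at this
  omega

end Vale.Agent.P269L.I
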