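import Vale.Agent.P269L.I.LEqv

/-!
# The section and the functions of the presentation are holomorphic on the total space
-/

set_option linter.all false

namespace Vale.Agent.P269L.I.Ex

open Set Function Topology Filter P269 P269.Ch P269.Ch.AnM P269.Holo

variable {J K ι : Type} [Fintype J] [Fintype K] [Fintype ι] [DecidableEq ι] {ch : Ch ι J}
  {T : Tgt Unit J K} {e : K → ι → ℕ} {n r : ℕ} {a b : ι → ℕ} {jj : (Fin r → ℂ) →ₗ[ℂ] ch.P K}
  {ρ₀ : ch.A (Fin n) → (Fin r → ℂ) → Fin r → ℂ} {x : ch.W (Fin n)} {c : V ch.M}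

theorem ext_uu (hx : x ∈ ch.base (Fin n)) (c : V ch.M) :
    ∃ h, Ext (dat ch n T e a b jj ρ₀).U (fun q => uu q.1 q.2) (x, c) h :=
  let ⟨U, h1, h2⟩ := exists_an_ev hx.1 c
  ⟨U, h1, (h2.filter_mono nhdsWithin_le_nhds).mp
    (eventually_mem_nhdsWithin.mono fun _ h k => k _ (uu_mem h.2))⟩

theorem ext_s (hx : x ∈ ch.base (Fin n)) (c : V ch.M) :
    ∃ h, Ext (dat ch n T e a b jj ρ₀).U (dat ch n T e a b jj ρ₀).s (x, c) h :=
  let ⟨U, h1, h2⟩ := ext_uu (T := T) (e := e) (a := a) (b := b) (jj := jj) (ρ₀ := ρ₀) hx c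
  ⟨fun q j => U q (some j) ∘L q.1.X j, AnalyticAt.pi fun j =>
    an_comp (analyticAt_pi_iff.1 h1 _) (W.an_X analyticAt_fst j),
    h2.mono fun q h => funext fun j => congrArg (· ∘L q.1.X j) (congrFun h (some j))⟩

theorem ext_ev (hx : x ∈ ch.base (Fin n)) (c : V ch.M) {κ} (hκ : jj κ ∈ ch.pol T e) (l) :
    ∃ h, Ext (dat ch n T e a b jj ρ₀).U ((dat ch n T e a b jj ρ₀).ev κ l) (x, c) h := by
  obtain ⟨U, h1, h2⟩ := ext_uu (T := T) (e := e) (a := a) (b := b) (jj := jj) (ρ₀ := ρ₀) hx c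
  refine ⟨fun q => ev1 (q.2, U q) l (jj κ), an_pol (F := T.fam 0) (analyticAt_snd.prod h1)
    (polF_fam.ge hκ) l, h2.mono fun q h => ?_⟩
  change _ = ev1 (q.2, U q) l (jj κ)
  rw [← show uu q.1 q.2 = U q from h]
  cases l <;> rfl

theorem lin_ev (l) (q) : IsLinearMap ℂ fun κ => (dat ch n T e a b jj ρ₀).ev κ l q := by
  have : (fun κ => (dat ch n T e a b jj ρ₀).ev κ l q) = ev1 (q.2, uu q.1 q.2) l ∘ₗ jj :=
    funext fun _ => by cases l <;> rfl
  exact this ▸ LinearMap.isLinear _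

theorem uu_smul (hx : x ∈ ch.base (Fin n)) (hc : c ∈ crv x) {t : ι → ℂ} (ht : IsUnit t) (l) :
    uu x (t • c) l = chr (ch.a l) t • uu x c l := by
  have h := uu_mem hc
  rw [uu_eq hx (c := t • c) (u := fun l => chr (ch.a l) t • uu x c l) ⟨fun i => smul_ne_zero
    (Pi.isUnit_iff.1 ht i).ne_zero (h.1 i), fun l μ =>
      (congrArg _ (h.2 l μ)).trans (Base.val_smul _ _ _).symm⟩]

theorem s_smul (ha : ∀ j, ch.a (some j) = a) (hx : x ∈ ch.base (Fin n)) (hc : c ∈ crv x) {t : ι → ℂ}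
    (ht : IsUnit t) : (dat ch n T e a b jj ρ₀).s (x, (dat ch n T e a b jj ρ₀).τ t c) =
      chr (dat ch n T e a b jj ρ₀).a t • (dat ch n T e a b jj ρ₀).s (x, c) :=
  funext fun j => (congrArg (· ∘L x.X j) (uu_smul hx hc ht (some j))).trans (by rw [ha]; rfl)

theorem jj_sigma (h : sct T e x ∈ LinearMap.range jj) :
    jj ((dat ch n T e a b jj ρ₀).σ x) = sct T e x := invFun_eq h

theorem ev_sigma (h : sct T e x ∈ LinearMap.range jj) (l) :
    (dat ch n T e a b jj ρ₀).ev ((dat ch n T e a b jj ρ₀).σ x) l (x, c) =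
      (dat ch n T e a b jj ρ₀).H l (c, (dat ch n T e a b jj ρ₀).s (x, c)) := by
  change evL (jj ((dat ch n T e a b jj ρ₀).σ x)) l _ = _
  rw [jj_sigma h]
  cases l <;> rfl

end Vale.Agent.P269L.I.Ex
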