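import Vale.Agent.P269L.I.Iso

/-!
# Maps and sections that are holomorphic along the branches extend to the ambient space
-/

set_option linter.unusedSectionVars false

namespace Vale.Agent.P269L.I

open Set Function Topology Filter Vale.Agent.P269 Vale.Agent.P269.Cv Vale.Agent.P269.Base
  Vale.Agent.P269.Ch

variable {ι ι' B E F : Type} [Fintype ι] [Fintype ι'] [Monoid B] [NormedAddCommGroup E]
  [NormedSpace ℂ E] [NormedAddCommGroup F] [NormedSpace ℂ F] {n : ℕ} {M : ι → ℕ} {M' : ι' → ℕ}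
  {o : ι} {o' : ι'} {C : Set (V M)} {C' : Set (V M')} {c : V M}

/-- An action by holomorphic maps. -/
structure Ac (sc : B → E → E) : Prop where
  one : ∀ y, sc 1 y = y
  mul : ∀ s t y, sc (s * t) y = sc s (sc t y)
  an : ∀ t y, AnalyticAt ℂ (sc t) y

theorem ac_tor : Ac fun (t : ι → ℂ) (c : V M) => t • c :=
  ⟨one_smul _, mul_smul, fun _ _ => Dict.an_smul analyticAt_const analyticAt_id⟩

theorem ac_scal {J : Type} [Fintype J] : Ac (Pub.scal : _ → (J → ℂ) → J → ℂ) :=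
  ⟨fun _ => funext fun _ => one_mul _, fun _ _ _ => funext fun _ => mul_assoc _ _ _, fun _ _ =>
    analyticAt_pi_iff.2 fun j => analyticAt_const.mul (analyticAt_pi_iff.1 analyticAt_id j)⟩

namespace Ac

variable {sc : B → E → E} (h : Ac sc) {x y z : E}
include h

theorem refl (x : E) : Same sc x x := ⟨1, isUnit_one, (h.one x).symm⟩

theorem symm (a : Same sc x y) : Same sc y x := by
  obtain ⟨_, ⟨t, rfl⟩, rfl⟩ := a
  exact ⟨_, t⁻¹.isUnit, by rw [← h.mul, t.inv_mul, h.one]⟩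

theorem trans (a : Same sc x y) (b : Same sc y z) : Same sc x z := by
  obtain ⟨t, a, rfl⟩ := a
  obtain ⟨s, b, rfl⟩ := b
  exact ⟨_, b.mul a, (h.mul _ _ _).symm⟩

end Ac

theorem ext_loc {γ : Bool → ℂ → V M} (h : Loc o C c γ) {q : Bool → ℂ → E}
    (hq : ∀ j, AnalyticAt ℂ (q j) 0) (h0 : q true 0 = q false 0)
    (he : γ true = γ false → q true =ᶠ[𝓝 0] q false) {χ : (ι → ℂ) × E → F}
    (hχ : AnalyticAt ℂ χ (1, q true 0)) : ∃ Φ : V M → F, AnalyticAt ℂ Φ c ∧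
      ∀ j, ∀ᶠ w : (ι → ℂ) × ℂ in 𝓝 (1, 0), Φ (w.1 • γ j w.2) = χ (w.1, q j w.2) := by
  obtain ⟨s, z, hs, -, -, h1⟩ := h.exists_coord
  obtain ⟨Φ, a, b⟩ := h.ext₂ hq h0 he (χ := fun _ => 1) analyticAt_const
  refine ⟨fun y => χ (s y, Φ y), hχ.comp_of_eq (hs.prod a) (Prod.ext ?_ ?_), fun j =>
    ((h1 j).and (b j)).mono fun w k => by simp only [k.1.1, k.2, one_smul]⟩
  · simpa [h.zero] using (h1 true).self_of_nhds.1
  · simpa [h.zero] using (b true).self_of_nhds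

/-- gluing of germs along the branches -/
theorem ext_br (h : Nod o C) {r : V M → F → Prop} {e : V M → E} {r' : V M → E → Prop}
    {χ : (ι → ℂ) × E → F} (hc : c ∈ C) (hχ : AnalyticAt ℂ χ (1, e c))
    (h1 : ∀ c ∈ C, ∀ t : ι → ℂ, (∀ i, t i ≠ 0) → ∀ v, r' c v → r (t • c) (χ (t, v)))
    (h2 : ∀ γ, IsBranch o C γ → γ 0 = c →
      ∃ η, AnalyticAt ℂ η 0 ∧ η 0 = e c ∧ ∀ᶠ z in 𝓝 0, r' (γ z) (η z)) :
    ∃ g, AnalyticAt ℂ g c ∧ ∀ᶠ y in 𝓝[C] c, r y (g y) := by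
  choose! η a b d using h2
  obtain ⟨γ, l⟩ := h.exists_loc hc
  obtain ⟨g, g1, g2⟩ := ext_loc l (q := fun j => η (γ j)) (fun j => a _ (l.br j) (l.zero j))
    ((b _ (l.br _) (l.zero _)).trans (b _ (l.br _) (l.zero _)).symm) (fun k => by rw [k])
    (χ := χ) (by rwa [b _ (l.br _) (l.zero _)])
  refine ⟨g, g1, l.ev _ fun j => ?_⟩
  filter_upwards [g2 j, ev_ne_one, continuousAt_snd.tendsto.eventually
    ((d _ (l.br j) (l.zero j)).and (l.br j).mem)] with w k1 k2 k3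
  exact k1 ▸ h1 _ k3.2 _ k2 _ k3.1

/-- a map that is holomorphic along the branches is holomorphic -/
theorem hol_of (h : Nod o C) {sc : B → E → E} (hs : Ac sc) {K : Set E} {φ : V M → E}
    (h0 : ∀ c ∈ C, φ c ∈ K) (h1 : ∀ c ∈ C, ∀ t : ι → ℂ, (∀ i, t i ≠ 0) → Same sc (φ c) (φ (t • c)))
    (h2 : ∀ γ, IsBranch o C γ → ∃ δ, AnalyticAt ℂ δ 0 ∧ ∀ᶠ z in 𝓝 0, Same sc (δ z) (φ (γ z))) :
    Hol (fun (t : ι → ℂ) (c : V M) => t • c) sc C K φ := fun c hc =>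
  ⟨h0 c hc, fun t ht => h1 c hc t (isUnit_pi_iff.1 ht), ext_br h (r := fun y v => Same sc v (φ y))
    (r' := fun y v => Same sc v (φ y)) (e := φ) (χ := Prod.snd) hc analyticAt_snd
    (fun c hc t ht _ k => hs.trans k (h1 c hc t ht)) fun γ hγ e => by
      obtain ⟨δ, a, b⟩ := h2 γ hγ
      obtain ⟨t, t0, k⟩ := b.self_of_nhds
      exact ⟨fun z => sc t (δ z), (hs.an _ _).comp a, e ▸ k.symm, b.mono fun z l =>
        hs.trans (hs.symm ⟨t, t0, rfl⟩) l⟩⟩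

/-- a section that is holomorphic along the branches is holomorphic -/
theorem sec_of (h : Nod o C) {χ : (ι → ℂ) → F → F} {T : V M → Set F} {e : V M → F}
    (hχ : ∀ v, AnalyticAt ℂ (uncurry χ) (1, v))
    (hT : ∀ c ∈ C, ∀ t, IsUnit t → ∀ v w, v - w ∈ T c → χ t v - χ t w ∈ T (t • c))
    (ha : ∀ c ∈ C, ∀ v ∈ T c, ∀ w ∈ T c, v + w ∈ T c)
    (h1 : ∀ c ∈ C, ∀ t, IsUnit t → e (t • c) - χ t (e c) ∈ T (t • c))
    (h2 : ∀ γ, IsBranch o C γ →
      ∃ η, AnalyticAt ℂ η 0 ∧ η 0 = e (γ 0) ∧ ∀ᶠ z in 𝓝 0, e (γ z) - η z ∈ T (γ z)) :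
    Sec (fun (t : ι → ℂ) (c : V M) => t • c) C χ T e := fun c hc =>
  ⟨h1 c hc, ext_br h (r := fun y v => e y - v ∈ T y) (r' := fun y v => e y - v ∈ T y) (e := e)
    (χ := uncurry χ) hc (hχ _) (fun c hc t ht v k => by
      have u := isUnit_pi_iff.2 ht
      simpa using ha _ (h.cone t ht c hc) _ (h1 c hc t u) _ (hT c hc t u _ _ k))
    fun γ hγ k => k ▸ h2 γ hγ⟩

theorem Sec.br {act : B → E → E} {C : Set E} {χ : B → F → F} {T : E → Set F} {e : E → F}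
    (h : Sec act C χ T e) {γ : ℂ → E} (a : AnalyticAt ℂ γ 0) (b : ∀ᶠ z in 𝓝 0, γ z ∈ C) :
    ∃ η, AnalyticAt ℂ η 0 ∧ ∀ᶠ z in 𝓝 0, e (γ z) - η z ∈ T (γ z) :=
  let ⟨g, c, d⟩ := (h _ b.self_of_nhds).2
  ⟨fun z => g (γ z), c.comp a, tendsto_nhdsWithin_iff.2 ⟨a.continuousAt, b⟩ d⟩

theorem Hol.br {B' : Type} [Monoid B'] {act : B → E → E} {sc : B' → F → F} {C : Set E} {K : Set F}
    {φ : E → F} (h : Hol act sc C K φ) {γ : ℂ → E} (a : AnalyticAt ℂ γ 0)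
    (b : ∀ᶠ z in 𝓝 0, γ z ∈ C) : ∃ δ, AnalyticAt ℂ δ 0 ∧ ∀ᶠ z in 𝓝 0, Same sc (δ z) (φ (γ z)) :=
  let ⟨g, c, d⟩ := (h _ b.self_of_nhds).2.2
  ⟨fun z => g (γ z), c.comp a, tendsto_nhdsWithin_iff.2 ⟨a.continuousAt, b⟩ d⟩

theorem Mor.exists_hol {E : V M → V M' → Prop} (m : Mor o C C' E) (h : Nod o C) :
    ∃ φ, Hol (fun (t : ι → ℂ) (c : V M) => t • c) (fun (t : ι' → ℂ) (c : V M') => t • c) C C' φ ∧
      ∀ c ∈ C, E c (φ c) := by
  have : ∀ c ∈ C, ∃ c' ∈ C', E c c' := fun c hc => by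
    obtain ⟨γ, l⟩ := h.exists_loc hc
    obtain ⟨δ, -, b⟩ := m.hol _ (l.br true)
    exact ⟨_, l.zero true ▸ b.self_of_nhds⟩
  choose! φ a b using this
  refine ⟨φ, hol_of h ac_tor a (fun c hc t ht => ?_) fun γ hγ => ?_, b⟩
  · have d := h.cone t ht c hc
    exact same_iff.2 ((m.iff _ hc _ d _ (a _ hc) _ (a _ d) (b _ hc) (b _ d)).1 ⟨t, ht, rfl⟩)
  · obtain ⟨δ, d, e⟩ := m.hol _ hγ
    exact ⟨δ, d, (e.and hγ.mem).mono fun z k => same_iff.2
      ((m.iff _ k.2 _ k.2 _ k.1.1 _ (a _ k.2) k.1.2 (b _ k.2)).1 (.refl _))⟩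

section

variable {X X' : Type} [TopologicalSpace X] [TopologicalSpace X'] [T2Space X] [CompactSpace X]
  [T2Space X'] [CompactSpace X'] {R : RS X} {R' : RS X'} {N : Finset (X × X)}
  {N' : Finset (X' × X')} {A : ι → LB R} {A' : ι' → LB R'} {π : X → V M} {π' : X' → V M'}

theorem hol_of_liso (h : Par o C N A π) (h' : Par o' C' N' A' π') {f : X ≃ X'} (hf : LIso R R' f)
    (e : ∀ x y, Jn N x y ↔ Jn N' (f x) (f y)) :
    ∃ φ, Hol (fun (t : ι → ℂ) (c : V M) => t • c) (fun (t : ι' → ℂ) (c : V M') => t • c) C C' φ ∧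
      ∀ y c, Orb (π y) c → Orb (π' (f y)) (φ c) := by
  have m := Mor.of_iso h h' hf e
  obtain ⟨φ, a, b⟩ := m.exists_hol h.isNodal.nod
  refine ⟨φ, a, fun y c k => ?_⟩
  have d := h.isNodal.nod.orb (h.mem y) k
  exact (m.iff _ d _ d _ (h'.mem _) _ (a c d).1 ⟨y, k, .refl _⟩ (b c d)).1 (.refl _)

/-- **an isomorphism of the abstract data is an isomorphism in the sense of the statement** -/
theorem iso_of_liso (h : Par o C N A π) (h' : Par o' C' N' A' π') {f : X ≃ X'} (hf : LIso R R' f)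
    (e : ∀ x y, Jn N x y ↔ Jn N' (f x) (f y)) {sc : B → E → E} {p : Fin n → V M}
    {p' : Fin n → V M'} {G : V M → E} {G' : V M' → E}
    (hp : ∀ i, ∃ y, Orb (π y) (p i) ∧ Orb (π' (f y)) (p' i))
    (hG : ∀ y c c', Orb (π y) c → Orb (π' (f y)) c' → Same sc (G c) (G' c')) :
    ∃ φ, Iso (fun (t : ι → ℂ) (c : V M) => t • c) (fun (t : ι' → ℂ) (c : V M') => t • c) sc C C'
      p p' G G' φ ∧ ∀ y c, Orb (π y) c → Orb (π' (f y)) (φ c) := by
  obtain ⟨φ, a, b⟩ := hol_of_liso h h' hf e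
  obtain ⟨ψ, a', b'⟩ := hol_of_liso h' h (hf.symm f) (jn_symm e)
  refine ⟨φ, ⟨a, ⟨ψ, a', fun c hc => ?_, fun c hc => ?_⟩, fun i => ?_, fun c hc => ?_⟩, b⟩
  · obtain ⟨y, k⟩ := (h.img c).1 hc
    have := b' _ _ (b y c k)
    rw [f.symm_apply_apply] at this
    exact same_iff.2 ((Orb.symm k).trans this)
  · obtain ⟨y, k⟩ := (h'.img c).1 hc
    have := b _ _ (b' y c k)
    rw [f.apply_symm_apply] at this
    exact same_iff.2 ((Orb.symm k).trans this)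
  · obtain ⟨y, k, l⟩ := hp i
    exact same_iff.2 (l.symm.trans (b y _ k))
  · obtain ⟨y, k⟩ := (h.img c).1 hc
    exact hG y c _ k (b y c k)

/-- **an isomorphism in the sense of the statement lifts to the normalisations** -/
theorem Iso.lift (h : Par o C N A π) (h' : Par o' C' N' A' π') {sc : B → E → E} {p : Fin n → V M}
    {p' : Fin n → V M'} {G : V M → E} {G' : V M' → E} {φ : V M → V M'}
    (a : Iso (fun (t : ι → ℂ) (c : V M) => t • c) (fun (t : ι' → ℂ) (c : V M') => t • c) sc C C'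
      p p' G G' φ) : ∃ f : X ≃ X', LIso R R' f ∧ (∀ x y, Jn N x y ↔ Jn N' (f x) (f y)) ∧
      ∀ y c, Orb (π y) c → Orb (π' (f y)) (φ c) := by
  obtain ⟨f, b, d, -, e⟩ := (a.mor h'.cone o).lift h h'
  refine ⟨f, b, d, fun y c k => ?_⟩
  have := h.isNodal.nod.orb (h.mem y) k
  exact e y c this _ (a.1 c this).1 k (.refl _)

/-- sections on the normalisation are sections in the sense of the statement -/
theorem sec_of_mem (h : Par o C N A π) {a : ι → ℕ} {s : X → ℂ}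
    (hs : s ∈ H0 N (bz A fun i => a i)) : ∃ e, Sec (fun (t : ι → ℂ) (c : V M) => t • c) C
      (fun t z => I.chr a t * z) (fun _ => {0}) e ∧ ∀ y, e (π y) = s y := by
  obtain ⟨e, b, d⟩ := h.exists_isSecZ hs
  replace b := isSecZ_iff.1 b
  refine ⟨e, sec_of h.isNodal.nod (fun v => ?_) (fun c _ t _ v w k => ?_) (by simp)
    (fun c hc t ht => sub_eq_zero.2 (b.hom t (isUnit_pi_iff.1 ht) c hc))
    fun γ hγ => ⟨_, b.holo γ hγ, rfl, .of_forall fun z => sub_self _⟩, d⟩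
  · exact (Finset.analyticAt_fun_prod _ fun i _ =>
      (analyticAt_pi_iff.1 analyticAt_fst i).pow _).mul analyticAt_snd
  · rw [sub_eq_zero.1 k]
    exact sub_self _

end

variable {S Λ ρ J K ν : Type} [Fintype S] [Fintype Λ] [Fintype ρ] [Fintype J] [Fintype K]
  [Fintype ν] [DecidableEq ι] {ch : Ch ι J} {T : Tgt ρ J K} {x : ch.W ν}

theorem fld_mem (hx : x ∈ ch.sol ν T) {c : V ch.M} (hc : c ∈ crv x) :
    fld x c ∈ T.cone ∧ ∀ j, Val x j c (fld x c j) := by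
  obtain ⟨u, a⟩ := mem_crv.1 hc
  obtain ⟨y, b, d⟩ := hx.2 _ a
  have e : ∀ j, Val x j c (y j) := fun j v hv μ => gr_unique a hv (hx.1.1 _) ▸ d j μ
  rw [show fld x c = y from funext fun j => fld_eq hc (e j)]
  exact ⟨b, e⟩

theorem fld_smul (hx : x ∈ ch.sol ν T) {c : V ch.M} (hc : c ∈ crv x) {t : ι → ℂ}
    (ht : ∀ i, t i ≠ 0) (j : J) : fld x (t • c) j = (∏ i, t i ^ ch.wd j i) * fld x c j :=
  fld_eq (hx.1.2.2.1.cone t ht c hc) (((fld_mem hx hc).2 j).smul ht)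

/-- the fields extend holomorphically -/
theorem fld_ext (hx : x ∈ ch.sol ν T) {c : V ch.M} (hc : c ∈ crv x) :
    ∃ g, AnalyticAt ℂ g c ∧ ∀ᶠ y in 𝓝[crv x] c, fld x y = g y := by
  choose μ a using fun j => exists_val_one (a := ch.b j) (crv_ne hc)
  choose m b using fun j => hx.1.1 (some j) (x.X j (μ j))
  have d : ∀ j, val (μ j) c ≠ 0 := fun j => (a j).trans_ne one_ne_zero
  refine ⟨fun y j => val (m j) y / val (μ j) y, analyticAt_pi_iff.2 fun j =>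
    (Dict.an_val _ _).div (Dict.an_val _ _) (d j), ?_⟩
  filter_upwards [self_mem_nhdsWithin, mem_nhdsWithin_of_mem_nhds (eventually_all.2 fun j =>
    (Dict.an_val (μ j) c).continuousAt.eventually_ne (d j))] with y e k
  obtain ⟨u, l⟩ := mem_crv.1 e
  exact funext fun j => eq_div_of_mul_eq (k j)
    (((fld_mem hx e).2 j u l _).symm.trans (b j ▸ l.2 _ _))

/-- the map to the target is holomorphic -/
theorem hol_fld {W : Wt S Λ ρ J} {ℓ : ρ → ι → ℤ} (hw : ∀ j i, ch.wd j i = ∑ r, W.w j r * ℓ r i)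
    {sc : B → (J → ℂ) → J → ℂ} (hs : ∀ (z : J → ℂ) (t : ρ → ℂ), (∀ r, t r ≠ 0) →
      Same sc z fun j => (∏ r, t r ^ W.w j r) * z j) (hx : x ∈ ch.sol ν T) :
    Hol (fun (t : ι → ℂ) (c : V ch.M) => t • c) sc (crv x) T.cone (fld x) := fun c hc => by
  obtain ⟨g, a, b⟩ := fld_ext hx hc
  refine ⟨(fld_mem hx hc).1, fun t ht => ?_, g, a, b.mono fun y e => ?_⟩
  · have u := isUnit_pi_iff.1 ht
    have := hs (fld x c) (fun r => ∏ i, t i ^ ℓ r i) fun r => prod_zpow_ne u _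
    simpa only [prod_prod_zpow u, ← hw, ← fld_smul hx hc u] using this
  · simpa [e] using hs (g y) 1 fun _ => one_ne_zero

theorem scal_same (z : J → ℂ) (t : Unit → ℂ) (h : ∀ r, t r ≠ 0) :
    Same Pub.scal z fun j => (∏ r, t r ^ (1 : ℤ)) * z j :=
  ⟨t, isUnit_pi_iff.2 h, funext fun j => by simp [Pub.scal]⟩

end Vale.Agent.P269L.I
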