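import Vale.Agent.P269L.Tx
import Vale.Agent.P269.Pub.Vir

/-!
# Stable maps, presentations of their moduli stack with the standard obstruction theory,
Gromov-Witten invariants

A curve in a product of projective spaces is given by its multicone `C ⊆ E`; `act` is the action of
the torus on `E`.
-/

noncomputable section

namespace Vale.Agent.P269L.I

open Set Function Topology Filter Classical Vale.Agent.P269.Pub

section

variable {B B' B'' E E' E'' F ι : Type} [Monoid B] [Monoid B'] [Monoid B''] [NormedAddCommGroup E]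
  [NormedSpace ℂ E] [NormedAddCommGroup E'] [NormedSpace ℂ E'] [NormedAddCommGroup E'']
  [NormedSpace ℂ E''] [NormedAddCommGroup F] [NormedSpace ℂ F] [Fintype ι] {n : ℕ}

/-- `g` is holomorphic at `x` and agrees with `s` on `S` near `x`. -/
def Ext (S : Set E) (s : E → F) (x : E) (g : E → F) : Prop :=
  AnalyticAt ℂ g x ∧ ∀ᶠ y in 𝓝[S] x, s y = g y

/-- The Zariski tangent space at `x` of the reduced analytic set `S`. -/
def Tan (S : Set E) (x : E) : Set E := {v | ∀ h : E → ℂ, Ext S 0 x h → fderiv ℂ h x v = 0}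

variable (act : B → E → E) (act' : B' → E' → E') (act'' : B'' → E'' → E'')

/-- Two vectors give the same point. -/
def Same (c c' : E) : Prop := ∃ t, IsUnit t ∧ c' = act t c

/-- The directions of the orbit of the torus. -/
def dir (c : E) : Set E := range fun t => act t c

variable (C : Set E) (C' : Set E')

/-- `e` is a holomorphic section over the curve of the bundle with fibres `F / T c`, on which the
torus acts by `χ`. -/
def Sec (χ : B → F → F) (T : E → Set F) (e : E → F) : Prop :=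
  ∀ c ∈ C, (∀ t, IsUnit t → e (act t c) - χ t (e c) ∈ T (act t c)) ∧
    ∃ g, AnalyticAt ℂ g c ∧ ∀ᶠ y in 𝓝[C] c, e y - g y ∈ T y

/-- `φ` induces a holomorphic map of the quotients of `C` and `C'` by the tori. -/
def Hol (φ : E → E') : Prop :=
  ∀ c ∈ C, φ c ∈ C' ∧ (∀ t, IsUnit t → Same act' (φ c) (φ (act t c))) ∧
    ∃ g, AnalyticAt ℂ g c ∧ ∀ᶠ y in 𝓝[C] c, Same act' (g y) (φ y)

/-- `φ` is an isomorphism from `(C, p, f)` to `(C', p', f')`. -/
def Iso (p : Fin n → E) (p' : Fin n → E') (f : E → E'') (f' : E' → E'') (φ : E → E') : Prop :=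
  Hol act act' C C' φ ∧ (∃ ψ, Hol act' act C' C ψ ∧ (∀ c ∈ C, Same act c (ψ (φ c))) ∧
    ∀ c ∈ C', Same act' c (φ (ψ c))) ∧ (∀ i, Same act' (p' i) (φ (p i))) ∧
    ∀ c ∈ C, Same act'' (f c) (f' (φ c))

/-- An immersed holomorphic disc in the curve. -/
def Br (γ : ℂ → E) : Prop :=
  AnalyticAt ℂ γ 0 ∧ (∀ᶠ t in 𝓝 0, γ t ∈ C) ∧ deriv γ 0 ∉ dir act (γ 0)

/-- Two branches through `c` with different tangent lines. -/
def Cross (c : E) (γ δ : ℂ → E) : Prop :=
  Br act C γ ∧ Br act C δ ∧ γ 0 = c ∧ δ 0 = c ∧ ∀ s : ℂ, deriv γ 0 - s • deriv δ 0 ∉ dir act c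

/-- The character `t ↦ t^a`. -/
def chr (a : ι → ℕ) (t : ι → ℂ) : ℂ := ∏ i, t i ^ a i

variable (χ : (ι → ℕ) → B → ℂ)

/-- The polynomials of multidegree `a`; `χ a` is the character `t ↦ t^a`. -/
def pol (a : ι → ℕ) : Set (E → ℂ) := {q | Differentiable ℂ q ∧ ∀ t c, q (act t c) = χ a t * q c}

/-- `C` is the multicone over a closed, possibly disconnected, nodal curve (near each point one smooth
branch or two branches with different tangents) of arithmetic genus `g` and multidegree `m`, on which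
every `O(a)`, `a ≠ 0`, has only polynomial sections and `h⁰ = a · m + 1 - g`; the `p i` are distinct
smooth points. The torus acts freely exactly at the vectors with all components non-zero. -/
def Crv (g : ℤ) (m : ι → ℤ) (p : Fin n → E) : Prop :=
  (∀ c ∈ closure C, c ∈ C ↔ Injective fun t => act t c) ∧ (∀ c ∈ C, ∀ c', Same act c c' → c' ∈ C) ∧
  (∀ c ∈ C, ∃ γ δ, (Br act C γ ∧ γ 0 = c ∧ δ = γ ∨ Cross act C c γ δ) ∧
    ∀ ε > 0, ∀ᶠ y in 𝓝[C] c, ∃ t z, ‖z‖ < ε ∧ (y = act t (γ z) ∨ y = act t (δ z))) ∧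
  (∀ a, (∃ i, a i ≠ 0) →
    (∀ f, Sec act C (fun t z => χ a t * z) (fun _ => {0}) f → ∃ q ∈ pol act χ a, EqOn f q C) ∧
    (Set.finrank ℂ (C.domRestrict '' pol act χ a) : ℤ) = ∑ i, a i * m i + 1 - g) ∧
  (∀ i, p i ∈ C ∧ ∀ γ δ, ¬Cross act C (p i) γ δ) ∧ ∀ i j, Same act (p i) (p j) → i = j

/-- `(C, p, f)` is a stable map to the quotient of `C'`: a holomorphic map from a pointed nodal curve
with finitely many automorphisms. -/
def Stb (g : ℤ) (m : ι → ℤ) (p : Fin n → E) (f : E → E') : Prop :=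
  Crv act C χ g m p ∧ Hol act act' C C' f ∧
    ∃ Φ : Finset (E → E), ∀ φ, Iso act act act' C C p p f f φ → ∃ ψ ∈ Φ, ∀ c ∈ C, Same act (ψ c) (φ c)

end

variable {A B B' W E V P X Y ι Λ : Type} [NormedRing A] [NormedAlgebra ℂ A] [NormedRing B]
  [NormedAlgebra ℂ B] [Monoid B'] [NormedAddCommGroup W] [NormedSpace ℂ W] [NormedAddCommGroup E]
  [NormedSpace ℂ E] [NormedAddCommGroup V] [NormedSpace ℂ V] [NormedAddCommGroup P] [NormedSpace ℂ P]
  [NormedAddCommGroup X] [NormedSpace ℂ X] [TopologicalSpace Y] [Fintype ι] {n : ℕ}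

/-- A holomorphic representation of `Aˣ` on a finite dimensional space. -/
def Rep (act : A → W → W) : Prop :=
  FiniteDimensional ℂ (A × W) ∧ (∀ x, act 1 x = x) ∧ ∀ u, IsUnit u → IsLinearMap ℂ (act u) ∧
    ∀ x, AnalyticAt ℂ (uncurry act) (u, x) ∧ ∀ w, IsUnit w → act (u * w) x = act u (act w x)

/-- The curve `C` is connected and the map `f` to `Y`, the quotient `π` of `K`, has class `β`. -/
def Cls (act : B → E → E) (C : Set E) {K : Set X} (π : K → Y) (f : E → X) (β : Bm Y) : Prop :=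
  IsConnected C ∧ ∃ γ u, Tx.IsFund act C γ ∧ (∀ c, ∃ h, u c = π ⟨f (pick act C c), h⟩) ∧
    ∀ a, Zc a → β a = γ (pull u a)

/-- `z` is the integral of `∏ ψ_i^{m_i} ev_i^* c_i`, `l i = (m_i, c_i)`, against the virtual class over
the open and closed part `q` of the compact space `sol / Aˣ`; `ψ_i = - c₁(T i / D i)`. -/
def Intg (act : A → W → W) (ρ : A → P → P) (S sol : Set W) (van obs : W → Set P) (σ : W → P)
    (q : W → Prop) (ev : Fin n → W → Y → Prop) (ρ' : Fin n → A → E → E) (T D : Fin n → W → Set E)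
    (l : Fin n → ℕ × Co Y) (z : ℂ) : Prop :=
  let o := pick act sol
  ∃ (v : _) (u : Fin n → Quo act sol → Y) (e : Fin n → Co (Quo act sol)),
    let a := cup (ind fun y => q (o y))
      (prd (List.ofFn fun i => cup (prd (List.replicate (l i).1 fun w => -e i w)) (pull (u i) (l i).2)))
    Tx.VirE act ρ S sol univ van obs σ id ρ v ∧ (∀ i y, ev i (o y) (u i y)) ∧
    (∀ i, IsEuler act (ρ' i) sol (T i) (D i) (e i)) ∧ CompactSpace (Quo act sol) ∧ Zc a ∧ z = v a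

variable (A B W E V P X ι Λ n) in
/-- The data of a presentation: the group `G = Aˣ` acts on `W, E, V, P` by `α, ε, ν, ρ`, the torus `Bˣ`
on `E` by `τ`; the point `x ∈ S` has the curve `C x` of multidegree `m`, the marked points `p i x` and
the map `s (x, ·)` to `ℙ(V)`, of multidegree `a`; `j` embeds the product of the curve and of the target
in the product of the curve and of `ℙ(V)`, with equations `H l`; the vectors of `P` are functions
`ev κ l` on the curves, `σ` is the section and `f x` is the map to the target. -/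
structure Dat where
  α : A → W → W
  ε : A → E → E
  ν : A → V → V
  ρ : A → P → P
  τ : B → E → E
  r : A → Λ → Λ
  t : Fin n → A → B
  S : Set W
  d : ℕ
  C : W → Set E
  m : ι → ℤ
  p : Fin n → W → E
  a : ι → ℕ
  b : ι → ℕ
  s : W × E → V
  j : E × X → V
  H : Λ → E × V → ℂ
  ev : P → Λ → W × E → ℂ
  σ : W → P
  f : W → E → X

namespace Dat

variable (D : Dat A B W E V P X ι Λ n) (χ : (ι → ℕ) → B → ℂ) (sc : B' → X → X) (K : Set X)
  (TK : X → Set X) (g : ℤ)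

/-- The total space of the family. -/
def U : Set (W × E) := {q | q.1 ∈ D.S ∧ q.2 ∈ D.C q.1}

/-- The image of a subset of the cone over the target. -/
def im (c : E) : Set V := (fun y => D.j (c, y)) '' K

/-- The points whose map `s` has values in the target. -/
def sol : Set W := {x | x ∈ D.S ∧ ∀ c ∈ D.C x, D.s (x, c) ∈ D.im K c}

/-- The functions vanishing on the curve. -/
def van (x : W) : Set P := {κ | ∀ c ∈ D.C x, ∀ l, D.ev κ l (x, c) = 0}

/-- Sections of a quotient of `V ⊗ O(a)`. -/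
def Sc (x : W) : (E → Set V) → (E → V) → Prop := Sec D.τ (D.C x) fun u w => χ D.a u • w

/-- Sections of the pull-back of the normal bundle of the target in `ℙ(V)`. -/
def Nm (x : W) : (E → V) → Prop := D.Sc χ x fun c => D.im (TK (D.f x c)) c

/-- `κ` is the differential of the equations applied to `e`. -/
def Df (x : W) (κ : P) (e : E → V) : Prop :=
  ∀ c ∈ D.C x, ∀ l, D.ev κ l (x, c) = fderiv ℂ (D.H l) (c, D.s (x, c)) (0, e c)

/-- All data are equivariant. -/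
def Eqv : Prop :=
  Rep D.α ∧ Rep D.ε ∧ Rep D.ν ∧ Rep D.ρ ∧ Rep D.τ ∧ (∀ c, IsLinearMap ℂ fun w => D.τ w c) ∧
  ∀ u, IsUnit u → (∀ i, IsUnit (D.t i u)) ∧
    (∀ c, (∀ w, D.ε u (D.τ w c) = D.τ w (D.ε u c)) ∧ (∀ y, D.j (D.ε u c, y) = D.ν u (D.j (c, y))) ∧
      ∀ l w, D.H l (D.ε u c, D.ν u w) = D.H (D.r u l) (c, w)) ∧
    ∀ x ∈ D.S, D.α u x ∈ D.S ∧ D.C (D.α u x) = D.ε u '' D.C x ∧
      (∀ i, D.p i (D.α u x) = D.τ (D.t i u) (D.ε u (D.p i x))) ∧
      ∀ c ∈ D.C x, D.s (D.α u x, D.ε u c) = D.ν u (D.s (x, c)) ∧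
        ∀ κ l, D.ev (D.ρ u κ) l (D.α u x, D.ε u c) = D.ev κ (D.r u l) (x, c)

/-- `j` is a holomorphic family of linear embeddings of multidegree `b`, and the `H l` are reduced
equations of the image of the cone `K`, whose tangent spaces are `TK`. -/
def Emb : Prop :=
  Differentiable ℂ D.j ∧ (∀ l, Differentiable ℂ (D.H l)) ∧ ∀ c, IsLinearMap ℂ (fun y => D.j (c, y)) ∧
    (∀ u y, D.j (D.τ u c, y) = χ D.b u • D.j (c, y)) ∧ ((Injective fun u => D.τ u c) →
      (Injective fun y => D.j (c, y)) ∧ (∀ w ≠ 0, (∀ l, D.H l (c, w) = 0) ↔ w ∈ D.im K c) ∧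
      ∀ y ∈ K, ∀ w, (∀ l, fderiv ℂ (D.H l) (c, D.j (c, y)) (0, w) = 0) ↔ w ∈ D.im (TK y) c)

/-- `S` is a manifold of dimension `d = dim G + χ(s^* T ℙ(V)) + 3 g - 3 + n`, the curves form a flat
family (equations extend), `s` and the functions `ev κ l` are holomorphic, `σ` is `H(s)`. -/
def Fam : Prop :=
  (∃ i, D.a i ≠ 0) ∧ (∀ i, Differentiable ℂ (D.p i)) ∧ (∀ l q, IsLinearMap ℂ fun κ => D.ev κ l q) ∧
  ∀ x ∈ D.S, (D.d : ℤ) = Module.finrank ℂ A +
      (Module.finrank ℂ V * (∑ i, D.a i * D.m i + 1 - g) - (1 - g)) + (3 * g - 3 + n) ∧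
    (∃ Φ : (Fin D.d → ℂ) → W, AnalyticAt ℂ Φ 0 ∧ Injective (fderiv ℂ Φ 0) ∧
      map Φ (𝓝 0) = 𝓝[D.S] x) ∧ Crv D.τ (D.C x) χ g D.m (D.p · x) ∧
    (∀ k, ∀ q ∈ pol D.τ χ k, (∀ c ∈ D.C x, q c = 0) → ∃ Q : W × E → ℂ, (∀ c, Q (x, c) = q c) ∧
      (∀ y, (fun c => Q (y, c)) ∈ pol D.τ χ k) ∧ (∀ c, AnalyticAt ℂ Q (x, c)) ∧
      ∀ᶠ y in 𝓝[D.S] x, ∀ c ∈ D.C y, Q (y, c) = 0) ∧
    ∀ c ∈ D.C x, (∃ h, Ext D.U D.s (x, c) h) ∧
      (∀ u, IsUnit u → D.s (x, D.τ u c) = χ D.a u • D.s (x, c)) ∧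
      ∀ l, D.ev (D.σ x) l (x, c) = D.H l (c, D.s (x, c)) ∧ ∀ κ, ∃ h, Ext D.U (D.ev κ l) (x, c) h

/-- The obstruction theory at `x`: `P / van` is a vector bundle that contains all sections of the normal
bundle; the tangent space `T` of `S` relative to the stack of pointed nodal curves (tangent vectors `v`
with a lift `ξ` to the family) maps onto `H⁰(s^* T ℙ(V))` with kernel the Lie algebra of `G`. -/
def Obs (x : W) : Prop :=
  let T := fun v ξ => v ∈ Tan D.S x ∧ Sec D.τ (D.C x) D.τ (dir D.τ) ξ ∧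
    (∀ c ∈ D.C x, (v, ξ c) ∈ Tan D.U (x, c)) ∧
    ∀ i, ξ (D.p i x) - fderiv ℂ (D.p i) x v ∈ dir D.τ (D.p i x)
  let L := fun c => range fun z : ℂ => z • D.s (x, c)
  let R := fun v (ξ : E → E) (e : E → V) => ∀ c ∈ D.C x, ∀ h, Ext D.U D.s (x, c) h →
    fderiv ℂ h (x, c) (v, ξ c) - fderiv ℂ D.j (c, D.f x c) (ξ c, 0) - e c ∈ L c
  (∀ᶠ y in 𝓝[D.S] x, Set.finrank ℂ (D.van y) = Set.finrank ℂ (D.van x)) ∧
  (∀ e, D.Nm χ TK x e → ∃ κ, D.Df x κ e) ∧ (∀ e, D.Sc χ x L e → ∃ v ξ, T v ξ ∧ R v ξ e) ∧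
  ∀ v ξ, T v ξ → R v ξ (fun _ => 0) → ∃ u, v = fderiv ℂ (D.α · x) 1 u ∧
    ∀ c ∈ D.C x, ξ c - fderiv ℂ (D.ε · c) 1 u ∈ dir D.τ c

/-- The points of `sol` are stable maps and their isomorphisms are the elements of `G`. -/
def Grp (x : W) : Prop :=
  (∀ c ∈ D.C x, D.s (x, c) = D.j (c, D.f x c)) ∧ Stb D.τ sc (D.C x) K χ g D.m (D.p · x) (D.f x) ∧
  ∀ y ∈ D.sol K, ∀ φ, Iso D.τ D.τ sc (D.C x) (D.C y) (D.p · x) (D.p · y) (D.f x) (D.f y) φ →
    ∃! u, IsUnit u ∧ D.α u x = y ∧ ∀ c ∈ D.C x, Same D.τ (D.ε u c) (φ c)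

/-- A presentation of the moduli stack of stable maps to `Y`, the quotient `π` of `K`, with its
obstruction theory, which contains all connected stable maps of genus `g` and class `β` and in which
the integrals are `N`. -/
def Pres (π : K → Y) (β : Bm Y) (N : (Fin n → ℕ × Co Y) → ℂ) : Prop :=
  D.Eqv ∧ D.Emb χ K TK ∧ D.Fam χ g ∧ (∀ x ∈ D.sol K, D.Grp χ sc K g x ∧ D.Obs χ TK x) ∧
  (∀ (M : ℕ) (C : Set (Fin M → ℂ)) m p f, Stb scal sc C K chr g m p f → Cls scal C π f β →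
    ∃ x ∈ D.sol K, ∃ φ, Iso scal D.τ sc C (D.C x) p (D.p · x) f (D.f x) φ) ∧
  ∀ l z, (∀ i, Zc (l i).2) → (Intg D.α D.ρ D.S (D.sol K) D.van
    (fun x => {κ | ∃ e, D.Nm χ TK x e ∧ D.Df x κ e}) D.σ (fun x => Cls D.τ (D.C x) π (D.f x) β)
    (fun i x y => ∃ h, y = π ⟨D.f x (D.p i x), h⟩) (fun i u c => D.τ (D.t i u) (D.ε u c))
    (fun i x => Tan (D.C x) (D.p i x)) (fun i x => dir D.τ (D.p i x)) l z ↔ z = N l)

end Dat

/-- `N` are the Gromov-Witten invariants of genus `g` and class `β` with `n` insertions. -/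
def IsGW (sc : B' → X → X) (K : Set X) (TK : X → Set X) (π : K → Y) (g : ℤ) (β : Bm Y) (n : ℕ)
    (N : (Fin n → ℕ × Co Y) → ℂ) : Prop :=
  ∃ (A W E V P ι Λ : Type) (_ : NormedRing A) (_ : NormedAlgebra ℂ A) (_ : NormedAddCommGroup W)
    (_ : NormedSpace ℂ W) (_ : NormedAddCommGroup E) (_ : NormedSpace ℂ E) (_ : NormedAddCommGroup V)
    (_ : NormedSpace ℂ V) (_ : NormedAddCommGroup P) (_ : NormedSpace ℂ P) (_ : Fintype ι)
    (D : Dat A (ι → ℂ) W E V P X ι Λ n), D.Pres chr sc K TK g π β N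

/-- The Virasoro constraints. -/
def Virasoro (Hdg : ℕ → ℕ → Co Y → Prop) (Fund : Bm Y → Prop) (Can : Co Y → Prop)
    (GW : ℤ → Bm Y → ∀ n, ((Fin n → ℕ × Co Y) → ℂ) → Prop) (n : ℕ) : Prop :=
  let Dt := fun (B : ℕ) (φ : Fin B → Co Y) (p q : Fin B → ℕ) (η R : Matrix (Fin B) (Fin B) ℂ)
      (u : Fin B → ℂ) =>
    let E := fun x (y : Fin B → ℂ) => Cohom univ x fun l => ∑ b, y b * φ b l
    (∀ a, Zc (φ a) ∧ Hdg (p a) (q a) (φ a)) ∧ (∀ x, Zc x → ∃! y, E x y) ∧ E unit u ∧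
      (∃ X, Fund X ∧ ∀ a b, η a b = X (cup (φ a) (φ b))) ∧
      ∃ e, Can e ∧ ∀ a, E (fun l => -cup e (φ a) l) (R a)
  ∃ (N : ℤ → Bm Y → ∀ n, (Fin n → ℕ × Co Y) → ℂ) (h : Co Y),
  (∀ g β n, 0 ≤ g → IsBM β → GW g β n (N g β n)) ∧
  (∀ g β n l, N g β n l ≠ 0 → 0 ≤ g ∧ IsBM β ∧ ∃ d : ℕ, β h = d ∧ 0 < 2 * g - 2 + n + 3 * d) ∧
  (∀ g n (d : ℕ), {β : Bm Y | β h = d ∧ ∃ l, N g β n l ≠ 0}.Finite) ∧
  (∃ B φ p q η R u, Dt B φ p q η R u) ∧
  ∀ B φ p q η R u, Dt B φ p q η R u →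
    let π := fun a => p a + q a
    ∀ k β j l, virL π p u η R n k (fun j l => sexp π (fun l β j =>
      N (j + 1) β l.length fun i => ((l.get i).1, φ (l.get i).2)) l β j) j l = 0

/-- The Virasoro conjecture for the subvariety, of dimension `n`. -/
def Conj {J K : Type} [Fintype J] (F : K → MvPolynomial J ℂ) (n : ℕ) : Prop :=
  let S := cone F
  let T := fun x : J → ℂ => {v | ∀ k, ∑ j, v j * MvPolynomial.eval x (MvPolynomial.pderiv j (F k)) = 0}
  let π : S → Var F := Quot.mk _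
  Virasoro (IsHodge S T π) (Tx.IsFund scal S) (IsCan scal S T (fun t => t ()) n) (IsGW scal S T π) n

end Vale.Agent.P269L.I
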