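import Vale.Agent.P269L.I.Iso1
import Vale.Agent.P269L.I.St

/-!
# The isomorphisms of the stable maps of the chart are the elements of the group
-/

set_option linter.unusedSectionVars false

namespace Vale.Agent.P269L.I

open Set Function Topology Filter Vale.Agent.P269 Vale.Agent.P269.Cv Vale.Agent.P269.Base
  Vale.Agent.P269.Ch

variable {S Λ ρ J K ι ι' B E : Type} [Fintype S] [Fintype Λ] [Fintype ρ] [Fintype J] [Fintype K]
  [Fintype ι] [Fintype ι'] [Monoid B] [NormedAddCommGroup E] [NormedSpace ℂ E] {n : ℕ}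

section

variable {M : ι → ℕ} {M' : ι' → ℕ} {C : Set (V M)} {C' : Set (V M')} {c c' : V M}

theorem same_iff : Same (fun (t : ι → ℂ) (c : V M) => t • c) c c' ↔ Orb c c' :=
  exists_congr fun _ => and_congr_left' isUnit_pi_iff

theorem Hol.orb {φ : V M → V M'} (h : Hol (fun (t : ι → ℂ) (c : V M) => t • c)
    (fun (t : ι' → ℂ) (c : V M') => t • c) C C' φ) (hc : c ∈ C) (e : Orb c c') :
    Orb (φ c) (φ c') := by
  obtain ⟨t, a, rfl⟩ := e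
  exact same_iff.1 ((h c hc).2.1 t (isUnit_pi_iff.2 a))

theorem Iso.mor {sc : B → E → E} {p : Fin n → V M} {p' : Fin n → V M'} {f : V M → E} {f' : V M' → E}
    {φ : V M → V M'} (h : Iso (fun (t : ι → ℂ) (c : V M) => t • c)
      (fun (t : ι' → ℂ) (c : V M') => t • c) sc C C' p p' f f' φ)
    (hC : ∀ t : ι' → ℂ, (∀ i, t i ≠ 0) → ∀ c ∈ C', t • c ∈ C') (o : ι) :
    Mor o C C' fun c c' => Orb (φ c) c' := by
  obtain ⟨a, ⟨ψ, b, d, e⟩, -⟩ := h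
  refine ⟨fun c' hc => ⟨_, (b c' hc).1, (same_iff.1 (e c' hc)).symm⟩,
    fun c hc c₂ hc₂ c' _ c₂' _ k k' => ⟨fun l => (k.symm.trans (a.orb hc l)).trans k',
      fun l => ((same_iff.1 (d c hc)).trans (b.orb (a c hc).1 ((k.trans l).trans k'.symm))).trans
        (same_iff.1 (d c₂ hc₂)).symm⟩, fun γ hγ => ?_⟩
  obtain ⟨-, -, g, g1, g2⟩ := a _ hγ.mem.self_of_nhds
  refine ⟨fun t => g (γ t), g1.comp hγ.holo, ?_⟩
  filter_upwards [tendsto_nhdsWithin_iff.2 ⟨hγ.holo.continuousAt, hγ.mem⟩ g2, hγ.mem] with t k l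
  obtain ⟨s, k1, k2⟩ := (same_iff.1 k).symm
  exact ⟨k2 ▸ hC s k1 _ (a _ l).1, s, k1, k2⟩

end

variable [DecidableEq ι] [DecidableEq ρ] {ch : Ch ι J} {W : Wt S Λ ρ J} {ℓ : ρ → ι → ℤ}
  {T : Tgt ρ J K}

section

variable {ν : Type} [Fintype ν] {x y : ch.W ν}

theorem unit_eq (hF : ch.Free T.cone) (ht : ch.Tight) (hx : x ∈ ch.sol ν T) {a b : ch.A ν}
    (ha : IsUnit a) (hb : IsUnit b) (e : act a x = act b x)
    (ho : ∀ c ∈ crv x, Orb (fun i => a.1 i (c i) : V ch.M) fun i => b.1 i (c i)) : a = b := by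
  obtain ⟨a, rfl⟩ := ha
  obtain ⟨b, rfl⟩ := hb
  refine congrArg _ (inv_mul_eq_one.1 (Ch.eq_one hx hF (ht.eq hx.1) ?_ fun c hc => ?_))
  · rw [Units.val_mul, act_mul, ← e, ← act_mul, Units.inv_mul, act_one]
  · obtain ⟨t, -, k⟩ := ho c hc
    refine ⟨t ch.o, (congrArg ((a⁻¹ : (ch.A ν)ˣ).1.1 ch.o) (congrFun k ch.o)).trans ?_⟩
    rw [Dict.smul_ap, map_smul]
    exact congrArg _ (congrArg (fun s : ch.A ν => s.1 ch.o (c ch.o)) a.inv_mul)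

/-- **existence of the change of frames** -/
theorem exists_of_mor (hl : ch.Lat W ℓ) (hG : Lt W.w T.cone) (hc : ∀ l, ch.a l ≠ 0) (ht : ch.Tight)
    (hx : x ∈ ch.sol ν T) (hy : y ∈ ch.sol ν T) {E : V ch.M → V ch.M → Prop}
    (m : Mor ch.o (crv x) (crv y) E) (hp : ∀ n, E (x.p n) (y.p n))
    (hf : ∀ c ∈ crv x, ∀ c' ∈ crv y, E c c' → ∃ t : ρ → ℂ, (∀ r, t r ≠ 0) ∧
      ∀ j, fld y c' j = (∏ r, t r ^ W.w j r) * fld x c j) :
    ∃ a, IsUnit a ∧ act a x = y ∧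
      ∀ c ∈ crv x, ∀ c' ∈ crv y, E c c' → Orb (fun i => a.1 i (c i)) c' := by
  obtain ⟨X, _, _, _, R, N, A, π, u, p, ξ, h⟩ := exists_cr hx.1
  obtain ⟨X', _, _, _, R', N', A', π', u', p', ξ', h'⟩ := exists_cr hy.1
  obtain ⟨s, s1, s2⟩ := h.mem_sol.1 hx
  obtain ⟨s', s1', -⟩ := h'.mem_sol.1 hy
  obtain ⟨f, f1, f2, f3, f4⟩ := m.lift h.par h'.par
  obtain ⟨a, a0, a1, a2⟩ := exists_act hl hG hc ht h h' s1 s1'
    (fun z => by simpa using s2 z 1 fun _ => one_ne_zero) f1 f2 (fun n => by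
      obtain ⟨t, -, e⟩ := (f4 _ _ (hx.1.2.2.2.1 n).1 _ (hy.1.2.2.2.1 n).1 (h.mark n) (hp n)).symm
      exact h'.orb_mark.1 ⟨t, e⟩) fun z => by
      obtain ⟨c', b, d, τ, e, rfl⟩ := f3 z
      obtain ⟨t, t0, k⟩ := hf _ (h.par.mem z) _ b d
      refine ⟨fun r => t r / ∏ i, τ i ^ ℓ r i, fun r => div_ne_zero (t0 r) (prod_zpow_ne e _),
        fun j => ?_⟩
      have := k j
      rw [h'.fld_smul (s1' j) _ e, h.fld_π (s1 j)] at this
      simp only [div_zpow, Finset.prod_div_distrib, prod_prod_zpow e, ← hl.wd]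
      rw [div_mul_eq_mul_div, ← this, mul_div_cancel_left₀ _ (prod_zpow_ne e _)]
  refine ⟨a, a0, a1, fun c b c' b' e => ?_⟩
  obtain ⟨z, t, t0, rfl⟩ := (h.par.img c).1 b
  refine .trans (.trans (.symm ⟨t, t0, funext fun i => map_smul (a.1 i) (t i) _⟩) (a2 z).symm)
    (f4 z _ b _ b' ⟨t, t0, rfl⟩ e)

end

variable {x y : ch.W (Fin n)} {sc : B → (J → ℂ) → J → ℂ} {f f' : V ch.M → J → ℂ}

/-- **Iso = G** -/
theorem iso_eq (hl : ch.Lat W ℓ) (hG : Lt W.w T.cone) (hc : ∀ l, ch.a l ≠ 0) (ht : ch.Tight)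
    (hs : ∀ z z', Same sc z z' → ∃ t : ρ → ℂ, (∀ r, t r ≠ 0) ∧
      ∀ j, z' j = (∏ r, t r ^ W.w j r) * z j)
    (hx : x ∈ ch.sol (Fin n) T) (hy : y ∈ ch.sol (Fin n) T) (hf : EqOn f (fld x) (crv x))
    (hf' : EqOn f' (fld y) (crv y)) {φ : V ch.M → V ch.M}
    (h : Iso (fun (t : ι → ℂ) (c : V ch.M) => t • c) (fun (t : ι → ℂ) (c : V ch.M) => t • c) sc
      (crv x) (crv y) x.p y.p f f' φ) :
    ∃! u : ch.A (Fin n), IsUnit u ∧ act u x = y ∧ ∀ c ∈ crv x,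
      Same (fun (t : ι → ℂ) (c : V ch.M) => t • c) (fun i => u.1 i (c i)) (φ c) := by
  obtain ⟨X', _, _, _, R', N', A', π', u', p', ξ', h'⟩ := exists_cr hy.1
  obtain ⟨s', s1', -⟩ := h'.mem_sol.1 hy
  obtain ⟨a, a0, a1, a2⟩ := exists_of_mor hl hG hc ht hx hy (h.mor h'.par.cone ch.o)
    (fun i => (same_iff.1 (h.2.2.1 i)).symm) (by
      rintro c b _ b' ⟨τ, e, rfl⟩
      obtain ⟨t, t0, k⟩ := hs _ _ (h.2.2.2 c b)
      have d := (h.1 c b).1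
      refine ⟨fun r => (∏ i, τ i ^ ℓ r i) * t r, fun r => mul_ne_zero (prod_zpow_ne e _) (t0 r),
        fun j => ?_⟩
      rw [fld_eq b' ((val_fld (h'.exists_ind_iff.1 ⟨_, s1' j⟩ _ d)).smul e), ← hf' d, k, hf b]
      simp only [mul_zpow, Finset.prod_mul_distrib, prod_prod_zpow e, ← hl.wd, mul_assoc])
  have a3 := fun c b => a2 c b _ (h.1 c b).1 (.refl _)
  exact ⟨a, ⟨a0, a1, fun c b => same_iff.2 (a3 c b)⟩, fun b ⟨b0, b1, b2⟩ =>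
    unit_eq (free_of hl hG) ht hx b0 a0 (b1.trans a1.symm) fun c d =>
      (same_iff.1 (b2 c d)).trans (a3 c d).symm⟩

/-- finitely many automorphisms -/
theorem aut_fin (hl : ch.Lat W ℓ) (hG : Lt W.w T.cone) (hc : ∀ l, ch.a l ≠ 0) (ht : ch.Tight)
    (hs : ∀ z z', Same sc z z' → ∃ t : ρ → ℂ, (∀ r, t r ≠ 0) ∧
      ∀ j, z' j = (∏ r, t r ^ W.w j r) * z j)
    (hx : x ∈ ch.sol (Fin n) T) (hf : EqOn f (fld x) (crv x))
    (hS : {a : ch.A (Fin n) | IsUnit a ∧ act a x = x}.Finite) :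
    ∃ Φ : Finset (V ch.M → V ch.M), ∀ φ,
      Iso (fun (t : ι → ℂ) (c : V ch.M) => t • c) (fun (t : ι → ℂ) (c : V ch.M) => t • c) sc
        (crv x) (crv x) x.p x.p f f φ →
      ∃ ψ ∈ Φ, ∀ c ∈ crv x, Same (fun (t : ι → ℂ) (c : V ch.M) => t • c) (ψ c) (φ c) :=
  ⟨(hS.image fun a c i => a.1 i (c i)).toFinset, fun _ h =>
    let ⟨a, ⟨b, c, d⟩, _⟩ := iso_eq hl hG hc ht hs hx hx hf hf h
    ⟨_, (Finite.mem_toFinset _).2 ⟨a, ⟨b, c⟩, rfl⟩, d⟩⟩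

theorem same_scal (z z' : J → ℂ) (h : Same Pub.scal z z') : ∃ t : Unit → ℂ, (∀ r, t r ≠ 0) ∧
    ∀ j, z' j = (∏ r, t r ^ (1 : ℤ)) * z j :=
  let ⟨t, a, b⟩ := h
  ⟨t, isUnit_pi_iff.1 a, fun j => by simp [b, Pub.scal]⟩

end Vale.Agent.P269L.I
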