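import Vale.Agent.P269L.I.Ell
import Vale.Agent.P269.Pt.Core
import Vale.Agent.P269.Holo.Osg

/-!
# Bijections of nodal curves that are holomorphic along the branches
-/

set_option linter.unusedSectionVars false

namespace Vale.Agent.P269L.I

open Set Function Topology Filter Vale.Agent.P269 Vale.Agent.P269.Cv Vale.Agent.P269.Base

variable {ι ι' : Type} [Fintype ι] [Fintype ι'] {M : ι → ℕ} {M' : ι' → ℕ} {o : ι} {o' : ι'}
  {C : Set (V M)} {C' : Set (V M')} {E : V M → V M' → Prop}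

/-- `E c c'` says that the orbit of `c` goes to the orbit of `c'`: a bijection of the curves that is
holomorphic along the branches. -/
structure Mor (o : ι) (C : Set (V M)) (C' : Set (V M')) (E : V M → V M' → Prop) : Prop where
  sur : ∀ c' ∈ C', ∃ c ∈ C, E c c'
  iff : ∀ c ∈ C, ∀ d ∈ C, ∀ c' ∈ C', ∀ d' ∈ C', E c c' → E d d' → (Orb c d ↔ Orb c' d')
  hol : ∀ γ, IsBranch o C γ → ∃ δ, AnalyticAt ℂ δ 0 ∧ ∀ᶠ t in 𝓝 0, δ t ∈ C' ∧ E (γ t) (δ t)

variable {X X' : Type} [TopologicalSpace X] [TopologicalSpace X'] [T2Space X] [CompactSpace X]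
  [T2Space X'] [CompactSpace X'] {R : RS X} {R' : RS X'} {N : Finset (X × X)}
  {N' : Finset (X' × X')} {A : ι → LB R} {A' : ι' → LB R'} {π : X → V M} {π' : X' → V M'}

theorem orb_iff (h : Par o C N A π) {x y : X} : Orb (π x) (π y) ↔ x = y ∨ Jn N x y :=
  ⟨fun ⟨t, _, e⟩ => h.inj x y t e, fun e => h.π_eq e ▸ Orb.refl _⟩

theorem orb_br (x : X) (t : ℂ) : Orb (π (R.i x t)) (br A π x t) :=
  ⟨_, fun i => inv_ne_zero ((A i).ne _ _), br_eq x t⟩

theorem ev_not_jn (hN : Nd N) (y : X) : ∃ U ∈ 𝓝 y, ∀ z ∈ U, ∀ w ∈ U, ¬Jn N z w := by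
  have a := eventually_nhdsWithin_iff.1 (Xi.ev_sm N ∅ y)
  refine ⟨_, a, fun z hz w hw e => ?_⟩
  by_cases b : z = y
  · by_cases c : w = y
    · exact e.ne hN (b.trans c.symm)
    · exact sm_iff.1 (hw c).1 _ e.symm
  · exact sm_iff.1 (hz b).1 _ e

theorem liso_inj {f : X → X'} (hf : LIso R R' f) (k : ∀ x y, f x = f y → x = y ∨ Jn N x y) :
    Injective f := fun x y e => by_contra fun b => by
  obtain ⟨U, W, hU, hW, xU, yW, d⟩ := t2_separation b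
  have a1 : f '' (U ∩ {z | z ≠ x → Sm N z}) ∈ 𝓝 (f x) := hf.map_nhds x ▸ image_mem_map
    (inter_mem (hU.mem_nhds xU) ((eventually_nhdsWithin_iff.1 (Xi.ev_sm N ∅ x)).mono
      fun z a c => (a c).1))
  have a2 : f '' W ∈ 𝓝 (f x) := e ▸ hf.map_nhds y ▸ image_mem_map (hW.mem_nhds yW)
  have := R'.neBot (f x)
  obtain ⟨_, ⟨⟨z, ⟨z1, z2⟩, rfl⟩, w, w1, w2⟩, c⟩ := Filter.nonempty_of_mem (inter_mem
    (nhdsWithin_le_nhds (inter_mem a1 a2)) (self_mem_nhdsWithin (a := f x) (s := {f x}ᶜ)))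
  rcases k z w w2.symm with a | a
  · exact disjoint_left.1 d z1 (a ▸ w1)
  · exact sm_iff.1 (z2 fun a => c (congrArg f a)) _ a

theorem liso_surj {f : X → X'} (hf : LIso R R' f) (k : ∀ y, Sm N' y → y ∈ range f) :
    Surjective f := fun y => by
  have := R'.neBot y
  exact hf.isClopen_range.isClosed.mem_of_tendsto (f := id) (b := 𝓝[≠] y) (x := y)
    nhdsWithin_le_nhds ((Xi.ev_sm N' ∅ y).mono fun z hz => k z hz.1)

namespace Mor

variable (m : Mor o C C' E) (h : Par o C N A π) (h' : Par o' C' N' A' π')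
include m h h'

theorem factor (y : X) : ∃ (y' : X') (φ : ℂ → ℂ), AnalyticAt ℂ φ 0 ∧ φ 0 = 0 ∧ deriv φ 0 ≠ 0 ∧
    ∀ᶠ t in 𝓝 0, ∃ c' ∈ C', E (br A π y t) c' ∧ Orb (π' (R'.i y' (φ t))) c' := by
  obtain ⟨δ, a, b⟩ := m.hol _ (h.isBranch y)
  obtain ⟨y', s, φ, -, -, a3, a4, a5⟩ := h'.factor a (b.mono fun _ => And.left)
  have k : ∀ᶠ t in 𝓝 0, δ t ∈ C' ∧ E (br A π y t) (δ t) ∧ Orb (π' (R'.i y' (φ t))) (δ t) :=
    (b.and a5).mono fun t c => ⟨c.1.1, c.1.2, (orb_br y' _).trans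
      (.of_smul (h'.ne_zero _ c.1.1) c.2)⟩
  refine ⟨y', φ, a3, a4, Holo.Osg.one a3 ?_, k.mono fun t c => ⟨_, c⟩⟩
  obtain ⟨U, hU, n⟩ := ev_not_jn h.nd y
  refine ⟨_, (k.and (R.tgt_nhds y)).and (R.tends_i y hU), fun t ht t' ht' e => ?_⟩
  have := (m.iff _ (h.br_mem y t) _ (h.br_mem y t') _ ht.1.1.1 _ ht'.1.1.1 ht.1.1.2.1
    ht'.1.1.2.1).2 (ht.1.1.2.2.symm.trans (e ▸ ht'.1.1.2.2))
  have := ((orb_iff h).1 (((orb_br y t).trans this).trans (orb_br y t').symm)).resolve_right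
    (n _ ht.2 _ ht'.2)
  rw [← R.e_i ht.1.2, this, R.e_i ht'.1.2]

/-- **the bijection lifts to an isomorphism of the normalisations** -/
theorem lift : ∃ f : X ≃ X', LIso R R' f ∧ (∀ x y, Jn N x y ↔ Jn N' (f x) (f y)) ∧
    (∀ y, ∃ c' ∈ C', E (π y) c' ∧ Orb (π' (f y)) c') ∧
    ∀ y, ∀ c ∈ C, ∀ c' ∈ C', Orb (π y) c → E c c' → Orb (π' (f y)) c' := by
  choose f φ a1 a2 a3 a4 using m.factor h h'
  have e0 : ∀ y, ∃ c' ∈ C', E (π y) c' ∧ Orb (π' (f y)) c' := fun y => by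
    simpa only [br_zero, a2, R'.i_zero] using (a4 y).self_of_nhds
  have e1 : ∀ y, ∀ c ∈ C, ∀ c' ∈ C', Orb (π y) c → E c c' → Orb (π' (f y)) c' :=
    fun y c hc c' hc' a b => let ⟨_, d, e, k⟩ := e0 y
      k.trans ((m.iff _ (h.mem y) _ hc _ d _ hc' e b).1 a)
  have e2 : ∀ x y, Orb (π x) (π y) ↔ Orb (π' (f x)) (π' (f y)) := fun x y => by
    obtain ⟨_, d, e, k⟩ := e0 x
    obtain ⟨_, d', e', k'⟩ := e0 y
    rw [m.iff _ (h.mem x) _ (h.mem y) _ d _ d' e e']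
    exact ⟨fun a => (k.trans a).trans k'.symm, fun a => (k.symm.trans a).trans k'⟩
  have hf : LIso R R' f := liso_of fun y => ⟨φ y, a1 y, a2 y, a3 y, by
    have tφ : Tendsto (φ y) (𝓝[≠] 0) (𝓝[≠] 0) := tendsto_nhdsWithin_iff.2
      ⟨(((a1 y).continuousAt.tendsto.mono_right (congrArg 𝓝 (a2 y)).le)).mono_left
        nhdsWithin_le_nhds, by
          simpa [a2] using ((a1 y).differentiableAt.hasDerivAt.eventually_ne (a3 y))⟩
    rw [← nhdsNE_sup_pure, eventually_sup, eventually_pure]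
    refine ⟨?_, by rw [R.i_zero, a2, R'.i_zero]⟩
    filter_upwards [tφ (R'.ev_ne_iff.1 (Xi.ev_sm N' ∅ (f y))),
      (a4 y).filter_mono nhdsWithin_le_nhds] with t b ⟨c', d1, d2, d3⟩
    exact ((orb_iff h').1 ((e1 _ _ (h.br_mem y t) _ d1 (orb_br y t) d2).trans d3.symm)).resolve_right
      fun e => sm_iff.1 b.1 _ e.symm⟩
  have i : Injective f := liso_inj hf fun x y e => (orb_iff h).1 ((e2 x y).2 (e ▸ .refl _))
  have s : Surjective f := liso_surj (N' := N') hf fun y' hy => by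
    obtain ⟨c, hc, a⟩ := m.sur _ (h'.mem y')
    obtain ⟨y, t, b, d⟩ := (h.img c).1 hc
    exact ⟨y, ((orb_iff h').1 (e1 y c hc _ (h'.mem y') ⟨t, b, d⟩ a)).resolve_right
      fun e => sm_iff.1 hy _ e.symm⟩
  refine ⟨.ofBijective f ⟨i, s⟩, hf, fun x y => ⟨fun a => ?_, fun a => ?_⟩, e0, e1⟩
  · exact ((orb_iff h').1 ((e2 x y).1 ((orb_iff h).2 (.inr a)))).resolve_left
      fun b => a.ne h.nd (i b)
  · exact ((orb_iff h).1 ((e2 x y).2 ((orb_iff h').2 (.inr a)))).resolve_left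
      fun b => a.ne h'.nd (congrArg f b)

omit m in
/-- an isomorphism of the normalisations that respects the nodes descends -/
theorem of_iso {f : X ≃ X'} (hf : LIso R R' f) (e : ∀ x y, Jn N x y ↔ Jn N' (f x) (f y)) :
    Mor o C C' fun c c' => ∃ y, Orb (π y) c ∧ Orb (π' (f y)) c' := by
  have e2 : ∀ x y, Orb (π x) (π y) ↔ Orb (π' (f x)) (π' (f y)) := fun x y => by
    rw [orb_iff h, orb_iff h', e, f.injective.eq_iff]
  refine ⟨fun c' hc => ?_, ?_, fun γ hγ => ?_⟩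
  · obtain ⟨y, t, a, b⟩ := (h'.img c').1 hc
    obtain ⟨y, rfl⟩ := f.surjective y
    exact ⟨_, h.mem y, y, .refl _, t, a, b⟩
  · rintro c - d - c' - d' - ⟨x, a, a'⟩ ⟨y, b, b'⟩
    exact ⟨fun k => (a'.symm.trans ((e2 x y).1 ((a.trans k).trans b.symm))).trans b',
      fun k => (a.symm.trans ((e2 x y).2 ((a'.trans k).trans b'.symm))).trans b⟩
  · obtain ⟨y, s, φ, -, -, a3, a4, a5⟩ := h.factor hγ.holo hγ.mem
    have tφ := a3.continuousAt.tendsto.mono_right (congrArg 𝓝 a4).le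
    refine ⟨fun t => br A' π' (f y) (R'.e (f y) (f (R.i y (φ t)))),
      (an_br h'.sec _).comp_of_eq ((hf.an y).comp_of_eq a3 a4) (by rw [a4, tr_zero]), ?_⟩
    filter_upwards [a5, hγ.mem, tφ (R.ev_iff.1 (hf.ev_src y))] with t b c d
    refine ⟨h'.br_mem _ _, R.i y (φ t), (orb_br y _).trans (.of_smul (h.ne_zero _ c) b), ?_⟩
    have := orb_br (A := A') (π := π') (f y) (R'.e (f y) (f (R.i y (φ t))))
    rwa [R'.i_e d] at this

end Mor

end Vale.Agent.P269L.I
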