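import Vale.Agent.P269L.I.Iso0
import Vale.Agent.P269.Pt.Rep
import Vale.Agent.P269.Prop.Eff

/-!
# Isomorphic maps differ by a change of frames
-/

set_option linter.unusedSectionVars false

namespace Vale.Agent.P269L.I

open Set Function Topology Filter Vale.Agent.P269 Vale.Agent.P269.Cv Vale.Agent.P269.Base
  Vale.Agent.P269.Ch

variable {S Λ ρ J K ι ν : Type} [Fintype S] [Fintype Λ] [Fintype ρ] [Fintype J] [Fintype K]
  [Fintype ι] [Fintype ν] [DecidableEq ι] [DecidableEq ρ]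

/-- The weights of the non vanishing coordinates generate the character lattice. -/
def Lt (w : J → ρ → ℤ) (Y : Set (J → ℂ)) : Prop :=
  ∀ y ∈ Y, ∀ r, ∃ n : J → ℤ, (∀ j, y j = 0 → n j = 0) ∧
    (fun i => ∑ j, n j * w j i) = Pi.single r 1

theorem prod_single {α : Type} [Fintype α] [DecidableEq α] (t : α → ℂ) (r : α) :
    ∏ i, t i ^ (Pi.single r 1 : α → ℤ) i = t r := by
  rw [Finset.prod_eq_single r (fun o' _ e => by simp [e]) (by simp), Pi.single_eq_same, zpow_one]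

theorem scal_eq {w : J → ρ → ℤ} {y y' : J → ℂ} {r : ρ} {n : J → ℤ} (h0 : ∀ j, y j = 0 → n j = 0)
    (hn : (fun i => ∑ j, n j * w j i) = Pi.single r 1) {t : ρ → ℂ} (ht : ∀ i, t i ≠ 0)
    (e : ∀ j, y' j = (∏ i, t i ^ w j i) * y j) : t r = ∏ j, (y' j / y j) ^ n j := by
  rw [← prod_single t r, ← hn, ← prod_prod_zpow ht]
  refine Finset.prod_congr rfl fun j _ => ?_
  by_cases a : y j = 0
  · rw [h0 j a, zpow_zero, zpow_zero]
  · rw [e, mul_div_cancel_right₀ _ a]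

theorem lt_of_ample {F : Fam S Λ ρ J K} {θ₀ : ρ → ℤ} {m : ℕ} (h : F.Ample θ₀ m) {l : Λ → ℂ}
    (hl : l ∈ F.B) : Lt F.w (F.fib l).cone := fun y hy r => by
  obtain ⟨α, a, b⟩ := h.2.2 _ (.inr ⟨r, .inl rfl⟩) (l, y) ⟨hl, hy⟩
  obtain ⟨β, c, d⟩ := h.2.2 _ (.inl rfl) (l, y) ⟨hl, hy⟩
  have k : ∀ {γ : J → ℕ} {j}, ∏ j, y j ^ γ j ≠ 0 → y j = 0 → γ j = 0 := fun {γ j} e f =>
    by_contra fun g => e (Finset.prod_eq_zero (Finset.mem_univ j) (by rw [f, zero_pow g]))
  refine ⟨fun j => α j - β j, fun j e => by simp only [k b e, k d e, sub_self], funext fun i => ?_⟩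
  simp only [_root_.sub_mul, Finset.sum_sub_distrib, a, c, Pi.add_apply, add_sub_cancel_left]

variable {ch : Ch ι J} {W : Wt S Λ ρ J} {ℓ : ρ → ι → ℤ} {Y : Set (J → ℂ)}

theorem free_of (hl : ch.Lat W ℓ) (hG : Lt W.w Y) : ch.Free Y := fun y hy t ht e e' => by
  obtain ⟨v, -, -, v5⟩ := hl.dual
  have a : ∀ o : Option ρ, ∏ i, t i ^ o.elim ch.χ ℓ i = 1 := by
    rintro (_ | r)
    · exact e'
    · obtain ⟨n, b, c⟩ := hG y hy r
      refine (scal_eq (t := fun r => ∏ i, t i ^ ℓ r i) (y' := y) b c (fun _ => prod_zpow_ne ht _)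
        fun j => ?_).trans (Finset.prod_eq_one fun j _ => ?_)
      · simp only [prod_prod_zpow ht, ← hl.wd, e]
      · by_cases d : y j = 0
        · rw [b j d, zpow_zero]
        · rw [div_self d, one_zpow]
  funext i
  rw [← prod_single t i, ← v5, ← prod_prod_zpow ht]
  simp [a]

variable {X X' : Type} [TopologicalSpace X] [TopologicalSpace X'] [T2Space X] [CompactSpace X]
  [T2Space X'] [CompactSpace X'] {R : RS X} {R' : RS X'} {N : Finset (X × X)}
  {N' : Finset (X' × X')}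

/-- the torus elements that compare two maps form holomorphic sections -/
theorem scal_mem {w : J → ρ → ℤ} (hG : Lt w Y) {L L' : ρ → LB R} {s s' : J → X → ℂ}
    (hs : ∀ j, s j ∈ H0 N (bz L (w j))) (hs' : ∀ j, s' j ∈ H0 N (bz L' (w j)))
    (hY : ∀ y, (fun j => s j y) ∈ Y) {t : X → ρ → ℂ} (ht : ∀ y r, t y r ≠ 0)
    (e : ∀ y j, s' j y = (∏ r, t y r ^ w j r) * s j y) (r : ρ) :
    (fun y => t y r) ∈ H0 N (L' r / L r) := by
  refine ⟨fun y => ?_, fun m hm => ?_⟩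
  · obtain ⟨n, a, b⟩ := hG _ (hY y) r
    have c : L' r / L r = ∏ j, (bz L' (w j) / bz L (w j)) ^ n j := by
      simp only [← bz_div]
      refine .trans ?_ (bz_bz _ w n).symm
      rw [b, bz_single, zpow_one]
    rw [c]
    refine (LB.Sec.prod (u := fun j => (s' j / s j) ^ n j) fun j _ => ?_).congr ?_
    · by_cases d : s j y = 0
      · rw [a j d, zpow_zero, zpow_zero]
        exact LB.one_mem y
      · exact (((hs' j).1 y).div ((hs j).1 y) d).zpow (div_ne_zero (by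
          rw [e]; exact mul_ne_zero (prod_zpow_ne (ht y) _) d) d) _
    · have : ∀ᶠ z in 𝓝 y, ∀ j, s j z = 0 → n j = 0 := eventually_all.2 fun j => by
        by_cases d : s j y = 0
        · exact .of_forall fun _ _ => a j d
        · exact (((hs j).1 y).ev_ne d).mono fun z hz k => (hz k).elim
      refine this.mono fun z hz => ?_
      rw [Finset.prod_apply]
      exact (scal_eq hz b (ht z) (e z)).symm
  · obtain ⟨n, a, b⟩ := hG _ (hY m.1) r
    refine (scal_eq a b (ht _) (e m.1)).trans (.trans ?_ (scal_eq (y := fun j => s j m.2)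
      (fun j d => a j (((hs j).2 m hm).trans d)) b (ht _) (e m.2)).symm)
    simp only [(hs _).2 m hm, (hs' _).2 m hm]

variable {A : ι → LB R} {A' : ι → LB R'} {x x' : ch.W ν} {π : X → V ch.M} {π' : X' → V ch.M}
  {u : X → ∀ l, ch.E l →L[ℂ] ℂ} {u' : X' → ∀ l, ch.E l →L[ℂ] ℂ} {p : ν → X} {p' : ν → X'}
  {ξ : X → ℂ} {ξ' : X' → ℂ} {s : J → X → ℂ} {s' : J → X' → ℂ}

theorem bz_wd (hl : ch.Lat W ℓ) (A : ι → LB R) (j : J) :
    bz A (ch.wd j) = bz (fun r => bz A (ℓ r)) (W.w j) := by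
  rw [bz_bz]
  exact congrArg _ (funext (hl.wd j))

/-- **an isomorphism of the abstract maps comes from a change of frames** -/
theorem exists_act (hl : ch.Lat W ℓ) (hG : Lt W.w Y) (hc : ∀ l, ch.a l ≠ 0) (ht : ch.Tight)
    (h : Cr N A x π u p ξ) (h' : Cr N' A' x' π' u' p' ξ') (hs : ∀ j, Ind x π u j (s j))
    (hs' : ∀ j, Ind x' π' u' j (s' j)) (hY : ∀ y, (fun j => s j y) ∈ Y) {f : X ≃ X'}
    (hf : LIso R R' f) (e : ∀ x y, Jn N x y ↔ Jn N' (f x) (f y)) (hp : ∀ n, f (p n) = p' n)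
    (hm : ∀ y, ∃ t : ρ → ℂ, (∀ r, t r ≠ 0) ∧ ∀ j, s' j (f y) = (∏ r, t r ^ W.w j r) * s j y) :
    ∃ a, IsUnit a ∧ act a x = x' ∧ ∀ y, Orb (π' (f y)) fun i => a.1 i (π y i) := by
  classical
  choose t t0 ts using hm
  have pb := fun {L' : LB R'} {s : X' → ℂ} (a : s ∈ H0 N' L') =>
    hf.pb_mem0 (fun x y a => .inr ((e x y).1 a)) a
  have tm := scal_mem (N := N) hG (L := fun r => bz A (ℓ r)) (L' := fun r => hf.pb (bz A' (ℓ r)))
    (s' := fun j y => s' j (f y)) (fun j => bz_wd hl A j ▸ h.ind_mem (hs j))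
    (fun j => by rw [← hf.pb_bz, ← bz_wd hl]; exact pb (h'.ind_mem (hs' j))) hY t0 ts
  obtain ⟨v, v1, v2, v5⟩ := hl.dual
  obtain ⟨w, w1, w0, w4, -⟩ := hf.exists_omega f.injective h.par.nd h'.par.nd h.sm_image h'.sm_image
    (fun x y => (e x y).1) fun y => and_congr (sm_equiv e y) (by simp [← hp])
  let g : X → Option ρ → ℂ := fun y o => o.elim (ξ y * w y ^ ch.k / ξ' (f y)) fun r => (t y r)⁻¹
  have g0 : ∀ y o, g y o ≠ 0 := fun y o => o.rec (div_ne_zero (mul_ne_zero (h.ne y)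
    (pow_ne_zero _ (w0 y))) (h'.ne _)) fun r => inv_ne_zero (t0 y r)
  have hg : ∀ o : Option ρ,
      (fun y => g y o) ∈ H0 N (bz (fun i => A i / hf.pb (A' i)) (o.elim ch.χ ℓ)) := by
    rintro (_ | r)
    · have := H0.mul_mem (H0.mul_mem h.xi (H0.pow_mem w1 ch.k))
        (H0.inv_mem (pb h'.xi) fun y => h'.ne _)
      rw [map_mul, map_inv, map_pow, hf.pb_bz, div_pow, mul_comm _⁻¹ (bz A _), mul_assoc (bz A _),
        ← mul_div_assoc, inv_mul_cancel, mul_inv, inv_inv, mul_assoc, ← mul_assoc (1 / _), one_div,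
        inv_mul_cancel, one_mul, ← div_eq_mul_inv, ← bz_div] at this
      exact this
    · have := H0.inv_mem (tm r) (t0 · r)
      rw [inv_div, hf.pb_bz, ← bz_div] at this
      exact this
  have v3 : ∀ o : Option ρ, (fun o' => ∑ i, o.elim ch.χ ℓ i * v o' i) = Pi.single o 1 := fun o =>
    funext fun o' => by
      by_cases e : o' = o
      · rw [e, v1, Pi.single_eq_same]
      · rw [v2 _ _ e, Pi.single_eq_of_ne e]
  let c : X → ι → ℂ := fun y i => ∏ o, g y o ^ v o i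
  have c0 : ∀ y i, c y i ≠ 0 := fun y i => prod_zpow_ne (g0 y) _
  have cp : ∀ y (o : Option ρ), ∏ i, c y i ^ o.elim ch.χ ℓ i = g y o := fun y o => by
    simp only [c, prod_prod_zpow (g0 y), congrFun (v3 o), prod_single]
  have r := h'.comp hf h.par.nd e hp (c := c) (A := A) (fun i => by
    have := bz_mem hg g0 fun o => v o i
    rwa [bz_bz, v5, bz_single, zpow_one] at this) c0 w1 w0 w4
  have e₁ : (fun y => ξ' (f y) * (∏ i, c y i ^ ch.χ i) / w y ^ ch.k) = ξ := funext fun y => by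
    rw [show ∏ i, c y i ^ ch.χ i = ξ y * w y ^ ch.k / ξ' (f y) from cp y none,
      mul_div_cancel₀ _ (h'.ne _), mul_div_cancel_right₀ _ (pow_ne_zero _ (w0 y))]
  rw [e₁] at r
  obtain ⟨a, a0, a1, a2, a3, a4, a5⟩ := h.exists_unit r hc (ht.eq h.mem)
  refine ⟨a, a0, (Ch.W.ext (congrFun a3) (congrFun a4) a5 fun j => r.X_ext (s := s j) (fun y μ => ?_)
    fun y μ => ?_).symm, fun y => ⟨c y, c0 y, funext (a1 y)⟩⟩
  · refine ((hs' j).comp f c0 y μ).trans (congrArg (· * _) ?_)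
    have cl : ∀ r, ∏ i, c y i ^ ℓ r i = (t y r)⁻¹ := fun r => cp y (some r)
    simp only [ts, hl.wd, ← prod_prod_zpow (c0 y), cl, inv_zpow, Finset.prod_inv_distrib]
    exact inv_mul_cancel_left₀ (prod_zpow_ne (t0 y) _) _
  · refine (a2 y _ _).trans ((hs j y _).trans (congrArg _ ((Ch.val_sub a μ _).trans ?_)))
    exact congrArg _ (funext (a1 y))

end Vale.Agent.P269L.I
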