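import Vale.Agent.P269.Base.Main

/-!
# Lifts of a tangent vector to a family of nodal curves
-/

namespace Vale.Agent.P269L.Ker

open Set Function Topology Filter P269 P269.Base P269.Holo

variable {ι : Type} [Fintype ι] {M : ι → ℕ} {o : ι}

/-- `η` is an analytic representative of `ξ` modulo the torus along `γ`. -/
def Rep (ξ : V M → V M) (γ η : ℂ → V M) : Prop :=
  AnalyticAt ℂ η 0 ∧ ∀ᶠ t in 𝓝 0, ∃ α : ι → ℂ, ξ (γ t) = α • γ t + η t

variable {P E B : Type*} [NormedAddCommGroup P] [NormedSpace ℂ P] [NormedAddCommGroup E]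
  [NormedSpace ℂ E] [NormedAddCommGroup B] [NormedSpace ℂ B]

/-- `ξ` is a lift of the tangent vector `w` at `y` to the family of curves `C`. -/
structure Lift (o : ι) (C : P → Set (V M)) (y w : P) (ξ : V M → V M) : Prop where
  hom : ∀ c ∈ C y, ∀ s : ι → ℂ, (∀ i, s i ≠ 0) → ∃ α : ι → ℂ, ξ (s • c) = α • c + s • ξ c
  an : ∀ γ, IsBranch o (C y) γ → ∃ η, Rep ξ γ η
  tg : ∀ c ∈ C y, ∀ F : P × V M → ℂ, AnalyticAt ℂ F (y, c) →
    (∀ᶠ q in 𝓝 (y, c), q.2 ∈ C q.1 → F q = 0) → fderiv ℂ F (y, c) (w, ξ c) = 0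

theorem hd_comp {F : E → B} {p v : E} {q : ℂ → E} (hF : AnalyticAt ℂ F p) (hq : HasDerivAt q v 0)
    (h0 : q 0 = p) : HasDerivAt (fun ε => F (q ε)) (fderiv ℂ F p v) 0 :=
  (h0 ▸ hF.differentiableAt.hasFDerivAt : HasFDerivAt F (fderiv ℂ F p) (q 0)).comp_hasDerivAt 0 hq

theorem hd_fst {q : ℂ → E × B} {v : E × B} {x : ℂ} (hq : HasDerivAt q v x) :
    HasDerivAt (fun ε => (q ε).1) v.1 x :=
  (ContinuousLinearMap.fst ℂ E B).hasFDerivAt.comp_hasDerivAt x hq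

theorem hd_snd {q : ℂ → E × B} {v : E × B} {x : ℂ} (hq : HasDerivAt q v x) :
    HasDerivAt (fun ε => (q ε).2) v.2 x :=
  (ContinuousLinearMap.snd ℂ E B).hasFDerivAt.comp_hasDerivAt x hq

theorem hd_line (p v : E) : HasDerivAt (fun ε : ℂ => p + ε • v) v 0 := by
  simpa using ((hasDerivAt_id (0 : ℂ)).smul_const v).const_add p

theorem exists_lam {γ δ : ℂ → V M} (hγ : AnalyticAt ℂ γ 0) (hne : ∀ i, γ 0 i ≠ 0)
    (hδ : AnalyticAt ℂ δ 0) : ∃ l : ℂ → ι → ℂ, AnalyticAt ℂ l 0 ∧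
      ∀ᶠ t in 𝓝 0, ∀ α : ι → ℂ, δ t = α • γ t → l t = α := by
  obtain ⟨ζ, hζ⟩ := exists_lin_one hne
  have a1 : ∀ i, AnalyticAt ℂ (fun t => ζ i (γ t i)) 0 := fun i =>
    ((ζ i).analyticAt _).comp (analyticAt_pi_iff.1 hγ i)
  refine ⟨fun t i => ζ i (δ t i) / ζ i (γ t i), analyticAt_pi_iff.2 fun i =>
    (((ζ i).analyticAt _).comp (analyticAt_pi_iff.1 hδ i)).div (a1 i) (by simp [hζ]), ?_⟩
  filter_upwards [eventually_all.2 fun i => (a1 i).continuousAt.eventually_ne (y := 0)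
    (by simp [hζ])] with t ht α e
  funext i
  rw [e, Pi.smul_apply', map_smul, smul_eq_mul, mul_div_cancel_right₀ _ (ht i)]

variable {C : P → Set (V M)} {y w : P} {ξ : V M → V M}

theorem Lift.tg' (h : Lift o C y w ξ) {c : V M} (hc : c ∈ C y) {F : P × V M → B}
    (hF : AnalyticAt ℂ F (y, c)) (h0 : ∀ᶠ q in 𝓝 (y, c), q.2 ∈ C q.1 → F q = 0) :
    fderiv ℂ F (y, c) (w, ξ c) = 0 := by
  refine SeparatingDual.eq_zero_of_forall_dual_eq_zero (R := ℂ) fun l => ?_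
  have := h.tg c hc (l ∘ F) ((l.analyticAt _).comp hF)
    (h0.mono fun q hq e => by rw [comp_apply, hq e, map_zero])
  rwa [(l.hasFDerivAt.comp _ hF.differentiableAt.hasFDerivAt :).fderiv] at this

variable [FiniteDimensional ℂ P] [FiniteDimensional ℂ E]

theorem Lift.chart (hL : Lift o C y w ξ) (hf : LocFam o C id y) {σ : P × E → V M}
    {X : P → Set E} (h : Chart o C id y σ X) {φ : ℂ → E} (hφ : AnalyticAt ℂ φ 0) (h0 : φ 0 = 0)
    (hb : IsBranch o (C y) fun t => σ (y, φ t)) {G : P × E → ℂ} (hG : AnalyticAt ℂ G (y, 0))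
    (hX : ∀ q, q.2 ∈ X q.1 → G q = 0) :
    ∃ e : ℂ → E, AnalyticAt ℂ e 0 ∧ ∀ᶠ t in 𝓝 0, (∃ α : ι → ℂ, ξ (σ (y, φ t)) =
      α • σ (y, φ t) + fderiv ℂ σ (y, φ t) (w, e t)) ∧ fderiv ℂ G (y, φ t) (w, e t) = 0 := by
  have hc : σ (y, 0) ∈ C y := by simpa [h0] using hb.mem.self_of_nhds
  obtain ⟨ρ, h1, -, h3, h4⟩ := h.exists_mem_iff continuousAt_id
    (hf.ne_zero.self_of_nhds _ hc) hf.cone
  obtain ⟨η, η1, η2⟩ := hL.an _ hb
  simp only [id] at h1 h3 h4
  have a1 : AnalyticAt ℂ (fun t => (y, σ (y, φ t))) 0 := analyticAt_const.prod hb.holo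
  have t1 : Tendsto (fun t => (y, σ (y, φ t))) (𝓝 0) (𝓝 (y, σ (y, 0))) := by
    simpa [h0] using a1.continuousAt.tendsto
  have t2 : Tendsto (fun t => (y, φ t)) (𝓝 0) (𝓝 (y, 0)) := by
    simpa [h0] using (analyticAt_const.prod hφ).continuousAt.tendsto
  have t3 : Tendsto (fun t => (y, (1 : ι → ℂ), φ t)) (𝓝 0) (𝓝 (y, 1, 0)) := by
    simpa [h0] using (analyticAt_const.prod (analyticAt_const.prod hφ)).continuousAt.tendsto
  refine ⟨fun t => (fderiv ℂ ρ (y, σ (y, φ t)) (w, η t)).2, analyticAt_snd.comp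
    (an_apply (h1.fderiv.comp_of_eq a1 (by simp [h0])) (analyticAt_const.prod η1)), ?_⟩
  filter_upwards [t1.eventually h1.eventually_analyticAt, t1.eventually h4.eventually_nhds,
    t3.eventually h3.eventually_nhds, t2.eventually h.an.eventually_analyticAt, hb.mem,
    t2.eventually hG.eventually_analyticAt, η2] with t k1 k2 k3 k4 k5 k6 ⟨α, k7⟩
  have e0 : ρ (y, σ (y, φ t)) = (1, φ t) := by simpa using k3.self_of_nhds
  have e1 : fderiv ℂ ρ (y, σ (y, φ t)) (0, α • σ (y, φ t)) = (α, 0) := by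
    have d1 := hd_line (1 : ι → ℂ) α
    have d2 := hd_comp k1 ((hasDerivAt_const (0 : ℂ) y).prodMk
      (hasDerivAt_smul d1 (hasDerivAt_const _ (σ (y, φ t))))) (by simp)
    have d3 := ((hasDerivAt_const (0 : ℂ) y).prodMk
      (d1.prodMk (hasDerivAt_const _ (φ t)))).continuousAt.tendsto
    simp only [zero_smul, add_zero, smul_zero] at d2 d3
    exact d2.unique ((d1.prodMk (hasDerivAt_const _ (φ t))).congr_of_eventuallyEq
      (d3.eventually k3))
  have e2 : (fderiv ℂ ρ (y, σ (y, φ t)) (w, ξ (σ (y, φ t)))).2 =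
      (fderiv ℂ ρ (y, σ (y, φ t)) (w, η t)).2 := by
    rw [k7, show (w, α • σ (y, φ t) + η t) = (0, α • σ (y, φ t)) + (w, η t) by simp, map_add, e1]
    simp
  have d0 := hd_line (y, σ (y, φ t)) (w, ξ (σ (y, φ t)))
  have d1 := hd_comp k1 d0 (by simp)
  have d2 := (hd_fst d0).prodMk (hd_snd d1)
  rw [e2] at d2
  have a2 : AnalyticAt ℂ (fun q : P × V M => (q.1, (ρ q).2)) (y, σ (y, φ t)) :=
    analyticAt_fst.prod (analyticAt_snd.comp k1)
  constructor
  · have a3 : AnalyticAt ℂ (fun q : P × V M => (ρ q).1 • σ (q.1, (ρ q).2) - q.2)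
        (y, σ (y, φ t)) := (an_smul (analyticAt_fst.comp k1)
          (k4.comp_of_eq a2 (by rw [e0]))).sub analyticAt_snd
    have d3 := hd_comp a3 d0 (by simp)
    rw [hL.tg' k5 a3 (k2.mono fun q hq e => sub_eq_zero.2 (hq.1 e).2.symm)] at d3
    have d4 := d3.unique ((hasDerivAt_smul (hd_fst d1) (hd_comp k4 d2 (by simp [e0]))).sub (hd_snd d0))
    simp only [zero_smul, add_zero, e0, one_smul] at d4
    exact ⟨_, (sub_eq_zero.1 d4.symm).symm⟩
  · have a3 := k6.comp_of_eq a2 (by rw [e0])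
    have d3 := hd_comp a3 d0 (by simp)
    rw [hL.tg _ k5 _ a3 (k2.mono fun q hq e => hX _ (hq.1 e).1)] at d3
    exact (hd_comp k6 d2 (by simp [e0])).unique d3

omit [FiniteDimensional ℂ P] in
theorem exists_arc {τ : P → ℂ} (hτ : AnalyticAt ℂ τ y) (h0 : τ y = 0) (h1 : fderiv ℂ τ y ≠ 0)
    (h2 : fderiv ℂ τ y w = 0) : ∃ a : ℂ → P, AnalyticAt ℂ a 0 ∧ a 0 = y ∧ HasDerivAt a w 0 ∧
      ∀ᶠ ε in 𝓝 0, τ (a ε) = 0 := by
  obtain ⟨e, he⟩ : ∃ e, fderiv ℂ τ y e ≠ 0 :=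
    by_contra fun h => h1 (ContinuousLinearMap.ext fun e => not_not.1 (not_exists.1 h e))
  have a1 : AnalyticAt ℂ (fun p : ℂ × ℂ => τ (y + p.2 • w + p.1 • e)) (0, 0) :=
    hτ.comp_of_eq ((analyticAt_const.add (analyticAt_snd.smul analyticAt_const)).add
      (analyticAt_fst.smul analyticAt_const)) (by simp)
  obtain ⟨k, k1, k0, k2⟩ := implicit a1 (bijective_of_injective _ ((injective_iff_map_eq_zero _).2
    fun s hs => by
      rw [fderiv_eq_smul, (hd_comp hτ (hd_line (y + (0 : ℂ) • w) e) (by simp)).deriv] at hs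
      exact (smul_eq_zero.1 hs).resolve_right he) rfl)
  have d1 := (hd_line y w).add (k1.differentiableAt.hasDerivAt.smul_const e)
  have e1 : ∀ᶠ ε in 𝓝 (0 : ℂ), τ (y + ε • w + k ε • e) = 0 := by
    have : Tendsto (fun ε => (k ε, ε)) (𝓝 0) (𝓝 (0, 0)) := by
      simpa [k0] using (k1.prod analyticAt_id).continuousAt.tendsto
    exact (this.eventually k2).mono fun ε h => by simpa [h0] using h.2 rfl
  have e2 := (hd_comp hτ d1 (by simp [k0])).unique
    ((hasDerivAt_const (0 : ℂ) (0 : ℂ)).congr_of_eventuallyEq e1)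
  rw [map_add, h2, zero_add, map_smul, smul_eq_zero, or_iff_left he] at e2
  rw [e2, zero_smul, add_zero] at d1
  exact ⟨fun ε => y + ε • w + k ε • e, (analyticAt_const.add (analyticAt_id.smul
    analyticAt_const)).add (k1.smul analyticAt_const), by simp [k0], d1, e1⟩

/-- A family of discs over an arc with tangent `w` whose variation represents `ξ`. -/
structure Fam (o : ι) (C : P → Set (V M)) (y w : P) (ξ : V M → V M) (a : ℂ → P)
    (Γ : ℂ × ℂ → V M) : Prop where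
  aa : AnalyticAt ℂ a 0
  a0 : a 0 = y
  da : HasDerivAt a w 0
  an : AnalyticAt ℂ Γ (0, 0)
  mem : ∀ᶠ q in 𝓝 (0, 0), Γ q ∈ C (a q.1)
  br : IsBranch o (C y) fun t => Γ (0, t)
  rep : ∀ᶠ t in 𝓝 0, ∃ α : ι → ℂ, ξ (Γ (0, t)) = α • Γ (0, t) + fderiv ℂ Γ (0, t) (1, 0)

omit [FiniteDimensional ℂ P] [FiniteDimensional ℂ E] in
theorem fam_of {σ : P × E → V M} {X : P → Set E} (h : Chart o C id y σ X) (i : ℂ →L[ℂ] E)
    {a : ℂ → P} (aa : AnalyticAt ℂ a 0) (a0 : a 0 = y) (da : HasDerivAt a w 0)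
    (hX : ∀ᶠ ε in 𝓝 0, ∀ s, i s ∈ X (a ε)) (hb : IsBranch o (C y) fun t => σ (y, i t))
    {e : ℂ → ℂ} (he : AnalyticAt ℂ e 0) (hξ : ∀ᶠ t in 𝓝 0, ∃ α : ι → ℂ, ξ (σ (y, i t)) =
      α • σ (y, i t) + fderiv ℂ σ (y, i t) (w, i (e t))) :
    Fam o C y w ξ a fun q => σ (a q.1, i (q.2 + q.1 • e q.2)) := by
  have a1 : AnalyticAt ℂ (fun q : ℂ × ℂ => (a q.1, i (q.2 + q.1 • e q.2))) (0, 0) :=
    (aa.comp_of_eq analyticAt_fst rfl).prod ((i.analyticAt _).comp
      (analyticAt_snd.add (analyticAt_fst.smul (he.comp_of_eq analyticAt_snd rfl))))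
  have a2 := AnalyticAt.comp_of_eq h.an a1 (by simp [a0])
  have t1 : Tendsto (fun q : ℂ × ℂ => (a q.1, i (q.2 + q.1 • e q.2))) (𝓝 (0, 0)) (𝓝 (y, 0)) := by
    simpa [a0] using a1.continuousAt.tendsto
  refine ⟨aa, a0, da, a2, ?_, by simpa [a0] using hb, ?_⟩
  · filter_upwards [t1.eventually h.mem, continuousAt_fst.eventually hX] with q k1 k2
    exact k1 (k2 _)
  · have t2 : Tendsto (fun t => (y, i t)) (𝓝 0) (𝓝 (y, 0)) := by
      simpa using (analyticAt_const.prod (i.analyticAt 0)).continuousAt.tendsto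
    filter_upwards [hξ, (tendsto_inr 0 0).eventually a2.eventually_analyticAt,
      t2.eventually h.an.eventually_analyticAt] with t ⟨α, k1⟩ k2 k3
    have d1 := hd_comp k2 ((hasDerivAt_id (0 : ℂ)).prodMk (hasDerivAt_const _ t)) rfl
    have d2 := hd_comp k3 (da.prodMk (i.hasFDerivAt.comp_hasDerivAt _ (hd_line t (e t))))
      (by simp [a0])
    refine ⟨α, ?_⟩
    simp only [zero_smul, add_zero, a0]
    rw [k1]
    exact congrArg _ (d2.unique d1)

theorem Lift.sm [DecidableEq ι] (hL : Lift o C y w ξ) (hf : LocFam o C id y) {z : P → V M} (hz : AnalyticAt ℂ z y)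
    (hm : ∀ᶠ p in 𝓝 y, z p ∈ C p) (hn : ¬IsNode o (C y) (z y)) :
    ∃ a Γ, Fam o C y w ξ a Γ ∧ Γ (0, 0) = z y ∧
      ((∃ α : ι → ℂ, ξ (z y) = α • z y + fderiv ℂ z y w) → ∀ᶠ ε in 𝓝 0, Γ (ε, 0) = z (a ε)) := by
  obtain ⟨σ, h, h1⟩ := hf.chart_at (z := z) hz hm hn
  have h0 : σ (y, 0) = z y := h1.self_of_nhds
  have hb := h.isBranch0 (h0 ▸ hf.ne_zero.self_of_nhds _ hm.self_of_nhds o)
  obtain ⟨e, e1, e2⟩ := hL.chart hf h (φ := fun t => t) analyticAt_id rfl hb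
    (G := fun _ => 0) analyticAt_const fun _ _ => rfl
  have aa : AnalyticAt ℂ (fun ε : ℂ => y + ε • w) 0 :=
    analyticAt_const.add (analyticAt_id.smul analyticAt_const)
  refine ⟨_, _, fam_of h (.id ℂ ℂ) aa (by simp) (hd_line y w) (.of_forall fun _ _ => trivial) hb e1
    (e2.mono fun t ht => ht.1), by simpa using h0, fun ⟨α, h2⟩ => ?_⟩
  obtain ⟨α', h3⟩ := e2.self_of_nhds.1
  have h4 : e 0 = 0 := h.imm _ ((α - α') o) (by
    rw [h0, h2, ← EventuallyEq.fderiv_eq (f₁ := fun p => σ (p, 0)) (f := z) h1,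
      fderiv_prod_apply (x := y) h.an] at h3
    have := congrFun h3 o
    simp only [id, Pi.add_apply, Pi.smul_apply', Pi.sub_apply, h0] at this ⊢
    linear_combination (norm := module) -this)
  have : Tendsto (fun ε : ℂ => y + ε • w) (𝓝 0) (𝓝 y) := by simpa using aa.continuousAt.tendsto
  exact (this.eventually h1).mono fun ε hε => by simpa [h4] using hε

theorem Lift.sm' [DecidableEq ι] (hL : Lift o C y w ξ) (hf : LocFam o C id y) {c : V M} (hc : c ∈ C y)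
    (hn : ¬IsNode o (C y) c) : ∃ a Γ, Fam o C y w ξ a Γ ∧ Γ (0, 0) = c := by
  obtain ⟨σ, rfl, h⟩ := hf.smAt hc hn
  obtain ⟨a, Γ, h1, h2, -⟩ := hL.sm hf (z := fun p => σ (p, 0))
    (h.an.comp_of_eq (analyticAt_id.prod analyticAt_const) rfl)
    (((tendsto_inl y 0).eventually h.mem).mono fun p hp => hp trivial) hn
  exact ⟨a, Γ, h1, h2⟩

theorem Lift.nd (hL : Lift o C y w ξ) (hf : LocFam o C id y) {c : V M} {τ : P → ℂ}
    (hN : NdAt o C id y c τ) (hτ : fderiv ℂ τ y ≠ 0) :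
    ∃ (a : ℂ → P) (Γ : Bool → ℂ × ℂ → V M), (∀ j, Fam o C y w ξ a (Γ j)) ∧
      Loc o (C y) c (fun j t => Γ j (0, t)) ∧ ∀ ε, Γ true (ε, 0) = Γ false (ε, 0) := by
  have hne := hf.ne_zero.self_of_nhds _ hN.mem
  obtain ⟨σ, rfl, h1, h0, h⟩ := hN
  obtain ⟨b1, b2, -, -, b3⟩ := h.isCross h0 (hne o)
  have dG : ∀ z e : ℂ × ℂ, AnalyticAt ℂ (fun q : P × ℂ × ℂ => q.2.1 * q.2.2 - τ q.1) (y, z) ∧
      fderiv ℂ (fun q : P × ℂ × ℂ => q.2.1 * q.2.2 - τ q.1) (y, z) (w, e) =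
        e.1 * z.2 + z.1 * e.2 - fderiv ℂ τ y w := fun z e => by
    have a1 : AnalyticAt ℂ (fun q : P × ℂ × ℂ => q.2.1 * q.2.2 - τ q.1) (y, z) :=
      ((analyticAt_fst.comp analyticAt_snd).mul (analyticAt_snd.comp analyticAt_snd)).sub
        (h1.comp_of_eq analyticAt_fst rfl)
    have d0 := hd_line (y, z) (w, e)
    have := (hd_comp a1 d0 (by simp)).unique (((hd_fst (hd_snd d0)).mul (hd_snd (hd_snd d0))).sub
      (hd_comp h1 (hd_fst d0) (by simp)))
    exact ⟨a1, by simpa using this⟩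
  obtain ⟨e, e1, e2⟩ := hL.chart hf h (φ := fun t => (t, 0)) (analyticAt_id.prod analyticAt_const)
    rfl b1 (dG 0 0).1 fun _ hq => sub_eq_zero.2 hq
  obtain ⟨f, f1, f2⟩ := hL.chart hf h (φ := fun t => (0, t)) (analyticAt_const.prod analyticAt_id)
    rfl b2 (dG 0 0).1 fun _ hq => sub_eq_zero.2 hq
  simp only [fun z e => (dG z e).2] at e2 f2
  have h2 : fderiv ℂ τ y w = 0 := by simpa using e2.self_of_nhds.2
  have e3 : ∀ᶠ t in 𝓝 0, (e t).2 = 0 :=
    ((analyticAt_snd.comp e1).frequently_eq_iff_eventually_eq analyticAt_const).1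
      (Eventually.frequently (by
        filter_upwards [mem_nhdsWithin_of_mem_nhds e2, self_mem_nhdsWithin] with t k1 k2
        simpa [h2, show t ≠ 0 from k2] using k1.2))
  have f3 : ∀ᶠ t in 𝓝 0, (f t).1 = 0 :=
    ((analyticAt_fst.comp f1).frequently_eq_iff_eventually_eq analyticAt_const).1
      (Eventually.frequently (by
        filter_upwards [mem_nhdsWithin_of_mem_nhds f2, self_mem_nhdsWithin] with t k1 k2
        simpa [h2, show t ≠ 0 from k2] using k1.2))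
  have h3 : e 0 = f 0 := by
    obtain ⟨α, k1⟩ := e2.self_of_nhds.1
    obtain ⟨β, k2⟩ := f2.self_of_nhds.1
    refine sub_eq_zero.1 (h.imm _ ((β - α) o) ?_)
    rw [Prod.mk_zero_zero] at k1 k2
    rw [k1, fderiv_prod_apply (x := y) h.an, fderiv_prod_apply (x := y) h.an] at k2
    have := congrFun k2 o
    simp only [id, Pi.add_apply, Pi.smul_apply', Pi.sub_apply, map_sub] at this ⊢
    linear_combination (norm := module) this
  obtain ⟨a, aa, a0, da, a1⟩ := exists_arc h1 h0 hτ h2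
  have F1 := fam_of h (.inl ℂ ℂ ℂ) aa a0 da (a1.mono fun ε hε s => by simp [hε]) b1
    (analyticAt_fst.comp e1) (ξ := ξ) (by
      filter_upwards [e2, e3] with t k1 k2
      simpa [← k2] using k1.1)
  have F2 := fam_of h (.inr ℂ ℂ ℂ) aa a0 da (a1.mono fun ε hε s => by simp [hε]) b2
    (analyticAt_snd.comp f1) (ξ := ξ) (by
      filter_upwards [f2, f3] with t k1 k2
      simpa [← k2] using k1.1)
  refine ⟨a, fun j q => bif j then σ (a q.1, (q.2 + q.1 • (e q.2).1, 0)) else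
    σ (a q.1, (0, q.2 + q.1 • (f q.2).2)), fun j => by cases j; exacts [F2, F1], ⟨fun j => by
    cases j; exacts [F2.br, F1.br], fun j => by cases j <;> simp [a0, Prod.mk_zero_zero], hne, .inr (by
      simpa [a0] using b3), fun p hp => ?_⟩, fun ε => ?_⟩
  · have t1 : Tendsto (fun q : (ι → ℂ) × ℂ × ℂ => (q.1, q.2.1)) (𝓝 (1, 0)) (𝓝 (1, 0)) :=
      Continuous.tendsto' (by fun_prop) _ _ rfl
    have t2 : Tendsto (fun q : (ι → ℂ) × ℂ × ℂ => (q.1, q.2.2)) (𝓝 (1, 0)) (𝓝 (1, 0)) :=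
      Continuous.tendsto' (by fun_prop) _ _ rfl
    filter_upwards [mem_nhdsWithin_of_mem_nhds ((tendsto_inr y _).eventually (h.sub' continuousAt_id
      hne _ ((t1.eventually (hp true)).and (t2.eventually (hp false))))), self_mem_nhdsWithin]
      with c k1 k2
    obtain ⟨⟨s, u, v⟩, ⟨k3, k4⟩, k5, k6⟩ := k1 k2
    rcases mul_eq_zero.1 (Eq.trans k5 h0) with k7 | k7
    · obtain rfl : u = 0 := k7
      simpa [a0, show c = _ from k6] using k4
    · obtain rfl : v = 0 := k7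
      simpa [a0, show c = _ from k6] using k3
  · have k1 : (e 0).1 = 0 := h3 ▸ f3.self_of_nhds
    have k2 : (f 0).2 = 0 := h3 ▸ e3.self_of_nhds
    simp [k1, k2]

end Vale.Agent.P269L.Ker
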