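import Vale.Agent.P269L.I.Ker0

/-!
# Normalisation of a lift by two characters
-/

namespace Vale.Agent.P269L.Ker

open Set Function Topology Filter P269 P269.Base P269.Holo

variable {ι : Type} [Fintype ι] {M : ι → ℕ} {o : ι}
  {P : Type*} [NormedAddCommGroup P] [NormedSpace ℂ P]

theorem hd_chr (a : ι → ℕ) (l : ι → ℂ) :
    HasDerivAt (fun ε : ℂ => chr a (1 + ε • l)) (∑ i, a i * l i) 0 := by
  classical
  have := HasDerivAt.fun_finsetProd (u := Finset.univ) (x := (0 : ℂ))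
    fun i _ => (((hasDerivAt_id (0 : ℂ)).mul_const (l i)).const_add 1).fun_pow (a i)
  simpa [chr] using this

theorem chr_single [DecidableEq ι] (i : ι) (s : ι → ℂ) : chr (Pi.single i 1) s = s i := by
  rw [chr, Finset.prod_eq_single i (fun j _ hj => by simp [hj]) (by simp)]
  simp

theorem exists_lin [DecidableEq ι] {i : ι} (μ : Tens M (Pi.single i 1)) :
    ∃ l : (Fin (M i) → ℂ) →L[ℂ] ℂ, ∀ c, val μ c = l (c i) := by
  refine ⟨fderiv ℂ (val μ) 0 ∘L .single ℂ (fun i => Fin (M i) → ℂ) i, fun c => ?_⟩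
  have d1 := hd_comp (analyticAt_val μ 0) (hd_line 0 (Pi.single i (c i))) (by simp)
  refine (((hasDerivAt_id (0 : ℂ)).mul_const (val μ c)).congr_deriv (one_mul _)).unique
    (d1.congr_of_eventuallyEq (.of_forall fun ε => ?_))
  have : 0 + ε • (Pi.single i (c i) : V M) = (Pi.single i ε : ι → ℂ) • c := funext fun j => by
    by_cases h : j = i
    · subst h; simp
    · simp [h]
  have e : chr (Pi.single i 1) (Pi.single i ε : ι → ℂ) = ε := by simp [chr_single]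
  simp only [this, val_smul, e, id]

variable (M) in
/-- Two families of homogeneous functions whose weights differ by the character `χ`. -/
structure Sys (y : P) (J : Type) (T : J → Type) where
  /-- functions on the total space -/
  g : ∀ j, T j → P × V M → ℂ
  /-- functions of a point and a tangent vector -/
  W : ∀ j, T j → V M × V M → ℂ
  /-- weights of `g` -/
  a : J → ι → ℕ
  /-- weights of `W` -/
  b : J → ι → ℕ
  /-- degree of `W` in the tangent vector -/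
  k : ℕ
  /-- the character -/
  χ : ι → ℂ
  ag : ∀ j μ c, AnalyticAt ℂ (g j μ) (y, c)
  hg : ∀ j μ p (s : ι → ℂ) c, g j μ (p, s • c) = chr (a j) s * g j μ (p, c)
  aW : ∀ j μ q, AnalyticAt ℂ (W j μ) q
  hW : ∀ j μ (s σ : ι → ℂ) (ψ : ℂ) c u,
    W j μ (s • c, s • (ψ • u + σ • c)) = chr (b j) s * ψ ^ k * W j μ (c, u)
  hχ : ∀ j i, χ i = a j i - b j i

namespace Sys

variable {y : P} {J : Type} {T : J → Type} (S : Sys M y J T) (w : P)

/-- The ratio `g / W` has logarithmic derivative `l` along the jet `(η, η')`. -/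
def D (c u η η' : V M) (l : ℂ) : Prop :=
  (∃ j μ, S.g j μ (y, c) ≠ 0) ∧ ∃ f : J → ℂ, ∀ j μ, S.g j μ (y, c) = f j * S.W j μ (c, u) ∧
    fderiv ℂ (S.g j μ) (y, c) (w, η) =
      f j * fderiv ℂ (S.W j μ) (c, u) (η, η') + l * S.g j μ (y, c)

variable {S w} {c u η η' : V M} {l l' : ℂ}

theorem D.unique (h : S.D w c u η η' l) (h' : S.D w c u η η' l') : l = l' := by
  obtain ⟨⟨j, μ, h0⟩, f, h1⟩ := h
  obtain ⟨-, f', h2⟩ := h'
  have e : f j = f' j := mul_right_cancel₀ (right_ne_zero_of_mul ((h1 j μ).1 ▸ h0))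
    ((h1 j μ).1.symm.trans (h2 j μ).1)
  refine mul_right_cancel₀ h0 ?_
  linear_combination (h2 j μ).2 - (h1 j μ).2 - fderiv ℂ (S.W j μ) (c, u) (η, η') * e

theorem D.trans (h : S.D w c u η η' l) {s : ι → ℂ} (hs : ∀ i, s i ≠ 0) {ψ : ℂ} (hψ : ψ ≠ 0)
    (σ lam lam' : ι → ℂ) {c₁ u₁ η₁ η₁' : V M} (e1 : c₁ = s • c) (e2 : u₁ = s • (ψ • u + σ • c))
    (e3 : η₁ = s • (η + lam • c))
    (e4 : η₁' = s • (σ • η + ψ • η' + lam' • c + lam • (ψ • u + σ • c))) :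
    S.D w c₁ u₁ η₁ η₁' (l + ∑ i, S.χ i * lam i) := by
  obtain ⟨⟨j₀, μ₀, h0⟩, f, h1⟩ := h
  subst e1 e2 e3 e4
  refine ⟨⟨j₀, μ₀, by rw [S.hg]; exact mul_ne_zero (chr_ne_zero hs) h0⟩,
    fun j => chr (S.a j) s * f j / (chr (S.b j) s * ψ ^ S.k), fun j μ => ?_⟩
  have n1 : chr (S.b j) s ≠ 0 := chr_ne_zero hs
  have d0 := hasDerivAt_smul (hasDerivAt_const (0 : ℂ) s)
    (hasDerivAt_smul (hd_line 1 lam) (hd_line c η))
  have d1 := hasDerivAt_smul (hasDerivAt_const (0 : ℂ) s) (hasDerivAt_smul (hd_line 1 lam)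
    (((hd_line u η').const_smul ψ).add (hasDerivAt_smul (hd_line σ lam') (hd_line c η))))
  simp only [zero_smul, add_zero, zero_add, one_smul, Pi.add_apply, Pi.smul_apply] at d0 d1
  have d2 := (hd_comp (S.ag j μ (s • c)) ((hd_line y w).prodMk d0) (by simp)).unique
    ((((hd_chr (S.a j) lam).mul (hd_comp (S.ag j μ c) ((hd_line y w).prodMk (hd_line c η))
      (by simp))).const_mul (chr (S.a j) s)).congr_of_eventuallyEq (.of_forall fun ε => by
        simp only [S.hg, Pi.mul_apply]))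
  have d3 := (hd_comp (S.aW j μ (s • c, s • (ψ • u + σ • c))) (d0.prodMk d1) (by simp)).unique
    ((((hd_chr (S.b j) lam).mul (hd_comp (S.aW j μ (c, u)) ((hd_line c η).prodMk (hd_line u η'))
      (by simp))).const_mul (chr (S.b j) s * ψ ^ S.k)).congr_of_eventuallyEq (.of_forall fun ε => by
        simp only [Pi.mul_apply, smul_smul s, S.hW, chr_mul]
        ring))
  simp only [zero_smul, add_zero, chr_one, one_mul] at d2 d3
  have e5 : ∑ i, S.χ i * lam i = ∑ i, S.a j i * lam i - ∑ i, S.b j i * lam i := by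
    simp only [S.hχ j, sub_mul, Finset.sum_sub_distrib]
  refine ⟨by rw [S.hg, S.hW, (h1 j μ).1]; field_simp, ?_⟩
  rw [add_comm η, d2, show σ • η + ψ • η' + lam' • c + lam • (ψ • u + σ • c) =
    lam • (ψ • u + σ • c) + (ψ • η' + (lam' • c + σ • η)) by abel, d3, S.hg, (h1 j μ).2,
    (h1 j μ).1, e5]
  field_simp
  ring

end Sys

section Glue

variable {y w : P} {J J' : Type} {T : J → Type} {T' : J' → Type} (S : Sys M y J T)
  (S' : Sys M y J' T') {C : Set (V M)} {ξ : V M → V M}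

variable (o C w ξ) in
/-- `v` is the value at the smooth point `c` of the normalised lift. -/
def Nm (c v : V M) : Prop :=
  ∃ γ η, IsBranch o C γ ∧ γ 0 = c ∧ ¬IsNode o C c ∧ Rep ξ γ η ∧ η 0 = v ∧
    S.D w c (deriv γ 0) v (deriv η 0) 0 ∧ S'.D w c (deriv γ 0) v (deriv η 0) 0

variable {S S'} {c v v' : V M}

theorem Rep.smul {γ η : ℂ → V M} (h : Rep ξ γ η) (hm : ∀ᶠ t in 𝓝 0, γ t ∈ C)
    (hom : ∀ c ∈ C, ∀ s : ι → ℂ, (∀ i, s i ≠ 0) → ∃ α : ι → ℂ, ξ (s • c) = α • c + s • ξ c) :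
    ∀ᶠ t in 𝓝 0, ∀ s : ι → ℂ, (∀ i, s i ≠ 0) →
      ∃ α : ι → ℂ, ξ (s • γ t) = α • s • γ t + s • η t := by
  filter_upwards [h.2, hm] with t ⟨α, k1⟩ k2 s hs
  obtain ⟨β, k3⟩ := hom _ k2 s hs
  refine ⟨β * s⁻¹ + α, ?_⟩
  rw [k3, k1, add_smul, mul_smul, inv_smul_smul' hs, smul_add, smul_comm s α, add_assoc]

theorem Nm.smul (h : Nm o w S S' C ξ c v) (hC : Nod o C)
    (hom : ∀ c ∈ C, ∀ s : ι → ℂ, (∀ i, s i ≠ 0) → ∃ α : ι → ℂ, ξ (s • c) = α • c + s • ξ c)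
    {s : ι → ℂ} (hs : ∀ i, s i ≠ 0) : Nm o w S S' C ξ (s • c) (s • v) := by
  obtain ⟨γ, η, h1, rfl, h2, h3, rfl, h4, h5⟩ := h
  have d1 := (hasDerivAt_smul (hasDerivAt_const _ s) h1.holo.differentiableAt.hasDerivAt).deriv
  have d2 := (hasDerivAt_smul (hasDerivAt_const _ s) h3.1.differentiableAt.hasDerivAt).deriv
  refine ⟨fun t => s • γ t, fun t => s • η t, h1.smul hC hs, rfl,
    fun e => h2 (hC.isNode_orb e (Orb.smul _ hs).symm), ⟨an_smul analyticAt_const h3.1,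
      (h3.smul h1.mem hom).mono fun t ht => ht s hs⟩, rfl, ?_, ?_⟩
  · simpa using h4.trans hs one_ne_zero 0 0 0 rfl (d1.trans (by simp)) (η₁ := s • η 0) (by simp)
      (d2.trans (by simp))
  · simpa using h5.trans hs one_ne_zero 0 0 0 rfl (d1.trans (by simp)) (η₁ := s • η 0) (by simp)
      (d2.trans (by simp))

theorem Nm.unique (h : Nm o w S S' C ξ c v) (h' : Nm o w S S' C ξ c v') (hC : Nod o C)
    (hom : ∀ c ∈ C, ∀ s : ι → ℂ, (∀ i, s i ≠ 0) → ∃ α : ι → ℂ, ξ (s • c) = α • c + s • ξ c)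
    (hi : ∀ l : ι → ℂ, ∑ i, S.χ i * l i = 0 → ∑ i, S'.χ i * l i = 0 → l = 0) : v = v' := by
  obtain ⟨γ, η, h1, rfl, h2, h3, rfl, h4, h5⟩ := h
  obtain ⟨δ, θ, k1, k0, -, k3, rfl, k4, k5⟩ := h'
  obtain ⟨-, s, ψ, a1, a2, s0, ψ0, ψ1, e1, e2⟩ := (hC.loc_of_branch h1 h2).reparam k1 k0
  have a3 : AnalyticAt ℂ (fun t => η (ψ t)) 0 := h3.1.comp_of_eq a2 ψ0
  obtain ⟨l, a4, e3⟩ := exists_lam k1.holo (hC.ne_zero _ k1.mem.self_of_nhds)
    (k3.1.sub (an_smul a1 a3))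
  have t1 : Tendsto ψ (𝓝 0) (𝓝 0) := by simpa [ψ0] using a2.continuousAt.tendsto
  have e4 : ∀ᶠ t in 𝓝 0, θ t = s t • η (ψ t) + l t • δ t := by
    filter_upwards [e1, e3, k3.2, t1.eventually (h3.smul h1.mem hom), eventually_all.2 fun i =>
      (continuousAt_pi.1 a1.continuousAt i).eventually_ne (y := 0) (by simp [s0])]
      with t m1 m2 ⟨α, m3⟩ m4 m5
    obtain ⟨β, m6⟩ := m4 _ m5
    rw [← m1, m3] at m6
    have : θ t - s t • η (ψ t) = (β - α) • δ t := by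
      rw [sub_smul]
      linear_combination (norm := module) m6
    rw [m2 _ this, ← this, add_sub_cancel]
  have d1 : HasDerivAt η (deriv η 0) (ψ 0) := ψ0.symm ▸ h3.1.differentiableAt.hasDerivAt
  have d2 := (((hasDerivAt_smul a1.differentiableAt.hasDerivAt
    (d1.scomp (0 : ℂ) a2.differentiableAt.hasDerivAt)).add (hasDerivAt_smul
      a4.differentiableAt.hasDerivAt k1.holo.differentiableAt.hasDerivAt)).congr_of_eventuallyEq
        e4).deriv
  have e5 : θ 0 = (1 : ι → ℂ) • (η 0 + l 0 • γ 0) := by simpa [s0, ψ0, k0] using e4.self_of_nhds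
  have e6 : deriv θ 0 = (1 : ι → ℂ) • (deriv s 0 • η 0 + deriv ψ 0 • deriv η 0 + deriv l 0 • γ 0 +
      l 0 • (deriv ψ 0 • deriv γ 0 + deriv s 0 • γ 0)) := by
    rw [d2, e2]
    simp only [comp_apply, ψ0, s0, k0, one_smul, add_assoc]
  have m1 := (h4.trans (fun _ => one_ne_zero) ψ1 _ _ _ (one_smul _ _).symm
    (e2.trans (one_smul _ _).symm) e5 e6).unique k4
  have m2 := (h5.trans (fun _ => one_ne_zero) ψ1 _ _ _ (one_smul _ _).symm
    (e2.trans (one_smul _ _).symm) e5 e6).unique k5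
  rw [e5, hi (l 0) (by simpa using m1) (by simpa using m2)]
  simp

theorem glue [DecidableEq ι] {g : ℤ} {m : ι → ℤ} (hI : IsCurve o g m C)
    (hom : ∀ c ∈ C, ∀ s : ι → ℂ, (∀ i, s i ≠ 0) → ∃ α : ι → ℂ, ξ (s • c) = α • c + s • ξ c)
    (hb : Bijective fun l : ι → ℂ => (∑ i, S.χ i * l i, ∑ i, S'.χ i * l i))
    (h : ∀ c ∈ C, ∃ c' γ, Orb c' c ∧ Loc o C c' γ ∧
      ∃ (η : Bool → ℂ → V M) (l : Bool → ℂ → ℂ × ℂ), (∀ j, Rep ξ (γ j) (η j)) ∧
        (∀ j, AnalyticAt ℂ (l j) 0) ∧ η true 0 = η false 0 ∧ l true 0 = l false 0 ∧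
        ∀ j, ∀ᶠ t in 𝓝[≠] 0, S.D w (γ j t) (deriv (γ j) t) (η j t) (deriv (η j) t) (l j t).1 ∧
          S'.D w (γ j t) (deriv (γ j) t) (η j t) (deriv (η j) t) (l j t).2) :
    ∃ A : ∀ i, (Fin (M i) → ℂ) →L[ℂ] (Fin (M i) → ℂ),
      (∀ c ∈ C, ∃ α : ι → ℂ, ξ c = α • c + fun i => A i (c i)) ∧
      ∀ c ∈ C, ∃ γ, IsBranch o C γ ∧ Orb (γ 0) c ∧ ∀ᶠ t in 𝓝[≠] 0,
        S.D w (γ t) (deriv γ t) (fun i => A i (γ t i)) (fun i => A i (deriv γ t i)) 0 ∧
        S'.D w (γ t) (deriv γ t) (fun i => A i (γ t i)) (fun i => A i (deriv γ t i)) 0 := by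
  have hC := hI.nod
  let B : (ι → ℂ) →L[ℂ] ℂ × ℂ := (∑ i, S.χ i • ContinuousLinearMap.proj i).prod
    (∑ i, S'.χ i • ContinuousLinearMap.proj i)
  have hB : ∀ l, B l = (∑ i, S.χ i * l i, ∑ i, S'.χ i * l i) := fun l => by simp [B]
  obtain ⟨R, hR⟩ := exists_rightInv (l := B) (funext hB ▸ hb.2 :)
  have hi : ∀ l : ι → ℂ, ∑ i, S.χ i * l i = 0 → ∑ i, S'.χ i * l i = 0 → l = 0 := fun l a b =>
    hb.1 (by simp [a, b])
  have key : ∀ c ∈ C, ∃ c' γ, Orb c' c ∧ Loc o C c' γ ∧ ∃ η : Bool → ℂ → V M,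
      (∀ j, Rep ξ (γ j) (η j)) ∧ η true 0 = η false 0 ∧ ∀ j, ∀ᶠ t in 𝓝[≠] 0,
        Nm o w S S' C ξ (γ j t) (η j t) ∧
        S.D w (γ j t) (deriv (γ j) t) (η j t) (deriv (η j) t) 0 ∧
          S'.D w (γ j t) (deriv (γ j) t) (η j t) (deriv (η j) t) 0 := fun c hc => by
    obtain ⟨c', γ, h1, h2, η, l, h3, h4, h5, h6, h7⟩ := h c hc
    obtain ⟨L, hL⟩ : ∃ L : Bool → ℂ → ι → ℂ, ∀ j t, L j t = R (-l j t) := ⟨_, fun _ _ => rfl⟩
    have a1 : ∀ j, AnalyticAt ℂ (L j) 0 := fun j =>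
      funext (hL j) ▸ (R.analyticAt _).comp (h4 j).neg
    have a2 : ∀ j, Rep ξ (γ j) fun t => η j t + L j t • γ j t := fun j =>
      ⟨(h3 j).1.add (an_smul (a1 j) (h2.an j)), (h3 j).2.mono fun t ⟨α, e⟩ =>
        ⟨α - L j t, by rw [e, sub_smul]; beta_reduce; abel⟩⟩
    refine ⟨c', γ, h1, h2, _, a2, by simp only [h5, h6, h2.zero, hL], fun j => ?_⟩
    filter_upwards [h7 j, mem_nhdsWithin_of_mem_nhds ((a1 j).eventually_analyticAt.and
      ((h3 j).1.eventually_analyticAt.and ((h2.an j).eventually_analyticAt.and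
        (((tendsto_inr 1 0).eventually (h2.nearby hC j)).and ((a2 j).1.eventually_analyticAt.and
          (a2 j).2.eventually_nhds))))), self_mem_nhdsWithin]
      with t ⟨k1, k2⟩ ⟨k3, k4, k5, k6, k7, k8⟩ k9
    have d1 := (k4.differentiableAt.hasDerivAt.fun_add (hasDerivAt_smul
      k3.differentiableAt.hasDerivAt k5.differentiableAt.hasDerivAt)).deriv
    have e1 := congrArg Prod.fst ((hB _).symm.trans (hR (-l j t)))
    have e2 := congrArg Prod.snd ((hB _).symm.trans (hR (-l j t)))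
    have m1 := k1.trans (s := 1) (fun _ => one_ne_zero) one_ne_zero 0 (L j t) (deriv (L j) t)
      (one_smul _ _).symm (u₁ := deriv (γ j) t) (by simp) (one_smul _ _).symm
      (d1.trans (by simp [add_assoc]))
    have m2 := k2.trans (s := 1) (fun _ => one_ne_zero) one_ne_zero 0 (L j t) (deriv (L j) t)
      (one_smul _ _).symm (u₁ := deriv (γ j) t) (by simp) (one_smul _ _).symm
      (d1.trans (by simp [add_assoc]))
    simp only [Prod.fst_neg, Prod.snd_neg, ← hL] at e1 e2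
    rw [e1, add_neg_cancel] at m1
    rw [e2, add_neg_cancel] at m2
    have k10 := k6 (.inl k9)
    simp only [one_smul] at k10
    have t1 : Tendsto (fun z => t + z) (𝓝 0) (𝓝 t) :=
      Continuous.tendsto' (by fun_prop) _ _ (by simp)
    refine ⟨⟨fun z => γ j (t + z), fun z => η j (t + z) + L j (t + z) • γ j (t + z),
      k10.br true, by simp, fun e => k10.isNode_iff.1 e rfl, ⟨k7.comp_of_eq
        (analyticAt_const.add analyticAt_id) (add_zero t), t1.eventually k8⟩, by simp, ?_⟩, m1, m2⟩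
    rw [deriv_comp_const_add, deriv_comp_const_add (fun t => η j t + L j t • γ j t), add_zero]
    exact ⟨m1, m2⟩
  have eps : ∀ c v, Nm o w S S' C ξ c v → Classical.epsilon (Nm o w S S' C ξ c) = v :=
    fun c v hv => (Classical.epsilon_spec ⟨v, hv⟩).unique hv hC hom hi
  have k1 : ∀ δ, IsBranch o C δ → ∀ᶠ t in 𝓝[≠] 0, ∃ v, Nm o w S S' C ξ (δ t) v := fun δ hδ => by
    obtain ⟨c', γ, ⟨s₀, hs₀, e⟩, h2, η, -, -, h3⟩ := key _ hδ.mem.self_of_nhds
    obtain ⟨j, s, ψ, a1, a2, s0, ψ0, ψ1, e1, -⟩ := (h2.smul hC hs₀).reparam hδ e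
    filter_upwards [mem_nhdsWithin_of_mem_nhds e1, (tendsto_punct a2 ψ0 ψ1).eventually (h3 j),
      mem_nhdsWithin_of_mem_nhds (eventually_all.2 fun i =>
        (continuousAt_pi.1 a1.continuousAt i).eventually_ne (y := 0) (by simp [s0]))] with t m1 m2 m3
    exact ⟨_, m1 ▸ (m2.1.smul hC hom hs₀).smul hC hom m3⟩
  have k2 : ∀ i r, ∃ l : (Fin (M i) → ℂ) →L[ℂ] ℂ, ∀ δ, IsBranch o C δ → ∀ᶠ t in 𝓝[≠] 0,
      l (δ t i) = Classical.epsilon (Nm o w S S' C ξ (δ t)) i r := fun i r => by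
    obtain ⟨f, f1, f2⟩ := hC.ext_punct (a := Pi.single i 1)
      (F := fun c => Classical.epsilon (Nm o w S S' C ξ c) i r)
      (fun δ hδ => (k1 δ hδ).mono fun t ⟨v, hv⟩ s hs => by
        rw [eps _ _ hv, eps _ _ (hv.smul hC hom hs), chr_single]; rfl) fun c hc => by
      obtain ⟨c', γ, h1, h2, η, h3, h4, h5⟩ := key c hc
      exact ⟨c', γ, h1, h2, fun j t => η j t i r, fun j => analyticAt_pi_iff.1
        (analyticAt_pi_iff.1 (h3 j).1 i) r, by simp only [h4],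
        fun j => (h5 j).mono fun t ht => by rw [eps _ _ ht.1]⟩
    obtain ⟨μ, hμ⟩ := hI.normal _ (by simp) f f1
    obtain ⟨l, hl⟩ := exists_lin μ
    refine ⟨l, fun δ hδ => ?_⟩
    filter_upwards [f2 δ hδ, mem_nhdsWithin_of_mem_nhds hδ.mem] with t m1 m2
    rw [← hl, ← hμ _ m2, m1]
  choose L hL using k2
  let A : V M →L[ℂ] V M := .pi fun i => (.pi (L i) : _ →L[ℂ] (Fin (M i) → ℂ)) ∘L .proj i
  have k3 : ∀ c ∈ C, ∃ γ η, IsBranch o C γ ∧ Orb (γ 0) c ∧ Rep ξ γ η ∧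
      (∀ᶠ t in 𝓝 0, η t = A (γ t)) ∧ ∀ᶠ t in 𝓝[≠] 0, S.D w (γ t) (deriv γ t) (η t) (deriv η t) 0 ∧
        S'.D w (γ t) (deriv γ t) (η t) (deriv η t) 0 := fun c hc => by
    obtain ⟨c', γ, h1, h2, η, h3, -, h5⟩ := key c hc
    refine ⟨_, _, h2.br true, (h2.zero true).symm ▸ h1, h3 true,
      ((h3 true).1.frequently_eq_iff_eventually_eq ((A.analyticAt _).comp (h2.an true))).1
        (Eventually.frequently ?_), (h5 true).mono fun t ht => ht.2⟩
    filter_upwards [h5 true, eventually_all.2 fun i => eventually_all.2 fun r =>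
      hL i r _ (h2.br true)] with t m1 m2
    exact funext fun i => funext fun r => by rw [← eps _ _ m1.1, ← m2]; rfl
  refine ⟨fun i => .pi (L i), fun c hc => ?_, fun c hc => ?_⟩
  · obtain ⟨γ, η, h1, ⟨s, hs, rfl⟩, h3, h4, -⟩ := k3 c hc
    obtain ⟨α, e⟩ := (h3.smul h1.mem hom).self_of_nhds s hs
    refine ⟨α, e.trans (congrArg _ (funext fun i => ?_))⟩
    rw [h4.self_of_nhds, Pi.smul_apply', Pi.smul_apply', map_smul]
    rfl
  · obtain ⟨γ, η, h1, h2, h3, h4, h5⟩ := k3 c hc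
    refine ⟨γ, h1, h2, ?_⟩
    filter_upwards [h5, mem_nhdsWithin_of_mem_nhds (h4.eventually_nhds.and
      h1.holo.eventually_analyticAt)] with t m1 ⟨m2, m3⟩
    rwa [m2.self_of_nhds, ((A.hasFDerivAt.comp_hasDerivAt t
      m3.differentiableAt.hasDerivAt).congr_of_eventuallyEq m2).deriv] at m1

end Glue

end Vale.Agent.P269L.Ker
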