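import Vale.Agent.P269L.I.Ker1

/-!
# The two systems of functions of a chart and their logarithmic derivatives
-/

namespace Vale.Agent.P269L.Ker

open Set Function Topology Filter P269 P269.Base P269.Holo P269.Ch

set_option linter.unusedSectionVars false

section Gen

variable {ι : Type} [Fintype ι] {M : ι → ℕ} {o : ι} {P : Type*} [NormedAddCommGroup P]
  [NormedSpace ℂ P] {C : P → Set (V M)} {y w : P} {ξ : V M → V M} {a : ℂ → P} {Γ Δ : ℂ × ℂ → V M}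

theorem dv_snd {F : Type*} [NormedAddCommGroup F] [NormedSpace ℂ F] {f : ℂ × ℂ → F} {ε t : ℂ}
    (h : AnalyticAt ℂ f (ε, t)) : HasDerivAt (fun s => f (ε, s)) (fderiv ℂ f (ε, t) (0, 1)) t :=
  h.differentiableAt.hasFDerivAt.comp_hasDerivAt t ((hasDerivAt_const t ε).prodMk (hasDerivAt_id t))

theorem dv_fst {F : Type*} [NormedAddCommGroup F] [NormedSpace ℂ F] {f : ℂ × ℂ → F} {ε t : ℂ}
    (h : AnalyticAt ℂ f (ε, t)) : HasDerivAt (fun s => f (s, t)) (fderiv ℂ f (ε, t) (1, 0)) ε :=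
  h.differentiableAt.hasFDerivAt.comp_hasDerivAt ε ((hasDerivAt_id ε).prodMk (hasDerivAt_const ε t))

theorem an_pd {F : Type*} [NormedAddCommGroup F] [NormedSpace ℂ F] [CompleteSpace F]
    {f : ℂ × ℂ → F} {q : ℂ × ℂ} (h : AnalyticAt ℂ f q) (u : ℂ × ℂ) :
    AnalyticAt ℂ (fun r => fderiv ℂ f r u) q := an_apply h.fderiv analyticAt_const

theorem pd_symm {F : Type*} [NormedAddCommGroup F] [NormedSpace ℂ F] [CompleteSpace F]
    {f : ℂ × ℂ → F} {q : ℂ × ℂ} (h : AnalyticAt ℂ f q) (u v : ℂ × ℂ) :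
    fderiv ℂ (fun r => fderiv ℂ f r u) q v = fderiv ℂ (fun r => fderiv ℂ f r v) q u := by
  have e : ∀ u v, fderiv ℂ (fun r => fderiv ℂ f r u) q v = fderiv ℂ (fderiv ℂ f) q v u :=
    fun u v => by
      rw [fderiv_clm_apply h.fderiv.differentiableAt (differentiableAt_const _)]
      simp
  rw [e, e]
  exact h.contDiffAt.isSymmSndFDerivAt_of_omega v u

theorem Fam.d0 (h : Fam o C y w ξ a Γ) :
    deriv (fun t => Γ (0, t)) 0 = fderiv ℂ Γ (0, 0) (0, 1) := (dv_snd h.an).deriv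

theorem Fam.ev_br (h : Fam o C y w ξ a Γ) :
    ∀ᶠ q in 𝓝 ((0 : ℂ), (0 : ℂ)), IsBranch o (C (a q.1)) fun t => Γ (q.1, q.2 + t) := by
  have h1 : ContinuousAt (fun q => ![Γ q o, fderiv ℂ Γ q (0, 1) o]) (0, 0) := by
    refine continuousAt_pi.2 fun k => ?_
    fin_cases k
    exacts [(continuous_apply o).continuousAt.comp h.an.continuousAt,
      (continuous_apply o).continuousAt.comp (an_pd h.an _).continuousAt]
  filter_upwards [h1.eventually (isOpen_setOfPred_linearIndependent.mem_nhds (h.d0 ▸ h.br.imm :)),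
    h.an.eventually_analyticAt, h.mem.eventually_nhds] with q k1 k2 k3
  have a1 : AnalyticAt ℂ (fun t : ℂ => (q.1, q.2 + t)) 0 :=
    analyticAt_const.prod (analyticAt_const.add analyticAt_id)
  have t1 : Tendsto (fun t : ℂ => (q.1, q.2 + t)) (𝓝 0) (𝓝 q) := by
    simpa using a1.continuousAt.tendsto
  refine ⟨k2.comp_of_eq a1 (by simp), t1.eventually k3, ?_⟩
  rw [deriv_comp_const_add (fun t => Γ (q.1, t)), add_zero, (dv_snd k2).deriv]
  exact k1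

theorem Fam.ev_br0 (h : Fam o C y w ξ a Γ) :
    ∀ᶠ ε in 𝓝 (0 : ℂ), IsBranch o (C (a ε)) fun t => Γ (ε, t) := by
  simpa using (tendsto_inl 0 0).eventually h.ev_br

theorem Fam.ev_cross (h : Fam o C y w ξ a Γ) (h' : Fam o C y w ξ a Δ)
    (e : ∀ ε, Γ (ε, 0) = Δ (ε, 0)) (hl : LinearIndependent ℂ
      ![Γ (0, 0) o, deriv (fun t => Γ (0, t)) 0 o, deriv (fun t => Δ (0, t)) 0 o]) :
    ∀ᶠ ε in 𝓝 (0 : ℂ), IsCross o (C (a ε)) (Γ (ε, 0)) (fun t => Γ (ε, t)) fun t => Δ (ε, t) := by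
  have h1 : ContinuousAt (fun q => ![Γ q o, fderiv ℂ Γ q (0, 1) o, fderiv ℂ Δ q (0, 1) o])
      (0, 0) := by
    refine continuousAt_pi.2 fun k => ?_
    fin_cases k
    exacts [(continuous_apply o).continuousAt.comp h.an.continuousAt,
      (continuous_apply o).continuousAt.comp (an_pd h.an _).continuousAt,
      (continuous_apply o).continuousAt.comp (an_pd h'.an _).continuousAt]
  rw [h.d0, h'.d0] at hl
  filter_upwards [(tendsto_inl 0 0).eventually ((h1.eventually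
    (isOpen_setOfPred_linearIndependent.mem_nhds hl)).and (h.an.eventually_analyticAt.and
      h'.an.eventually_analyticAt)), h.ev_br0, h'.ev_br0] with ε ⟨k1, k2, k3⟩ k4 k5
  refine ⟨k4, k5, rfl, (e ε).symm, ?_⟩
  rw [(dv_snd k2).deriv, (dv_snd k3).deriv]
  exact k1

theorem Fam.rp (h : Fam o C y w ξ a Γ) :
    Rep ξ (fun t => Γ (0, t)) fun t => fderiv ℂ Γ (0, t) (1, 0) :=
  ⟨(an_pd h.an _).comp_of_eq (analyticAt_const.prod analyticAt_id) rfl, h.rep⟩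

/-- The logarithmic derivative along a family of discs. -/
theorem Fam.D (h : Fam o C y w ξ a Γ) {T : Type} (S : Sys M y Unit fun _ => T) {f : ℂ × ℂ → ℂ}
    (hf : AnalyticAt ℂ f (0, 0)) (h0 : f (0, 0) ≠ 0) {k : ℕ} {μ₀ : T}
    (h1 : S.W () μ₀ (Γ (0, 0), fderiv ℂ Γ (0, 0) (0, 1)) ≠ 0)
    (he : ∀ᶠ q in 𝓝 ((0 : ℂ), (0 : ℂ)), ∀ μ, S.g () μ (a q.1, Γ q) =
      q.2 ^ k * f q * S.W () μ (Γ q, fderiv ℂ Γ q (0, 1))) :
    ∀ᶠ t in 𝓝[≠] 0, S.D w (Γ (0, t)) (deriv (fun t => Γ (0, t)) t) (fderiv ℂ Γ (0, t) (1, 0))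
      (deriv (fun t => fderiv ℂ Γ (0, t) (1, 0)) t) (fderiv ℂ f (0, t) (1, 0) / f (0, t)) := by
  have a1 := (S.aW () μ₀ _).comp (h.an.prod (an_pd h.an (0, 1)))
  filter_upwards [mem_nhdsWithin_of_mem_nhds ((tendsto_inr 0 0).eventually (he.eventually_nhds.and
    (h.an.eventually_analyticAt.and (hf.eventually_analyticAt.and
      ((hf.continuousAt.eventually_ne h0).and (a1.continuousAt.eventually_ne h1)))))),
    self_mem_nhdsWithin] with t ⟨k1, k2, k3, k4, k5⟩ k6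
  have k7 := k1.self_of_nhds
  simp only [h.a0] at k7
  rw [(dv_snd k2).deriv, (dv_snd (an_pd k2 _)).deriv, pd_symm k2]
  refine ⟨⟨(), μ₀, k7 μ₀ ▸ mul_ne_zero (mul_ne_zero (pow_ne_zero _ k6) k4) k5⟩,
    fun _ => t ^ k * f (0, t), fun _ μ => ⟨k7 μ, ?_⟩⟩
  have := (hd_comp (S.ag () μ (Γ (0, t))) (h.da.prodMk (dv_fst k2)) (by simp [h.a0])).unique
    ((((dv_fst k3).const_mul (t ^ k)).mul (hd_comp (S.aW () μ _) ((dv_fst k2).prodMk
      (dv_fst (an_pd k2 _))) rfl)).congr_of_eventuallyEq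
        (((tendsto_inl 0 t).eventually k1).mono fun ε hε => hε μ))
  rw [this, k7]
  field_simp
  ring

end Gen

variable {J ι ν : Type} [Fintype J] [Fintype ι] [DecidableEq ι] [Fintype ν] {ch : Ch ι J}
  {x v : ch.W ν} (R : ∀ l, ch.E l →L[ℂ] Tens ch.M (ch.a l))

/-- The evaluation of sections, as an analytic function of the point of the total space. -/
noncomputable def U (l : Option J) (q : ch.W ν × V ch.M) : ch.E l →L[ℂ] ℂ :=
  evL (ch.a l) q.2 ∘L R l ∘L (q.1.Q l ∘L R l).inverse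

variable {R}

theorem U_smul (l : Option J) (y : ch.W ν) (s : ι → ℂ) (c : V ch.M) (e : ch.E l) :
    U R l (y, s • c) e = chr (ch.a l) s * U R l (y, c) e := val_smul _ _ _

variable (hR : ∀ l e, x.Q l (R l e) = e)
include hR

theorem Q_comp (l : Option J) : x.Q l ∘L R l = .id ℂ _ := ContinuousLinearMap.ext (hR l)

theorem U_self (l : Option J) (c : V ch.M) (e : ch.E l) : U R l (x, c) e = val (R l e) c := by
  simp [U, Q_comp hR]

theorem an_U (l : Option J) (c : V ch.M) : AnalyticAt ℂ (U R l) (x, c) :=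
  an_comp ((analyticAt_evL c).comp_of_eq analyticAt_snd rfl) (an_comp analyticAt_const
    ((analyticAt_clm_inverse (l := x.Q l ∘L R l) (Q_comp hR l ▸ bijective_id)).comp_of_eq
      (an_comp (W.an_Q analyticAt_fst l) analyticAt_const) rfl))

theorem ev_bij : ∀ᶠ y : ch.W ν in 𝓝 x, ∀ l, Bijective (y.Q l ∘L R l) :=
  eventually_all.2 fun l => eventually_bijective
    (an_comp (W.an_Q analyticAt_id l) analyticAt_const).continuousAt (Q_comp hR l ▸ bijective_id)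

theorem U_gr : ∀ᶠ y : ch.W ν in 𝓝 x, ∀ c u, (c, u) ∈ gr y → ∀ l e, U R l (y, c) e = u l e :=
  (ev_bij hR).mono fun y hy c u hu l e => by
    rw [← (isInvertible_of_bijective (hy l)).self_apply_inverse e]
    refine Eq.trans ?_ (hu.2 l _).symm
    rw [(isInvertible_of_bijective (hy l)).self_apply_inverse e]
    rfl

theorem an_UZ {l : Option J} (Z : ch.W ν →L[ℂ] ch.E l) (c : V ch.M) :
    AnalyticAt ℂ (fun q => U R l q (Z q.1)) (x, c) :=
  an_apply (an_U hR l c) ((Z.analyticAt _).comp analyticAt_fst)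

theorem fderiv_U {l : Option J} (Z : ch.W ν →L[ℂ] ch.E l) (c η : V ch.M) :
    fderiv ℂ (fun q => U R l q (Z q.1)) (x, c) (v, η) = fderiv ℂ (val (R l (Z x))) c η +
      val (R l (Z v - v.Q l (R l (Z x)))) c := by
  have d0 := hd_line (x, c) (v, η)
  have d1 := hd_comp (an_U hR l c) d0 (by simp)
  have d2 : ∀ Y : ch.W ν →L[ℂ] ch.E l, _ := fun Y =>
    d1.clm_apply (Y.hasFDerivAt.comp_hasDerivAt _ (hd_fst d0))
  have t1 : Tendsto (fun ε : ℂ => ((x, c) + ε • (v, η)).1) (𝓝 0) (𝓝 x) := by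
    simpa using (hd_fst d0).continuousAt.tendsto
  have e1 := (hd_comp (an_UZ hR Z c) d0 (by simp)).unique (d2 Z)
  have e2 := (d2 (ContinuousLinearMap.apply ℂ _ (R l (Z x)) ∘L W.QL l)).unique
    ((hd_comp (analyticAt_val (R l (Z x)) c) (hd_snd d0) (by simp)).congr_of_eventuallyEq
      ((t1.eventually (ev_bij hR)).mono fun ε hε => congrArg (fun e => val (R l e) _)
        ((isInvertible_of_bijective (hε l)).inverse_apply_self (Z x))))
  simp only [zero_smul, add_zero, comp_apply, ContinuousLinearMap.comp_apply, W.QL_apply,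
    ContinuousLinearMap.apply_apply, hR, U_self hR] at e1 e2
  rw [e1, map_sub, Base.val_sub, ← e2]
  ring

/-- The tensor `Ξ` against `wedge`. -/
noncomputable def S₁ : Sys ch.M x Unit fun _ => Tn ch.M ch.slot where
  g _ μ q := U R none q (q.1.Ξ μ)
  W _ μ q := wedge μ q.1 q.2
  a _ := ch.a none
  b _ := ch.bω + Pi.single ch.o (2 * ch.k)
  k := ch.k
  χ i := ch.χ i
  ag _ μ c := an_UZ hR (ContinuousLinearMap.apply ℂ _ μ ∘L W.XiL) c
  hg _ _ _ _ _ := U_smul _ _ _ _ _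
  aW _ _ _ := an_wedge analyticAt_const analyticAt_fst analyticAt_snd
  hW _ μ s σ ψ c u := by
    have e2 : chr (Pi.single ch.o (2 * ch.k)) s = s ch.o ^ (2 * ch.k) := by
      rw [chr, Finset.prod_eq_single ch.o (fun j _ hj => by simp [hj]) (by simp)]
      simp
    rw [wedge_smul μ s c u _ (a := s ch.o * σ ch.o) (b := s ch.o * ψ) (by
      simp only [Pi.smul_apply', Pi.add_apply, Pi.smul_apply]; module), chr_add, e2]
    ring
  hχ _ i := by
    simp only [Ch.χ, Pi.add_apply, Pi.single_apply]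
    split_ifs <;> push_cast <;> ring

/-- The fields against the test forms. -/
noncomputable def S₂ (κ : ι → ℂ) (hκ : ∀ j i, κ i = ch.a (some j) i - ch.b j i) :
    Sys ch.M x J fun j => Tens ch.M (ch.b j) where
  g j μ q := U R (some j) q (q.1.X j μ)
  W _ μ q := val μ q.1
  a j := ch.a (some j)
  b := ch.b
  k := 0
  χ := κ
  ag j μ c := an_UZ hR (ContinuousLinearMap.apply ℂ _ μ ∘L W.XL j) c
  hg _ _ _ _ _ := U_smul _ _ _ _ _
  aW _ _ _ := an_val analyticAt_const analyticAt_fst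
  hW _ μ s σ ψ c u := by simp [val_smul]
  hχ := hκ

variable {ξ : V ch.M → V ch.M} {a : ℂ → ch.W ν} {Γ : ℂ × ℂ → V ch.M}

theorem lead_fam (h : Fam ch.o crv x v ξ a Γ) (hb : ∀ᶠ ε in 𝓝 0, a ε ∈ ch.base ν)
    (hs : ¬Spc x (Γ (0, 0)) ∨ ∀ᶠ ε in 𝓝 0, Spc (a ε) (Γ (ε, 0))) :
    ∃ f : ℂ × ℂ → ℂ, AnalyticAt ℂ f (0, 0) ∧ f (0, 0) ≠ 0 ∧ (∀ᶠ t in 𝓝[≠] 0,
      (S₁ hR).D v (Γ (0, t)) (deriv (fun t => Γ (0, t)) t) (fderiv ℂ Γ (0, t) (1, 0))
        (deriv (fun t => fderiv ℂ Γ (0, t) (1, 0)) t) (fderiv ℂ f (0, t) (1, 0) / f (0, t))) ∧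
      (Spc x (Γ (0, 0)) → ∀ᶠ ε in 𝓝 0, Lead (a ε) (fun t => Γ (ε, t)) (f (ε, 0))) := by
  obtain ⟨μ₀, h1⟩ := exists_wedge_ne (crv_ne h.br.mem.self_of_nhds) h.br.imm
  rw [h.d0] at h1
  have ta : Tendsto a (𝓝 0) (𝓝 x) := h.a0 ▸ h.aa.continuousAt.tendsto
  have aW := ((S₁ hR).aW () μ₀ _).comp (h.an.prod (an_pd h.an (0, 1)))
  have ag := ((S₁ hR).ag () μ₀ (Γ (0, 0))).comp_of_eq
    ((h.aa.comp_of_eq analyticAt_fst rfl).prod h.an)
    (by simp [h.a0])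
  obtain ⟨f, hf⟩ : ∃ f : ℂ × ℂ → ℂ, f = fun q => U R none (a q.1, Γ q) ((a q.1).Ξ μ₀) /
    wedge μ₀ (Γ q) (fderiv ℂ Γ q (0, 1)) := ⟨_, rfl⟩
  have af : AnalyticAt ℂ f (0, 0) := hf ▸ ag.div aW h1
  have e0 : ∀ᶠ q in 𝓝 ((0 : ℂ), (0 : ℂ)), ∀ r, (∀ u, (Γ q, u) ∈ gr (a q.1) → ∀ μ,
      u none ((a q.1).Ξ μ) = r * wedge μ (Γ q) (fderiv ℂ Γ q (0, 1))) → f q = r ∧ ∀ μ,
        U R none (a q.1, Γ q) ((a q.1).Ξ μ) = r * wedge μ (Γ q) (fderiv ℂ Γ q (0, 1)) := by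
    filter_upwards [h.mem, continuousAt_fst.eventually (ta.eventually (U_gr hR)),
      aW.continuousAt.eventually_ne h1] with q k1 k2 k3 r k4
    obtain ⟨u, hu⟩ := mem_crv.1 k1
    have := fun μ => (k2 _ u hu none _).trans (k4 u hu μ)
    exact ⟨by rw [hf]; exact (congrArg (· / _) (this μ₀)).trans (mul_div_cancel_right₀ _ k3), this⟩
  have e1 : ∀ᶠ q in 𝓝 ((0 : ℂ), (0 : ℂ)), ∀ μ,
      U R none (a q.1, Γ q) ((a q.1).Ξ μ) = f q * wedge μ (Γ q) (fderiv ℂ Γ q (0, 1)) := by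
    filter_upwards [e0, h.ev_br, continuousAt_fst.eventually hb, h.an.eventually_analyticAt]
      with q k1 k2 k3 k4
    obtain ⟨ρ, -, k5⟩ := k3.2.2.2.2.2.1 _ k2
    obtain ⟨φ, -, -, k6⟩ := Rel.lead_iff.1 k5
    have k7 := k6.self_of_nhds
    rw [deriv_comp_const_add (fun t => Γ (q.1, t))] at k7
    simp only [add_zero, (dv_snd k4).deriv] at k7
    obtain ⟨m1, m2⟩ := k1 _ k7
    exact m1 ▸ m2
  have e2 : ∀ᶠ ε in 𝓝 (0 : ℂ), ∃ φ, AnalyticAt ℂ φ 0 ∧ φ 0 ≠ 0 ∧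
      Lead (a ε) (fun t => Γ (ε, t)) (φ 0) ∧
      ∀ᶠ t in 𝓝 0, f (ε, t) = φ t * Rel.ez (Spc (a ε) (Γ (ε, 0))) t ^ ch.k := by
    filter_upwards [h.ev_br0, hb, (tendsto_inl 0 0).eventually
      (e0.and h.an.eventually_analyticAt).eventually_nhds] with ε k1 k2 k3
    obtain ⟨ρ, k4, k5⟩ := k2.2.2.2.2.2.1 _ k1
    obtain ⟨φ, k6, rfl, k7⟩ := Rel.lead_iff.1 k5
    refine ⟨φ, k6, k4, k5, ?_⟩
    filter_upwards [k7, (tendsto_inr ε 0).eventually k3] with t m1 m2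
    rw [(dv_snd m2.2).deriv] at m1
    exact (m2.1 _ m1).1
  rcases hs with hs | hs
  · obtain ⟨φ, -, k1, -, k2⟩ := e2.self_of_nhds
    have k3 : f (0, 0) ≠ 0 := by
      rwa [k2.self_of_nhds, h.a0, Rel.ez_neg hs, one_pow, mul_one]
    exact ⟨f, af, k3, h.D (S₁ hR) af k3 (k := 0) h1 (by simpa [S₁] using e1), fun k => absurd k hs⟩
  · have sw : ∀ q : ℂ × ℂ, AnalyticAt ℂ Prod.swap q := fun q => analyticAt_snd.prod analyticAt_fst
    obtain ⟨G, G1, G2⟩ := MarkP.div_pow_par (Φ := fun q => f q.swap) (af.comp_of_eq (sw _) rfl) ch.k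
    have a2 := G1.comp_of_eq (sw (0, 0)) rfl
    have e3 : ∀ᶠ ε in 𝓝 (0 : ℂ), (∀ t, f (ε, t) = t ^ ch.k * G (t, ε)) ∧ G (0, ε) ≠ 0 ∧
        Lead (a ε) (fun t => Γ (ε, t)) (G (0, ε)) := by
      filter_upwards [e2, hs, G2, (tendsto_inr 0 0).eventually G1.eventually_analyticAt]
        with ε ⟨φ, k1, k2, k3, k4⟩ k5 k6 k7
      simp only [Rel.ez_pos k5] at k4
      have k8 := k6 ⟨φ, k1, k4.mono fun t ht => ht.trans (mul_comm _ _)⟩
      have k9 : G (0, ε) = φ 0 := Rel.eq_zero (f := fun t => G (t, ε))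
        (k7.comp_of_eq (analyticAt_id.prod analyticAt_const) rfl) k1 (by
          filter_upwards [mem_nhdsWithin_of_mem_nhds k4, self_mem_nhdsWithin] with t m1 m2
          exact mul_left_cancel₀ (pow_ne_zero ch.k m2)
            ((k8 t).symm.trans (m1.trans (mul_comm _ _))))
      exact ⟨k8, k9 ▸ k2, k9 ▸ k3⟩
    refine ⟨_, a2, e3.self_of_nhds.2.1, h.D (S₁ hR) a2 e3.self_of_nhds.2.1 (k := ch.k) h1 ?_,
      fun _ => e3.mono fun ε hε => hε.2.2⟩
    filter_upwards [e1, continuousAt_fst.eventually e3] with q k1 k2 μ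
    exact (k1 μ).trans (congrArg (· * _) (k2.1 q.2))

end Vale.Agent.P269L.Ker
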