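import Vale.Agent.P269L.I.Ker2
import Vale.Agent.P269.Base.Mfd

/-!
# A lift along which the map is constant to first order comes from the Lie algebra
-/

namespace Vale.Agent.P269L.Ker

open Set Function Topology Filter P269 P269.Base P269.Holo P269.Ch

set_option linter.unusedSectionVars false

theorem Fam.map {ι : Type} [Fintype ι] {M : ι → ℕ} {o : ι} {P Q : Type*} [NormedAddCommGroup P]
    [NormedSpace ℂ P] [NormedAddCommGroup Q] [NormedSpace ℂ Q] {C : P → Set (V M)} {y w : P}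
    {ξ : V M → V M} {a : ℂ → P} {Γ : ℂ × ℂ → V M} (h : Fam o C y w ξ a Γ) {Y : P → Q}
    (hY : AnalyticAt ℂ Y y) {C' : Q → Set (V M)} (he : ∀ᶠ p in 𝓝 y, C' (Y p) = C p) :
    Fam o C' (Y y) (fderiv ℂ Y y w) ξ (fun ε => Y (a ε)) Γ := by
  have ta : Tendsto a (𝓝 0) (𝓝 y) := h.a0 ▸ h.aa.continuousAt.tendsto
  refine ⟨hY.comp_of_eq h.aa h.a0, congrArg Y h.a0, hd_comp hY h.da h.a0, h.an, ?_,
    he.self_of_nhds ▸ h.br, h.rep⟩
  filter_upwards [h.mem, continuousAt_fst.eventually (ta.eventually he)] with q k1 k2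
  exact k2 ▸ k1

variable {J ι ν : Type} [Fintype J] [Fintype ι] [DecidableEq ι] [Fintype ν] {ch : Ch ι J}
  {x v : ch.W ν} {ξ : V ch.M → V ch.M}

/-- `ξ` is a lift of the tangent vector `v` of `base` to the universal pointed curve. -/
structure Lf (x v : ch.W ν) (ξ : V ch.M → V ch.M) : Prop where
  hom : ∀ c ∈ crv x, ∀ s : ι → ℂ, (∀ i, s i ≠ 0) → ∃ α : ι → ℂ, ξ (s • c) = α • c + s • ξ c
  an : ∀ γ, IsBranch ch.o (crv x) γ → ∃ η, Rep ξ γ η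
  tg : ∀ c ∈ crv x, ∀ F : ch.W ν × V ch.M → ℂ, AnalyticAt ℂ F (x, c) →
    (∀ᶠ q in 𝓝 (x, c), q.1 ∈ ch.base ν → q.2 ∈ crv q.1 → F q = 0) → fderiv ℂ F (x, c) (v, ξ c) = 0
  pt : ∀ n, ∃ α : ι → ℂ, ξ (x.p n) = α • x.p n + v.p n

theorem Lf.loc_of (hL : Lf x v ξ) (hx : x ∈ ch.base ν)
    (hv : v ∈ tan (Subtype.val : ch.base ν → _) ⟨x, hx⟩) {P : Type} [NormedAddCommGroup P]
    [NormedSpace ℂ P] [FiniteDimensional ℂ P] {C : P → Set (V ch.M)} {y : P} {Ψ : P → ch.base ν}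
    (h2 : IsParam Subtype.val Ψ y) (h3 : Ψ y = ⟨x, hx⟩) (hf : LocFam ch.o C id y)
    (h5 : ∀ᶠ r in 𝓝 y, crv (Ψ r).1 = C r)
    (h6 : ∀ c, IsNode ch.o (C y) c → ∃ τ, NdAt ch.o C id y c τ ∧ fderiv ℂ τ y ≠ 0)
    {c : V ch.M} (hc : c ∈ crv x) :
    ∃ (c' : V ch.M) (a : ℂ → ch.W ν) (Γ : Bool → ℂ × ℂ → V ch.M), Orb c' c ∧
      (∀ j, Fam ch.o crv x v ξ a (Γ j)) ∧ (∀ᶠ ε in 𝓝 0, a ε ∈ ch.base ν) ∧
      Loc ch.o (crv x) c' (fun j t => Γ j (0, t)) ∧ (∀ ε, Γ true (ε, 0) = Γ false (ε, 0)) ∧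
      (IsNode ch.o (crv x) c' ∨ Γ true = Γ false ∧
        (¬Spc x c' ∨ ∀ᶠ ε in 𝓝 0, Spc (a ε) (Γ true (ε, 0)))) := by
  obtain ⟨L, L1, L2, L3, L4, -⟩ := h2.exists_inv
  have hY := h2.an
  rw [← h3, h2.tan_eq] at hv
  obtain ⟨w, rfl⟩ := hv
  rw [h3] at L1 L2 L4
  have e0 : (Ψ y).1 = x := congrArg Subtype.val h3
  have e1 : crv x = C y := e0 ▸ h5.self_of_nhds
  have e2 := fderiv_leftInv (e0.symm ▸ L1) hY L3 w
  rw [e0] at e2
  have l1 : Lift ch.o C y w ξ := by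
    refine ⟨e1 ▸ hL.hom, e1 ▸ hL.an, fun c hc G G1 G2 => ?_⟩
    have a1 : AnalyticAt ℂ (fun q : ch.W ν × V ch.M => (L q.1, q.2)) (x, c) :=
      (L1.comp_of_eq analyticAt_fst rfl).prod analyticAt_snd
    have t1 : Tendsto (fun q : ch.W ν × V ch.M => (L q.1, q.2)) (𝓝 (x, c)) (𝓝 (y, c)) := by
      simpa [L2] using a1.continuousAt.tendsto
    have L5 : ∀ᶠ y in 𝓝 x, ∀ hy : y ∈ ch.base ν, Ψ (L y) = ⟨y, hy⟩ := by
      rw [nhds_subtype, eventually_comap] at L4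
      exact L4.mono fun y k hy => k ⟨y, hy⟩ rfl
    have a2 := G1.comp_of_eq a1 (by simp [L2])
    have d0 := hd_line (x, c) (fderiv ℂ (fun z => (Ψ z).1) y w, ξ c)
    have d1 := (hd_comp G1 ((hd_comp L1 (hd_fst d0) (by simp)).prodMk (hd_snd d0))
      (by simp [L2])).unique (hd_comp a2 d0 (by simp) :)
    rw [e2] at d1
    refine d1.trans (hL.tg c (e1 ▸ hc) _ a2 ?_)
    filter_upwards [t1.eventually G2, continuousAt_fst.eventually L5,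
      t1.eventually (continuousAt_fst.eventually h5)] with q k1 k2 k3 k4 k5
    refine k1 ?_
    rw [← k3, k2 k4]
    exact k5
  have mp : ∀ {a Γ}, Fam ch.o C y w ξ a Γ → _ := fun k => k.map hY (C' := crv) h5
  simp only [e0] at mp
  have hC := hx.2.2.1.nod
  by_cases hn : IsNode ch.o (crv x) c
  · obtain ⟨τ, t1, t2⟩ := h6 c (e1 ▸ hn)
    obtain ⟨a, Γ, k1, k2, k3⟩ := l1.nd hf t1 t2
    exact ⟨c, _, Γ, .refl c, fun j => mp (k1 j), .of_forall fun _ => Subtype.prop _, e1 ▸ k2, k3,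
      .inl hn⟩
  by_cases hp : ∃ n, ∃ s : ι → ℂ, c = s • x.p n
  · obtain ⟨n, s, hs⟩ := hp
    have a1 := W.an_p hY n
    obtain ⟨a, Γ, k1, k2, k3⟩ := l1.sm hf a1 (h5.mono fun r hr => hr ▸ ((Ψ r).2.2.2.2.1 n).1)
      (by rw [e0]; exact e1 ▸ (hx.2.2.2.1 n).2)
    rw [e0] at k2 k3
    refine ⟨x.p n, _, fun _ => Γ, .of_smul (crv_ne hc) hs, fun _ => mp k1,
      .of_forall fun _ => Subtype.prop _,
      k2 ▸ hC.loc_of_branch (mp k1).br (k2 ▸ (hx.2.2.2.1 n).2), fun _ => rfl,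
      .inr ⟨rfl, .inr ((k3 ?_).mono fun ε hε => .inr ⟨n, 1, hε.trans (one_smul _ _).symm⟩)⟩⟩
    exact ((W.pL n).hasFDerivAt.comp _ hY.differentiableAt.hasFDerivAt).fderiv ▸ hL.pt n
  · obtain ⟨a, Γ, k1, k2⟩ := l1.sm' hf (e1 ▸ hc) (e1 ▸ hn)
    exact ⟨c, _, fun _ => Γ, .refl c, fun _ => mp k1, .of_forall fun _ => Subtype.prop _,
      k2 ▸ hC.loc_of_branch (mp k1).br (k2 ▸ hn), fun _ => rfl,
      .inr ⟨rfl, .inl fun e => e.elim hn hp⟩⟩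

theorem fderiv_fst_ne {E F : Type*} [NormedAddCommGroup E] [NormedSpace ℂ E] [NormedAddCommGroup F]
    [NormedSpace ℂ F] {τ : Fin 1 → E → ℂ} {a : E} (b : F) (h : ∀ i, AnalyticAt ℂ (τ i) a)
    (hs : Surjective (fderiv ℂ (fun s i => τ i s) a)) :
    fderiv ℂ (τ 0 ∘ Prod.fst) (a, b) ≠ 0 := fun e => by
  obtain ⟨u, hu⟩ := hs 1
  have m1 := hasDerivAt_pi.1 (hd_comp (AnalyticAt.pi h) (hd_line a u) (by simp)) 0
  have m2 := hd_comp ((h 0).comp_of_eq (analyticAt_fst (p := (a, b))) rfl) (hd_line (a, b) (u, 0))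
    (by simp)
  rw [e] at m2
  rw [hu] at m1
  exact one_ne_zero (m1.unique m2)

theorem Lf.loc (hL : Lf x v ξ) (h : Num ch) (hx : x ∈ ch.base ν)
    (hv : v ∈ tan (Subtype.val : ch.base ν → _) ⟨x, hx⟩) {c : V ch.M} (hc : c ∈ crv x) :
    ∃ (c' : V ch.M) (a : ℂ → ch.W ν) (Γ : Bool → ℂ × ℂ → V ch.M), Orb c' c ∧
      (∀ j, Fam ch.o crv x v ξ a (Γ j)) ∧ (∀ᶠ ε in 𝓝 0, a ε ∈ ch.base ν) ∧
      Loc ch.o (crv x) c' (fun j t => Γ j (0, t)) ∧ (∀ ε, Γ true (ε, 0) = Γ false (ε, 0)) ∧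
      (IsNode ch.o (crv x) c' ∨ Γ true = Γ false ∧
        (¬Spc x c' ∨ ∀ᶠ ε in 𝓝 0, Spc (a ε) (Γ true (ε, 0)))) := by
  obtain ⟨d, C, p, _, b, ζ, κ, _, z, F, A, Ψ, -, h2, h3, h4, -, -, h5, h6⟩ := h.exists_param ⟨x, hx⟩
  refine hL.loc_of hx hv (C := fun r => C r.1) h2 h3 (LocFam.comp (π := id) (u := Prod.fst)
    (k := Prod.fst) h4 continuousAt_fst (.of_forall fun _ => continuousAt_id) analyticAt_fst
      (.of_forall fun _ => rfl)) (h5.mono fun r hr => hr.1) (fun c hn => ?_) hc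
  obtain ⟨τ, t1, t2⟩ := h6 1 (fun _ => c) (fun _ => hn) fun _ _ _ => Subsingleton.elim _ _
  exact ⟨_, NdAt.comp (π := id) (u := Prod.fst) (k := Prod.fst) (t1 0) continuousAt_fst
    analyticAt_fst (.of_forall fun _ => rfl),
    fderiv_fst_ne _ (fun i => (t1 i).choose_spec.2.1) t2⟩

variable {R : ∀ l, ch.E l →L[ℂ] Tens ch.M (ch.a l)} (hR : ∀ l e, x.Q l (R l e) = e)
  {κ : ι → ℂ} (hκ : ∀ j i, κ i = ch.a (some j) i - ch.b j i)

theorem D₂_iff {c u η η' : V ch.M} {r : ℂ} : (S₂ hR κ hκ).D v c u η η' r ↔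
    (∃ j μ, U R (some j) (x, c) (x.X j μ) ≠ 0) ∧ ∃ f : J → ℂ, ∀ j μ,
      U R (some j) (x, c) (x.X j μ) = f j * val μ c ∧
      fderiv ℂ (fun q => U R (some j) q (q.1.X j μ)) (x, c) (v, η) =
        f j * fderiv ℂ (val μ) c η + r * U R (some j) (x, c) (x.X j μ) := by
  have e : ∀ j μ, fderiv ℂ ((S₂ hR κ hκ).W j μ) (c, u) (η, η') = fderiv ℂ (val μ) c η :=
    fun j μ => (hd_comp ((S₂ hR κ hκ).aW j μ _) (hd_line (c, u) (η, η')) (by simp)).unique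
      (hd_comp (analyticAt_val μ c) (hd_line c η) (by simp))
  simp only [Sys.D, e]
  rfl

theorem exists_Lam (hK : ∀ c ∈ crv x, ∃ r, (S₂ hR κ hκ).D v c 0 (ξ c) 0 r) {c : V ch.M}
    (hc : c ∈ crv x) : ∃ Λ : V ch.M × V ch.M → ℂ, (∀ η, AnalyticAt ℂ Λ (c, η)) ∧
      ∀ᶠ y in 𝓝 c, y ∈ crv x → ∀ η, (∃ α : ι → ℂ, ξ y = α • y + η) → ∀ u η',
        (S₂ hR κ hκ).D v y u η η' (Λ (y, η)) := by
  obtain ⟨r, ⟨j, μ, h0⟩, f, h1⟩ := hK c hc
  have a0 := (S₂ hR κ hκ).ag j μ c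
  have a1 : ∀ η, AnalyticAt ℂ (fun q : V ch.M × V ch.M => (x, q.1)) (c, η) := fun η =>
    analyticAt_const.prod analyticAt_fst
  have h2 : val μ c ≠ 0 := right_ne_zero_of_mul ((h1 j μ).1 ▸ h0)
  refine ⟨fun q => (fderiv ℂ ((S₂ hR κ hκ).g j μ) (x, q.1) (v, q.2) - (S₂ hR κ hκ).g j μ (x, q.1) /
    val μ q.1 * fderiv ℂ (val μ) q.1 q.2) / (S₂ hR κ hκ).g j μ (x, q.1), fun η =>
      ((an_apply (a0.fderiv.comp_of_eq (a1 η) rfl) (analyticAt_const.prod analyticAt_snd)).sub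
        (((a0.comp_of_eq (a1 η) rfl).div (an_val analyticAt_const analyticAt_fst) h2).mul
          (an_apply ((analyticAt_val μ c).fderiv.comp_of_eq analyticAt_fst rfl) analyticAt_snd))).div
        (a0.comp_of_eq (a1 η) rfl) h0, ?_⟩
  filter_upwards [(tendsto_inr x c).eventually (a0.continuousAt.eventually_ne h0),
    (analyticAt_val μ c).continuousAt.eventually_ne h2] with y k1 k2 hy η ⟨α, e⟩ u η'
  obtain ⟨r, hr⟩ := hK y hy
  have k3 := (D₂_iff hR hκ).1 (hr.trans (s := 1) (fun _ => one_ne_zero) one_ne_zero 0 (-α) 0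
    (one_smul _ _).symm rfl (η₁ := η) (by rw [e]; simp) rfl)
  rw [D₂_iff]
  obtain ⟨k4, f, k5⟩ := k3
  refine ⟨k4, f, fun j' μ' => ⟨(k5 j' μ').1, (k5 j' μ').2.trans ?_⟩⟩
  congr 2
  refine eq_div_of_mul_eq k1 (eq_sub_of_add_eq' ((k5 j μ).2.trans ?_).symm)
  congr 2
  exact eq_div_of_mul_eq k2 (k5 j μ).1.symm

theorem Lf.lin (hL : Lf x v ξ) (h : Num ch) (hx : x ∈ ch.base ν)
    (hv : v ∈ tan (Subtype.val : ch.base ν → _) ⟨x, hx⟩)
    (hb : Bijective fun l : ι → ℂ => (∑ i, (ch.χ i : ℂ) * l i, ∑ i, κ i * l i))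
    (hK : ∀ c ∈ crv x, ∃ r, (S₂ hR κ hκ).D v c 0 (ξ c) 0 r) :
    ∃ A : ∀ i, (Fin (ch.M i) → ℂ) →L[ℂ] (Fin (ch.M i) → ℂ),
      (∀ c ∈ crv x, ∃ α : ι → ℂ, ξ c = α • c + fun i => A i (c i)) ∧
      ∀ c ∈ crv x, ∃ γ, IsBranch ch.o (crv x) γ ∧ Orb (γ 0) c ∧ ∀ᶠ t in 𝓝[≠] 0,
        (S₁ hR).D v (γ t) (deriv γ t) (fun i => A i (γ t i)) (fun i => A i (deriv γ t i)) 0 ∧
        (S₂ hR κ hκ).D v (γ t) (deriv γ t) (fun i => A i (γ t i))
          (fun i => A i (deriv γ t i)) 0 := by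
  refine glue hx.2.2.1 hL.hom hb fun c hc => ?_
  obtain ⟨c', a, Γ, h1, h2, h3, h4, h5, h6⟩ := hL.loc h hx hv hc
  obtain ⟨Λ, Λ1, Λ2⟩ := exists_Lam hR hκ hK h4.mem
  have e1 : fderiv ℂ (Γ true) (0, 0) (1, 0) = fderiv ℂ (Γ false) (0, 0) (1, 0) :=
    (dv_fst (h2 true).an).unique ((dv_fst (h2 false).an).congr_of_eventuallyEq (.of_forall h5))
  obtain ⟨f, f1, f2, f3, f4⟩ : ∃ f : Bool → ℂ × ℂ → ℂ, (∀ j, AnalyticAt ℂ (f j) (0, 0)) ∧
      (∀ j, f j (0, 0) ≠ 0) ∧ (∀ j, ∀ᶠ t in 𝓝[≠] 0, (S₁ hR).D v (Γ j (0, t))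
        (deriv (fun t => Γ j (0, t)) t) (fderiv ℂ (Γ j) (0, t) (1, 0))
        (deriv (fun t => fderiv ℂ (Γ j) (0, t) (1, 0)) t)
        (fderiv ℂ (f j) (0, t) (1, 0) / f j (0, t))) ∧
      fderiv ℂ (f true) (0, 0) (1, 0) / f true (0, 0) =
        fderiv ℂ (f false) (0, 0) (1, 0) / f false (0, 0) := by
    rcases h6 with h6 | ⟨h6, h7⟩
    · have k1 := (h2 true).ev_cross (h2 false) h5 (by
        rw [h4.zero true]; exact h4.alt.resolve_left (h4.isNode_iff.1 h6))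
      choose f f1 f2 f3 f4 using fun j => lead_fam hR (h2 j) h3 (.inr (k1.mono fun ε hε => by
        cases j
        exacts [.inl ⟨_, _, h5 ε ▸ hε⟩, .inl ⟨_, _, hε⟩]))
      have k2 : ∀ᶠ ε in 𝓝 (0 : ℂ), f true (ε, 0) = (-1) ^ ch.k * f false (ε, 0) := by
        filter_upwards [k1, h3, f4 true (.inl (h4.zero true ▸ h6)),
          f4 false (.inl (h4.zero false ▸ h6))] with ε m1 m2 m3 m4
        exact m2.2.2.2.2.2.2 _ _ _ _ _ m1 m3 m4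
      refine ⟨f, f1, f2, f3, ?_⟩
      rw [(dv_fst (f1 true)).unique (((dv_fst (f1 false)).const_mul _).congr_of_eventuallyEq k2),
        k2.self_of_nhds, mul_div_mul_left _ _ (pow_ne_zero _ (neg_ne_zero.2 one_ne_zero))]
    · obtain ⟨f, f1, f2, f3, -⟩ := lead_fam hR (h2 true) h3 (h4.zero true ▸ h7)
      exact ⟨fun _ => f, fun _ => f1, fun _ => f2, fun j => by cases j; exacts [h6 ▸ f3, f3], rfl⟩
  have a0 : AnalyticAt ℂ (fun t : ℂ => ((0 : ℂ), t)) 0 := analyticAt_const.prod analyticAt_id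
  refine ⟨c', _, h1, h4, fun j t => fderiv ℂ (Γ j) (0, t) (1, 0),
    fun j t => (fderiv ℂ (f j) (0, t) (1, 0) / f j (0, t),
      Λ (Γ j (0, t), fderiv ℂ (Γ j) (0, t) (1, 0))), fun j => (h2 j).rp, fun j =>
    (((an_pd (f1 j) _).comp_of_eq a0 rfl).div ((f1 j).comp_of_eq a0 rfl) (f2 j)).prod
      ((Λ1 _).comp_of_eq ((h4.an j).prod (h2 j).rp.1) (Prod.ext (h4.zero j) rfl)), e1,
    by simp only [f4, e1, h5], fun j => ?_⟩
  filter_upwards [f3 j, mem_nhdsWithin_of_mem_nhds ((((h4.tendsto j).mono_right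
    nhdsWithin_le_nhds).eventually Λ2).and ((h4.br j).mem.and (h2 j).rep))] with t k1 k2
  exact ⟨k1, k2.1 k2.2.1 _ k2.2.2 _ _⟩

omit hR hκ in
theorem van_of {l : Option J} (hx : x ∈ ch.base ν) {μ : Tens ch.M (ch.a l)}
    (h : ∀ c ∈ crv x, ∃ γ, IsBranch ch.o (crv x) γ ∧ Orb (γ 0) c ∧
      ∀ᶠ t in 𝓝[≠] 0, val μ (γ t) = 0) : x.Q l μ = 0 := by
  refine hx.2.1 l μ fun c hc => ?_
  obtain ⟨γ, h1, ⟨s, -, rfl⟩, h2⟩ := h c hc
  rw [val_smul, Rel.eq_zero (f := fun t => val μ (γ t)) (an_val analyticAt_const h1.holo)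
    analyticAt_const h2, mul_zero]

theorem hd_at {E B H : Type*} [NormedAddCommGroup E] [NormedSpace ℂ E] [NormedAddCommGroup B]
    [NormedSpace ℂ B] [NormedAddCommGroup H] [NormedSpace ℂ H] {F : E → B} {p : E}
    (hF : AnalyticAt ℂ F p) (v : E) (Z : B →L[ℂ] H) :
    HasDerivAt (fun ε : ℂ => Z (F (p + ε • v))) (Z (fderiv ℂ F p v)) 0 :=
  Z.hasFDerivAt.comp_hasDerivAt _ (hd_comp hF (hd_line p v) (by simp))

variable (ν) in
/-- The infinitesimal substitution. -/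
noncomputable def ds (A : ∀ i, (Fin (ch.M i) → ℂ) →L[ℂ] (Fin (ch.M i) → ℂ)) {σ : Type} [Fintype σ]
    (τ : σ → ι) : Tn ch.M τ →L[ℂ] Tn ch.M τ :=
  fderiv ℂ (fun s : ch.A ν => sub s τ) 1 (A, 0, 0)

theorem hd_sub (a : ch.A ν) {σ : Type} [Fintype σ] {τ : σ → ι} (μ : Tn ch.M τ) {H : Type*}
    [NormedAddCommGroup H] [NormedSpace ℂ H] (Z : Tn ch.M τ →L[ℂ] H) :
    HasDerivAt (fun ε : ℂ => Z (sub (1 + ε • a) τ μ)) (Z (ds ν a.1 τ μ)) 0 :=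
  hd_at (p := (1 : ch.A ν)) (an_sub analyticAt_id τ) (a.1, 0, 0) (Z ∘L .apply ℂ _ μ)

theorem val_ds (A : ∀ i, (Fin (ch.M i) → ℂ) →L[ℂ] (Fin (ch.M i) → ℂ)) {b : ι → ℕ} (μ : Tens ch.M b)
    (c : V ch.M) : val (ds ν A _ μ) c = fderiv ℂ (val μ) c fun i => A i (c i) :=
  (hd_sub (ν := ν) (A, 0, 0) μ (evL b c)).unique
    (hd_comp (analyticAt_val μ c) (hd_line c fun i => A i (c i)) (by simp))

theorem wedge_ds (A : ∀ i, (Fin (ch.M i) → ℂ) →L[ℂ] (Fin (ch.M i) → ℂ)) (μ : Tn ch.M ch.slot)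
    (c u : V ch.M) :
    wedge (ds ν A _ μ) c u = fderiv ℂ (fun q : V ch.M × V ch.M => wedge μ q.1 q.2) (c, u)
      (fun i => A i (c i), fun i => A i (u i)) := by
  refine (wedgeL_apply c u _).symm.trans ((hd_sub (ν := ν) (A, 0, 0) μ (wedgeL c u)).unique
    ((hd_comp (an_wedge analyticAt_const analyticAt_fst analyticAt_snd)
      (hd_line (c, u) _) (by simp)).congr_of_eventuallyEq (.of_forall fun ε => ?_)))
  exact (wedgeL_apply c u _).trans (wedge_sub _ μ c u)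

theorem fderiv_act (a : ch.A ν) (x : ch.W ν) : fderiv ℂ (act · x) 1 a =
    W.mk' (fun l => a.2.1 l ∘L x.Q l + x.Q l ∘L ds ν a.1 _)
      (fun n => a.2.2 n • x.p n + fun i => a.1 i (x.p n i)) (a.2.1 none ∘L x.Ξ + x.Ξ ∘L ds ν a.1 _)
      fun j => a.2.1 (some j) ∘L x.X j + x.X j ∘L ds ν a.1 _ := by
  have a0 : AnalyticAt ℂ (act · x) (1 : ch.A ν) := an_act analyticAt_id analyticAt_const
  have d1 : ∀ l {σ : Type} [Fintype σ] (τ : σ → ι) (Z : Tn ch.M τ →L[ℂ] ch.E l) μ,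
      HasDerivAt (fun ε : ℂ => (1 + ε • a).2.1 l (Z (sub (1 + ε • a) τ μ)))
        (a.2.1 l (Z μ) + Z (ds ν a.1 τ μ)) 0 := fun l σ _ τ Z μ => by
    have e : sub (1 + (0 : ℂ) • a) τ μ = μ := ContinuousMultilinearMap.ext fun m =>
      congrArg μ (funext fun r => show m r + (0 : ℂ) • a.1 (τ r) (m r) = m r by simp)
    have := (hd_sub a μ Z).add ((hasDerivAt_id (0 : ℂ)).smul (hd_sub a μ (a.2.1 l ∘L Z)))
    rw [e, id, zero_smul, zero_add, one_smul, add_comm (Z _)] at this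
    exact this
  refine W.ext (fun l => ContinuousLinearMap.ext fun μ =>
      (hd_at a0 a (.apply ℂ _ μ ∘L W.QL l)).unique (d1 l _ (x.Q l) μ))
    (fun n => (hd_at a0 a (W.pL n)).unique ?_)
    (ContinuousLinearMap.ext fun μ => (hd_at a0 a (.apply ℂ _ μ ∘L W.XiL)).unique (d1 none _ x.Ξ μ))
    fun j => ContinuousLinearMap.ext fun μ =>
      (hd_at a0 a (.apply ℂ _ μ ∘L W.XL j)).unique (d1 _ _ (x.X j) μ)
  have := hasDerivAt_smul (hd_line 1 (a.2.2 n)) (hd_line (x.p n) fun i => a.1 i (x.p n i))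
  simp only [zero_smul, add_zero, one_smul] at this
  exact this

/-- A lift along which the map is constant to first order comes from the Lie algebra. -/
theorem Lf.ker (hL : Lf x v ξ) (h : Num₀ ch) (hx : x ∈ ch.base ν)
    (hv : v ∈ tan (Subtype.val : ch.base ν → _) ⟨x, hx⟩)
    (hb : Bijective fun l : ι → ℂ => (∑ i, (ch.χ i : ℂ) * l i, ∑ i, κ i * l i))
    (hK : ∀ c ∈ crv x, ∃ r, (S₂ hR κ hκ).D v c 0 (ξ c) 0 r) :
    ∃ a : ch.A ν, v = fderiv ℂ (act · x) 1 a ∧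
      ∀ c ∈ crv x, ∃ α : ι → ℂ, ξ c = α • c + fun i => a.1 i (c i) := by
  rcases (crv x).eq_empty_or_nonempty with e | e
  · have := (h.empty hx e).2.2.2.2.2
    exact ⟨0, Subsingleton.elim _ _, fun c hc => absurd (e ▸ hc) (notMem_empty c)⟩
  obtain ⟨A, h1, h2⟩ := hL.lin hR hκ (h.num hx e) hx hv hb hK
  choose α hα using hL.pt
  choose β hβ using fun n => h1 _ (hx.2.2.2.1 n).1
  let a : ch.A ν := (A, fun l => (v.Q l - x.Q l ∘L ds ν A _) ∘L R l, fun n => β n - α n)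
  have e1 : ∀ l (Z : ch.W ν →L[ℂ] ch.E l) (z : ch.E l), (∀ c ∈ crv x, ∃ γ,
      IsBranch ch.o (crv x) γ ∧ Orb (γ 0) c ∧ ∀ᶠ t in 𝓝[≠] 0,
        fderiv ℂ (fun q => U R l q (Z q.1)) (x, γ t) (v, fun i => A i (γ t i)) =
          U R l (x, γ t) z) → Z v = a.2.1 l (Z x) + z := fun l Z z k => by
    have := van_of hx (μ := ds ν A _ (R l (Z x)) + R l (Z v - v.Q l (R l (Z x))) - R l z)
      fun c hc => (k c hc).imp fun γ k1 => ⟨k1.1, k1.2.1, k1.2.2.mono fun t k2 => by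
        rw [Base.val_sub, val_add, val_ds, ← fderiv_U hR, k2, U_self hR, sub_self]⟩
    simp only [map_sub, map_add, hR] at this
    change Z v = v.Q l (R l (Z x)) - x.Q l (ds ν A _ (R l (Z x))) + z
    linear_combination (norm := module) this
  refine ⟨a, ?_, h1⟩
  rw [fderiv_act]
  refine W.ext (fun l => ContinuousLinearMap.ext fun μ => ?_) (fun n => ?_)
    (ContinuousLinearMap.ext fun μ => e1 none (.apply ℂ _ μ ∘L W.XiL) _ fun c hc => ?_)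
    fun j => ContinuousLinearMap.ext fun μ => e1 _ (.apply ℂ _ μ ∘L W.XL j) _ fun c hc => ?_
  · have k1 : x.Q l (R l (v.Q l (μ - R l (x.Q l μ))) - ds ν A _ (μ - R l (x.Q l μ))) = 0 := by
      refine hx.2.1 l _ fun c hc => ?_
      obtain ⟨s, hs⟩ := h1 c hc
      have k2 := (Q_eq_zero hx).1 (show x.Q l (μ - R l (x.Q l μ)) = 0 by simp [hR]) c hc
      have a1 := an_UZ hR (.apply ℂ _ (μ - R l (x.Q l μ)) ∘L W.QL l) c
      have a2 : AnalyticAt ℂ (fun q : ch.W ν × V ch.M => val (μ - R l (x.Q l μ)) q.2) (x, c) :=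
        an_val analyticAt_const analyticAt_snd
      have k3 := hL.tg c hc _ (a1.sub a2) ((continuousAt_fst.eventually (U_gr hR)).mono
        fun q hq _ m => by
          obtain ⟨u, hu⟩ := mem_crv.1 m
          exact sub_eq_zero.2 ((hq _ u hu l _).trans (hu.2 l _)))
      rw [fderiv_sub a1.differentiableAt a2.differentiableAt, _root_.sub_apply,
        fderiv_U hR, (hd_comp a2 (hd_line (x, c) (v, ξ c)) (by simp)).unique
          (hd_comp (analyticAt_val _ c) (hd_line c (ξ c)) (by simp)), hs, map_add, map_add,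
        Pol.euler (val_mem (μ - R l (x.Q l μ))), k2, ← val_ds (ν := ν) A (μ - R l (x.Q l μ))] at k3
      simpa [hR, show val (0 : Tens ch.M (ch.a l)) = fun _ => 0 from rfl] using k3
    simp only [map_sub, hR] at k1
    change v.Q l μ = v.Q l (R l (x.Q l μ)) - x.Q l (ds ν A _ (R l (x.Q l μ))) + x.Q l (ds ν A _ μ)
    linear_combination (norm := module) k1
  · change v.p n = (β n - α n) • x.p n + fun i => A i (x.p n i)
    rw [sub_smul]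
    linear_combination (norm := module) hβ n - hα n
  · refine (h2 c hc).imp fun γ k1 => ⟨k1.1, k1.2.1, k1.2.2.mono fun t ⟨⟨_, f, k2⟩, _⟩ => ?_⟩
    refine (k2 () μ).2.trans (Eq.trans ?_ (k2 () (ds ν A _ μ)).1.symm)
    rw [zero_mul, add_zero]
    exact congrArg _ (wedge_ds A μ _ _).symm
  · refine (h2 c hc).imp fun γ k1 => ⟨k1.1, k1.2.1, k1.2.2.mono fun t ⟨_, k⟩ => ?_⟩
    obtain ⟨-, f, k2⟩ := (D₂_iff hR hκ).1 k
    refine (k2 j μ).2.trans (Eq.trans ?_ (k2 j (ds ν A _ μ)).1.symm)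
    rw [zero_mul, add_zero]
    exact congrArg _ (val_ds A μ _).symm

end Vale.Agent.P269L.Ker
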