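import Vale.Agent.P269L.I.KsB
import Vale.Agent.P269.Cv.Norm

/-!
# The Kodaira-Spencer bound: at most `3 g - 3 + n` conditions for lifting tangent vectors
-/

open Set Function Topology Filter Module
open Vale.Agent.P269 Vale.Agent.P269.Base Vale.Agent.P269.Holo Vale.Agent.P269.Cv

namespace Vale.Agent.P269L.I.Ks

variable {ι : Type} [Fintype ι] {M : ι → ℕ} {o : ι} {W : Type*} [NormedAddCommGroup W]
  [NormedSpace ℂ W] {ν : Type} [Fintype ν] {S : Set W} {C : W → Set (V M)} {p : W → ν → V M}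
  {x : W}

variable (S C p x) in
/-- `ξ` is a vector field along the curve `C x` that lifts the tangent vector `v` of the base `S` to
the family of pointed curves -/
structure Lift (v : W) (ξ : V M → V M) : Prop where
  hom : ∀ c ∈ C x, ∀ s : ι → ℂ, (∀ i, s i ≠ 0) → ξ (s • c) = s • ξ c
  hol : ∀ γ : ℂ → V M, AnalyticAt ℂ γ 0 → (∀ᶠ t in 𝓝 0, γ t ∈ C x) → ∃ η : ℂ → V M,
    AnalyticAt ℂ η 0 ∧ ∀ᶠ t in 𝓝 0, ∃ α : ι → ℂ, ξ (γ t) = α • γ t + η t
  tg : ∀ c ∈ C x, (v, ξ c) ∈ TgA {q : W × V M | q.1 ∈ S ∧ q.2 ∈ C q.1} (x, c)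
  mrk : ∀ n, ∃ α : ι → ℂ, ξ (p x n) = α • p x n + fderiv ℂ p x v n

variable {X : Type} [TopologicalSpace X] [T2Space X] [CompactSpace X] {R : RS X}
  {N : Finset (X × X)} {A : ι → LB R} {π : X → V M}

/-- extension of vector fields from the normalisation to the multicone -/
theorem exists_ext {C₀ : Set (V M)} (h : Par o C₀ N A π) :
    ∃ e : (X → V M) →ₗ[ℂ] V M → V M, ∀ Ξ : X → V M, (∀ n ∈ N, Ξ n.1 = Ξ n.2) →
      ∀ y (t : ι → ℂ), (∀ i, t i ≠ 0) → e Ξ (t • π y) = t • Ξ y := by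
  classical
  choose y t ht he using fun c : C₀ => (h.img c).1 c.2
  refine ⟨LinearMap.pi fun c => if a : c ∈ C₀ then
    DistribSMul.toLinearMap ℂ _ (t ⟨c, a⟩) ∘ₗ .proj (y ⟨c, a⟩) else 0, fun Ξ a z s hs => ?_⟩
  have b := h.smul_mem z hs
  have c : s • π z = t ⟨_, b⟩ • π (y ⟨_, b⟩) := he ⟨_, b⟩
  have d := h.fibre hs c
  rw [LinearMap.pi_apply, dif_pos b]
  change t ⟨_, b⟩ • Ξ (y ⟨_, b⟩) = _
  rw [← h.π_eq d] at c
  rw [← Dict.smul_cancel (h.ne z) c]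
  congr 1
  rcases d with d | d | d
  exacts [congrArg Ξ d.symm, (a _ d).symm, a _ d]

variable {P : Type*} [NormedAddCommGroup P] [NormedSpace ℂ P] [FiniteDimensional ℂ P] {y₀ : P}

theorem ks_par {Ψ : P → W} (hΨ : AnalyticAt ℂ Ψ y₀) (h0 : Ψ y₀ = x) (hS : ∀ᶠ y in 𝓝 y₀, Ψ y ∈ S)
    (hi : Injective (fderiv ℂ Ψ y₀)) (hC : LocFam o (fun y => C (Ψ y)) id y₀)
    (h : Par o (C x) N A π) (hp : AnalyticAt ℂ p x) (hm : ∀ᶠ y in 𝓝 y₀, ∀ n, p (Ψ y) n ∈ C (Ψ y))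
    (hn : ∀ n, ¬IsNode o (C x) (p x n)) (hd : ∀ n n', ∀ s : ι → ℂ, p x n = s • p x n' → n = n') :
    ∃ T : Submodule ℂ (W × (V M → V M)), FiniteDimensional ℂ T ∧
      (finrank ℂ P : ℤ) ≤ finrank ℂ T + (3 * gen R N - 3 + Fintype.card ν) ∧ ∀ z ∈ T,
        z.1 ∈ LinearMap.range (fderiv ℂ Ψ y₀ : P →ₗ[ℂ] W) ∧ Lift S C p x z.1 z.2 ∧
        (z.1 = 0 → (∀ c ∈ C x, ∃ α : ι → ℂ, z.2 c = α • c) → z = 0) := by
  classical
  subst h0
  let C' : P → Set (V M) := fun y => C (Ψ y)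
  choose Λ l l1 l2 using fun c : C' y₀ => exists_lift hC c.2
  choose q t ht hq using fun n => (h.img _).1 (hm.self_of_nhds n)
  have q1 (n) : Sm N (q n) := not_not.1 fun a => hn n (hq n ▸ (h.isNode_iff (ht n)).2 a)
  have q2 : Injective q := fun n n' a => hd n n' (t n * (t n')⁻¹) (by
    rw [mul_smul, hq n', Dict.inv_smul (ht n'), ← a, ← hq n])
  let Z : Submodule ℂ P := LinearMap.ker (LinearMap.pi fun n : N => l ⟨π n.1.1, h.mem _⟩)
  have z1 : finrank ℂ P ≤ finrank ℂ Z + N.card := by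
    have a := (LinearMap.pi fun n : N => l ⟨π n.1.1, h.mem _⟩).finrank_range_add_finrank_ker
    have b := (LinearMap.range (LinearMap.pi fun n : N => l ⟨π n.1.1, h.mem _⟩)).finrank_le
    rw [finrank_fintype_fun_eq_card, Fintype.card_coe] at b
    change _ + finrank ℂ Z = _ at a
    omega
  have z2 (v : Z) (y) : l ⟨π y, h.mem y⟩ v = 0 := by
    by_cases a : Sm N y
    · rw [l1 ⟨π y, h.mem y⟩ (by
        have := (h.isNode_iff (x := y) (t := 1) fun _ => one_ne_zero).not.2 (not_not.2 a)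
        rwa [one_smul] at this)]
      rfl
    · obtain ⟨n, b, c⟩ := not_sm.1 a
      have : π y = π n.1 := by
        rcases c with c | c
        exacts [c ▸ rfl, c ▸ (node_eq h.sec b).symm]
      simp only [this]
      exact congrFun v.2 ⟨n, b⟩
  have z3 (v : Z) (y) : ∀ᶠ s in 𝓝 0,
      (v.1, Λ ⟨π y, h.mem y⟩ v (br A π y s)) ∈ TgA (Tot C') (y₀, br A π y s) := by
    have a := (an_br h.sec y).continuousAt.tendsto
    rw [br_zero] at a
    exact (a.eventually ((l2 ⟨π y, h.mem y⟩ v).2 (z2 v y))).mono fun s b => b (h.br_mem y s)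
  -- the velocities of the marked points
  have pa : AnalyticAt ℂ (fun y => p (Ψ y)) y₀ := hp.comp hΨ
  have m1 (v : P) (n) : (v, (t n)⁻¹ • fderiv ℂ p (Ψ y₀) (fderiv ℂ Ψ y₀ v) n) ∈
      TgA (Tot C') (y₀, π (q n)) := by
    have d : HasFDerivAt (fun y => p (Ψ y) n) _ y₀ := hasFDerivAt_pi'.1
      (hp.differentiableAt.hasFDerivAt.comp y₀ hΨ.differentiableAt.hasFDerivAt) n
    have a := TgA_map (S := univ) (S' := Tot C') (F := fun y => (y, p (Ψ y) n))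
      (analyticAt_id.prod (analyticAt_pi_iff.1 pa n)) (hm.mono fun y a _ => a n)
      (line_TgA (u := v) (.of_forall fun _ => trivial))
    rw [HasFDerivAt.fderiv (f := fun y => (y, p (Ψ y) n)) ((hasFDerivAt_id y₀).prodMk d)] at a
    have b := tg_smul hC (s := (t n)⁻¹) (fun i => inv_ne_zero (ht n i)) a
    rwa [hq n, Dict.inv_smul (ht n)] at b
  choose k k1 k2 using fun y => exists_dual (h.imm y)
  let m : ν → Z →ₗ[ℂ] V M := fun n => LinearMap.proj (π (q n)) ∘ₗ Λ ⟨π (q n), h.mem _⟩ ∘ₗ Z.subtype -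
    DistribSMul.toLinearMap ℂ _ (t n)⁻¹ ∘ₗ LinearMap.proj n ∘ₗ
      (fderiv ℂ p (Ψ y₀) : W →ₗ[ℂ] ν → V M) ∘ₗ (fderiv ℂ Ψ y₀ : P →ₗ[ℂ] W) ∘ₗ Z.subtype
  have me (n) (v : Z) : m n v = Λ ⟨π (q n), h.mem _⟩ v (π (q n)) -
    (t n)⁻¹ • fderiv ℂ p (Ψ y₀) (fderiv ℂ Ψ y₀ v) n := rfl
  let b : X → Z →ₗ[ℂ] ℂ := extend q (fun n => k (q n) ∘ₗ .proj o ∘ₗ m n) 0
  let lam : X → Z →ₗ[ℂ] ℂ → V M := fun y => LinearMap.pi fun s =>
    LinearMap.proj (br A π y s) ∘ₗ Λ ⟨π y, h.mem y⟩ ∘ₗ Z.subtype -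
      LinearMap.toSpanSingleton ℂ _ (deriv (br A π y) s) ∘ₗ b y
  have le (y v s) : lam y v s = Λ ⟨π y, h.mem y⟩ v (br A π y s) - b y v • deriv (br A π y) s := rfl
  have s1 (n) (c : n ∈ N) : n.1 ∈ N.image Prod.fst ∪ N.image Prod.snd ∪ Finset.univ.image q :=
    Finset.mem_union_left _ (Finset.mem_union_left _ (Finset.mem_image_of_mem _ c))
  have s2 (n) (c : n ∈ N) : n.2 ∈ N.image Prod.fst ∪ N.image Prod.snd ∪ Finset.univ.image q :=
    Finset.mem_union_left _ (Finset.mem_union_right _ (Finset.mem_image_of_mem _ c))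
  obtain ⟨T, Ξ, a1, a2, a3⟩ := glue_lift hC h
    (N.image Prod.fst ∪ N.image Prod.snd ∪ Finset.univ.image q)
    (fun y a n c => ⟨fun d => a (d ▸ s1 n c), fun d => a (d ▸ s2 n c)⟩) Z lam
    (fun y v => ((l2 ⟨π y, h.mem y⟩ v).1.comp_of_eq (an_br h.sec y) (br_zero y)).sub
      (analyticAt_const.smul (an_br h.sec y).deriv))
    fun y v => ((z3 v y).and (tg_der (C := C') (h.isBranch y).holo (h.isBranch y).mem)).mono
      fun s a => by simpa [le] using sub_mem a.1 (Submodule.smul_mem _ (b y v) a.2)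
  obtain ⟨e, he⟩ := exists_ext h
  have nd (z) (hz : z ∈ T) (n) (c : n ∈ N) : Ξ z n.1 = Ξ z n.2 := by
    have b0 (y) (a : ¬Sm N y) : b y = 0 := extend_apply' _ _ _ fun ⟨n, d⟩ => a (d ▸ q1 n)
    rw [(a3 z hz).2.2.1 _ (s1 n c), (a3 z hz).2.2.1 _ (s2 n c), le, le,
      b0 _ fun a => (a n c).1 rfl, b0 _ fun a => (a n c).2 rfl, br_zero, br_zero]
    simp [node_eq h.sec c]
  let G : (Z × (X → ℂ)) →ₗ[ℂ] W × (V M → V M) :=
    ((fderiv ℂ Ψ y₀ : P →ₗ[ℂ] W) ∘ₗ Z.subtype ∘ₗ LinearMap.fst ℂ _ _).prod (e ∘ₗ Ξ)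
  have g0 (z) (hz : z ∈ T) (c : (G z).1 = 0) (d : ∀ c ∈ C (Ψ y₀), ∃ α : ι → ℂ, (G z).2 c = α • c) :
      z = 0 := (a3 z hz).2.2.2 (Subtype.ext (hi (c.trans (map_zero _).symm))) fun y => by
    obtain ⟨α, a⟩ := d _ (h.mem y)
    have := he _ (nd z hz) y 1 fun _ => one_ne_zero
    rw [one_smul, one_smul] at this
    exact ⟨α, this.symm.trans a⟩
  refine ⟨T.map G, inferInstance, ?_, ?_⟩
  · have c1 : finrank ℂ (T.map G) = finrank ℂ T := by
      rw [← LinearMap.range_domRestrict]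
      refine LinearMap.finrank_range_of_inj ((injective_iff_map_eq_zero _).2 fun z a =>
        Subtype.ext (g0 z z.2 (congrArg Prod.fst a) fun c _ => ⟨0, ?_⟩))
      rw [zero_smul]
      exact congrFun (congrArg Prod.snd a) c
    have c2 := Finset.card_union_le (N.image Prod.fst ∪ N.image Prod.snd) (Finset.univ.image q)
    have c3 := Finset.card_union_le (N.image Prod.fst) (N.image Prod.snd)
    have c4 := Finset.card_image_le (s := N) (f := Prod.fst)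
    have c5 := Finset.card_image_le (s := N) (f := Prod.snd)
    have c6 := Finset.card_image_le (s := Finset.univ) (f := q)
    rw [Finset.card_univ] at c6
    rw [c1, gen]
    omega
  rintro _ ⟨z, hz, rfl⟩
  have ge (y) (s : ι → ℂ) (hs : ∀ i, s i ≠ 0) : (G z).2 (s • π y) = s • Ξ z y :=
    he _ (nd z hz) y s hs
  refine ⟨⟨z.1, rfl⟩, ⟨fun c hc s hs => ?_, fun γ c d => ?_, fun c hc => ?_, fun n => ?_⟩,
    fun c d => by rw [g0 z hz c d, map_zero]⟩
  · obtain ⟨y, u, hu, rfl⟩ := (h.img c).1 hc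
    rw [smul_smul, ge y u hu, ge y (s * u) fun i => mul_ne_zero (hs i) (hu i), mul_smul]
  · obtain ⟨y, s, φ, s1, s2, f1, f2, f3⟩ := h.factor c d
    obtain ⟨η, e1, e2⟩ := (a3 z hz).1 y
    have f4 : Tendsto φ (𝓝 0) (𝓝 0) := by simpa [ContinuousAt, f2] using f1.continuousAt
    refine ⟨fun u => s u • η (φ u), an_smul s1 (e1.comp_of_eq f1 f2), ?_⟩
    filter_upwards [f3, f4.eventually e2, eventually_all.2 fun i =>
      (continuousAt_pi.1 s1.continuousAt i).eventually_ne (s2 i)] with u u1 ⟨α, u2⟩ u3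
    refine ⟨α, ?_⟩
    rw [u1, br_eq, smul_smul, ge _ (s u * fun i => ((A i).φ y (R.i y (φ u)))⁻¹) fun i =>
      mul_ne_zero (u3 i) (inv_ne_zero ((A i).ne _ _)), u2]
    ext i j
    have := (A i).ne y (R.i y (φ u))
    simp only [Pi.add_apply, Dict.smul_ap, Pi.smul_apply, smul_eq_mul, Pi.mul_apply]
    field_simp
  · obtain ⟨y, u, hu, rfl⟩ := (h.img c).1 hc
    have d := TgA_map (S' := {q : W × V M | q.1 ∈ S ∧ q.2 ∈ C q.1}) (F := fun q => (Ψ q.1, q.2))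
      ((hΨ.comp_of_eq analyticAt_fst rfl).prod analyticAt_snd)
      ((continuousAt_fst.eventually hS).mono fun q a b => ⟨a, b⟩)
      (tg_smul hC hu ((a3 z hz).2.1 y))
    rw [HasFDerivAt.fderiv (f := fun q : P × V M => (Ψ q.1, q.2)) ((HasFDerivAt.comp (f := Prod.fst)
      (y₀, u • π y) hΨ.differentiableAt.hasFDerivAt hasFDerivAt_fst).prodMk hasFDerivAt_snd)] at d
    rw [ge y u hu]
    exact d
  · have c := (z3 z.1 (q n)).self_of_nhds
    rw [br_zero] at c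
    obtain ⟨α, a, d⟩ := vert (w := m n z.1) hC (h.isBranch (q n)) (by
      rw [br_zero, ← one_smul (ι → ℂ) (π (q n)), h.isNode_iff (t := 1) fun _ => one_ne_zero]
      exact not_not.2 (q1 n)) (by simpa [br_zero, me] using sub_mem c (m1 z.1 n))
    have f : b (q n) z.1 = a := by
      rw [show b (q n) = _ from q2.extend_apply _ _ n]
      change k (q n) (m n z.1 o) = a
      simp [d, br_zero, k1, k2]
    refine ⟨α, ?_⟩
    rw [hq n, ge _ _ (ht n), (a3 z hz).2.2.1 _ (by simp), le, f, br_zero,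
      sub_eq_iff_eq_add.1 ((me n z.1).symm.trans d), br_zero, add_right_comm, add_sub_cancel_right,
      smul_add, smul_comm, Dict.smul_inv (ht n)]
    rfl

/-- **The Kodaira-Spencer bound** for a family of pointed nodal curves over a manifold `S`. -/
theorem ks {d : ℕ} {g : ℤ} {m : ι → ℤ} (hS : MfdAt S d x)
    (hC : LocFam o (fun y : S => C y) Subtype.val ⟨x, hS.mem⟩) (h : IsCurve o g m (C x))
    (hp : AnalyticAt ℂ p x) (hm : ∀ᶠ y in 𝓝 x, y ∈ S → ∀ n, p y n ∈ C y)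
    (hn : ∀ n, ¬IsNode o (C x) (p x n)) (hd : ∀ n n', ∀ s : ι → ℂ, p x n = s • p x n' → n = n') :
    ∃ T : Submodule ℂ (W × (V M → V M)), FiniteDimensional ℂ T ∧
      (d : ℤ) ≤ finrank ℂ T + (3 * g - 3 + Fintype.card ν) ∧ ∀ z ∈ T,
        z.1 ∈ TgA S x ∧ Lift S C p x z.1 z.2 ∧
        (z.1 = 0 → (∀ c ∈ C x, ∃ α : ι → ℂ, z.2 c = α • c) → z = 0) := by
  obtain ⟨ψ, h1, h2⟩ := hS.isMfd hS.mem
  obtain ⟨X, _, _, _, R, N, A, π, h3⟩ := h.isNodal.exists_par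
  have h0 : (ψ 0).1 = x := congrArg Subtype.val h2
  have c := h1.an.continuousAt.tendsto
  rw [h0] at c
  obtain ⟨T, a1, a2, a3⟩ := ks_par (S := S) (p := p) h1.an h0 (.of_forall fun y => (ψ y).2)
    h1.injective (LocFam.comp (u := ψ) (h2.symm ▸ hC) h1.lh.cont
      (.of_forall fun _ => continuousAt_id) h1.an (.of_forall fun _ => rfl)) h3 hp
    ((c.eventually hm).mono fun y a => a (ψ y).2) hn hd
  rw [(h3.numbers h).1, finrank_fintype_fun_eq_card, Fintype.card_fin] at a2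
  refine ⟨T, a1, a2, fun z hz => ⟨?_, (a3 z hz).2⟩⟩
  obtain ⟨v, e⟩ := (a3 z hz).1
  exact e ▸ h0 ▸ TgA_map (S := univ) h1.an (.of_forall fun y _ => (ψ y).2)
    (line_TgA (.of_forall fun _ => trivial))

end Vale.Agent.P269L.I.Ks
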