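import Vale.Agent.P269.Holo.Set
import Vale.Agent.P269.Base.Fam

/-!
# Local lifts of tangent vectors of the base to a family of nodal curves
-/

open Set Function Topology Filter Module
open Vale.Agent.P269 Vale.Agent.P269.Base Vale.Agent.P269.Holo

namespace Vale.Agent.P269L.I.Ks

section Tg

variable {E E' : Type*} [NormedAddCommGroup E] [NormedSpace ℂ E] [NormedAddCommGroup E']
  [NormedSpace ℂ E'] {S : Set E} {S' : Set E'} {a u : E} {c : ℂ → E}

/-- the span of the velocities of the arcs in `S` through `a` -/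
def TgA (S : Set E) (a : E) : Submodule ℂ E :=
  Submodule.span ℂ {u | ∃ c, Arc S a c ∧ deriv c 0 = u}

theorem mem_TgA (h : AnalyticAt ℂ c 0) (h0 : c 0 = a) (hm : ∀ᶠ ε in 𝓝 0, c ε ∈ S)
    (hd : HasDerivAt c u 0) : u ∈ TgA S a := Submodule.subset_span ⟨c, ⟨h, h0, hm⟩, hd.deriv⟩

theorem TgA_le {K : Submodule ℂ E} (h : ∀ c, Arc S a c → deriv c 0 ∈ K) : TgA S a ≤ K :=
  Submodule.span_le.2 fun _ ⟨c, a, b⟩ => b ▸ h c a

theorem TgA_le_tan (ha : a ∈ S) : TgA S a ≤ tan (Subtype.val : S → E) ⟨a, ha⟩ :=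
  TgA_le fun _ h => h.mem_tan ha

theorem arc_ev (h : Arc S a c) {p : E → Prop} (hp : ∀ᶠ b in 𝓝 a, b ∈ S → p b) :
    ∀ᶠ ε in 𝓝 0, p (c ε) := by
  have h4 := h.an.continuousAt.tendsto
  rw [h.zero] at h4
  filter_upwards [h4.eventually hp, h.mem] with ε b1 b2 using b1 b2

theorem TgA_map {F : E → E'} (hF : AnalyticAt ℂ F a) (h : ∀ᶠ b in 𝓝 a, b ∈ S → F b ∈ S')
    (hu : u ∈ TgA S a) : fderiv ℂ F a u ∈ TgA S' (F a) :=
  TgA_le (K := (TgA S' (F a)).comap (fderiv ℂ F a : E →ₗ[ℂ] E')) (fun c hc =>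
    mem_TgA (c := fun ε => F (c ε)) (hF.comp_of_eq hc.an hc.zero) (congrArg F hc.zero) (arc_ev hc h)
      (hF.differentiableAt.hasFDerivAt.comp_hasDerivAt_of_eq 0 hc.an.differentiableAt.hasDerivAt
        hc.zero.symm)) hu

/-- differentiable functions that vanish on `S` kill `TgA` -/
theorem TgA_zero {F : E → E'} (hF : DifferentiableAt ℂ F a) (h : ∀ᶠ b in 𝓝 a, b ∈ S → F b = 0)
    (hu : u ∈ TgA S a) : fderiv ℂ F a u = 0 :=
  TgA_le (K := LinearMap.ker (fderiv ℂ F a : E →ₗ[ℂ] E')) (fun _ hc =>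
    (hF.hasFDerivAt.comp_hasDerivAt_of_eq 0 hc.an.differentiableAt.hasDerivAt
      hc.zero.symm).unique ((hasDerivAt_const 0 0).congr_of_eventuallyEq (arc_ev hc h))) hu

theorem line_TgA (h : ∀ᶠ ε : ℂ in 𝓝 0, a + ε • u ∈ S) : u ∈ TgA S a :=
  mem_TgA (c := fun ε : ℂ => a + ε • u) (by fun_prop) (by simp) h
    (by simpa using ((hasDerivAt_id (0 : ℂ)).smul_const u).const_add a)

/-- the model of a node -/
theorem node_TgA {τ : E → ℂ} (hτ : AnalyticAt ℂ τ a) (h0 : τ a = 0) (hu : fderiv ℂ τ a u = 0)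
    {z : ℂ × ℂ} (hz : z.1 * z.2 = 0) :
    (u, 0) ∈ TgA {q : E × ℂ × ℂ | q.2.1 * q.2.2 = τ q.1} (a, z) := by
  have l : HasDerivAt (fun ε : ℂ => a + ε • u) u 0 := by
    simpa using ((hasDerivAt_id (0 : ℂ)).smul_const u).const_add a
  have la : AnalyticAt ℂ (fun ε : ℂ => a + ε • u) 0 := by fun_prop
  let θ : ℂ → ℂ := fun ε => τ (a + ε • u)
  have t1 : AnalyticAt ℂ θ 0 := hτ.comp_of_eq la (by simp)
  have t0 : θ 0 = 0 := by simp [θ, h0]
  have t2 : HasDerivAt θ 0 0 := hu ▸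
    hτ.differentiableAt.hasFDerivAt.comp_hasDerivAt_of_eq 0 l (by simp)
  by_cases a1 : z.1 = 0
  · by_cases a2 : z.2 = 0
    · obtain ⟨p, hp⟩ := t1
      have d1 : AnalyticAt ℂ (dslope θ 0) 0 := ⟨_, hp.has_fpower_series_dslope_fslope⟩
      have e : z = 0 := Prod.ext a1 a2
      have b1 : (u, 1, deriv (dslope θ 0) 0) ∈
          TgA {q : E × ℂ × ℂ | q.2.1 * q.2.2 = τ q.1} (a, z) :=
        mem_TgA (c := fun ε => (a + ε • u, ε, dslope θ 0 ε)) (la.prod (analyticAt_id.prod d1))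
          (by simp [e, dslope_same, t2.deriv, Prod.ext_iff]) (.of_forall fun ε => by
            simpa [t0] using sub_smul_dslope θ 0 ε)
          (l.prodMk ((hasDerivAt_id _).prodMk d1.differentiableAt.hasDerivAt))
      have b2 : ((0 : E), (1 : ℂ), (0 : ℂ)) ∈ TgA {q : E × ℂ × ℂ | q.2.1 * q.2.2 = τ q.1} (a, z) :=
        line_TgA (.of_forall fun ε => by simp [a2, h0])
      have b3 : ((0 : E), (0 : ℂ), deriv (dslope θ 0) 0) ∈
          TgA {q : E × ℂ × ℂ | q.2.1 * q.2.2 = τ q.1} (a, z) :=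
        line_TgA (.of_forall fun ε => by simp [a1, h0])
      simpa using sub_mem (sub_mem b1 b2) b3
    · exact mem_TgA (c := fun ε => (a + ε • u, θ ε / z.2, z.2))
        (la.prod ((t1.div analyticAt_const a2).prod analyticAt_const))
        (by simp [t0, Prod.ext_iff, a1]) (.of_forall fun ε => div_mul_cancel₀ _ a2)
        (l.prodMk (((t2.div_const z.2).prodMk (hasDerivAt_const (0 : ℂ) z.2)).congr_deriv
          (by simp [Prod.ext_iff])))
  · exact mem_TgA (c := fun ε => (a + ε • u, z.1, θ ε / z.1))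
      (la.prod (analyticAt_const.prod (t1.div analyticAt_const a1)))
      (by simp [t0, Prod.ext_iff, (mul_eq_zero.1 hz).resolve_left a1])
      (.of_forall fun ε => mul_div_cancel₀ _ a1)
      (l.prodMk (((hasDerivAt_const (0 : ℂ) z.1).prodMk (t2.div_const z.1)).congr_deriv
        (by simp [Prod.ext_iff])))

end Tg

variable {ι : Type} [Fintype ι] {M : ι → ℕ} {o : ι} {P E : Type*} [NormedAddCommGroup P]
  [NormedSpace ℂ P] [NormedAddCommGroup E] [NormedSpace ℂ E] {C : P → Set (V M)} {y₀ v : P}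
  {c w : V M} {σ : P × E → V M} {Y : P → Set E}

variable (C) in
/-- the total space of the family -/
def Tot : Set (P × V M) := {q | q.2 ∈ C q.1}

theorem tg_smul (hC : LocFam o C id y₀) {s : ι → ℂ} (hs : ∀ i, s i ≠ 0)
    (h : (v, w) ∈ TgA (Tot C) (y₀, c)) : (v, s • w) ∈ TgA (Tot C) (y₀, s • c) := by
  let F : P × V M →L[ℂ] P × V M := (ContinuousLinearMap.id ℂ P).prodMap
    (.pi fun i => s i • ContinuousLinearMap.proj i)
  have := TgA_map (S' := Tot C) (F.analyticAt (y₀, c))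
    ((continuousAt_fst.eventually hC.cone).mono fun q a b => a s hs _ b) h
  rwa [F.fderiv] at this

theorem tg_tor (hC : LocFam o C id y₀) (hc : c ∈ C y₀) (α : ι → ℂ) :
    (0, α • c) ∈ TgA (Tot C) (y₀, c) := by
  have : ∀ᶠ ε : ℂ in 𝓝 0, ∀ i, 1 + ε * α i ≠ 0 := eventually_all.2 fun i =>
    ContinuousAt.eventually_ne (by fun_prop) (by simp)
  refine line_TgA (this.mono fun ε h => ?_)
  have e : c + ε • α • c = (fun i => 1 + ε * α i) • c := by
    ext i j; simp [add_mul, mul_assoc]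
  simpa [Tot, e] using hC.cone.self_of_nhds _ h c hc

theorem tg_der {γ : ℂ → V M} (h : AnalyticAt ℂ γ 0) (hm : ∀ᶠ t in 𝓝 0, γ t ∈ C y₀) :
    ∀ᶠ t in 𝓝 0, (0, deriv γ t) ∈ TgA (Tot C) (y₀, γ t) := by
  filter_upwards [h.eventually_analyticAt, hm.eventually_nhds] with t a b
  have k : Tendsto (fun s : ℂ => t + s) (𝓝 0) (𝓝 t) := by
    simpa using (continuous_const_add t).tendsto 0
  exact mem_TgA (c := fun s => (y₀, γ (t + s)))
    (analyticAt_const.prod (a.comp_of_eq (by fun_prop) (by simp))) (by simp) (k.eventually b)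
    ((hasDerivAt_const _ _).prodMk (HasDerivAt.comp_const_add t 0
      (by simpa using a.differentiableAt.hasDerivAt)))

variable [FiniteDimensional ℂ P] [FiniteDimensional ℂ E]

theorem chart_lift (hC : LocFam o C id y₀) (h : Chart o C id y₀ σ Y) (hc : σ (y₀, 0) ∈ C y₀) :
    ∃ Λ : P →ₗ[ℂ] V M → V M, ∀ v, AnalyticAt ℂ (Λ v) (σ (y₀, 0)) ∧
      ((∀ᶠ z in 𝓝 0, z ∈ Y y₀ → (v, 0) ∈ TgA {q : P × E | q.2 ∈ Y q.1} (y₀, z)) →
        ∀ᶠ c in 𝓝 (σ (y₀, 0)), c ∈ C y₀ → (v, Λ v c) ∈ TgA (Tot C) (y₀, c)) := by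
  have := FiniteDimensional.complete ℂ P
  have := FiniteDimensional.complete ℂ E
  obtain ⟨ρ, h1, h2, -, h4⟩ :=
    h.exists_mem_iff continuousAt_id (hC.ne_zero.self_of_nhds _ hc) hC.cone
  have r : AnalyticAt ℂ (fun c => ρ (y₀, c)) (σ (y₀, 0)) :=
    h1.comp (analyticAt_const.prod analyticAt_id)
  have r2 : Tendsto (fun c => (ρ (y₀, c)).2) (𝓝 (σ (y₀, 0))) (𝓝 0) := by
    simpa [ContinuousAt, show ρ (y₀, σ (y₀, 0)) = (1, 0) from h2] using r.continuousAt.snd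
  have k : Tendsto (fun z : E => (y₀, z)) (𝓝 0) (𝓝 (y₀, 0)) := by
    simpa using (Continuous.prodMk_right y₀).tendsto 0
  refine ⟨⟨⟨fun v c => (ρ (y₀, c)).1 • fderiv ℂ σ (y₀, (ρ (y₀, c)).2) (v, 0), fun v v' => ?_⟩,
    fun a v => ?_⟩, fun v => ⟨an_smul (analyticAt_fst.comp r) ?_, fun hv => ?_⟩⟩
  · funext c
    rw [Pi.add_apply, ← smul_add, ← map_add, Prod.mk_add_mk, add_zero]
  · funext c
    rw [Pi.smul_apply, RingHom.id_apply, smul_comm a, ← map_smul, Prod.smul_mk, smul_zero]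
  · exact ((ContinuousLinearMap.apply ℂ _ (v, (0 : E))).analyticAt _).comp
      (h.an.fderiv.comp_of_eq ((analyticAt_const (v := y₀)).prod (analyticAt_snd.comp r))
        (by simp [show ρ (y₀, σ (y₀, 0)) = (1, 0) from h2]))
  · filter_upwards [r2.eventually hv, ((Continuous.prodMk_right y₀).tendsto _).eventually h4,
      (k.comp r2).eventually (h.an.eventually_analyticAt.and h.mem.eventually_nhds)]
      with c a b d hc'
    obtain ⟨b1, b2⟩ := b.1 hc'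
    have e := TgA_map (S' := Tot C) (F := fun q => (q.1, σ q)) (analyticAt_fst.prod d.1) d.2 (a b1)
    rw [(hasFDerivAt_fst.prodMk (AnalyticAt.differentiableAt (x := (y₀, (ρ (y₀, c)).2))
      d.1).hasFDerivAt).fderiv] at e
    have e' := tg_smul hC (s := (ρ (y₀, c)).1)
      (ne_of_smul_ne (b2 ▸ hC.ne_zero.self_of_nhds c hc')) e
    rwa [← show c = (ρ (y₀, c)).1 • σ (y₀, (ρ (y₀, c)).2) from b2] at e'

/-- **local lifts** exist under at most one linear condition, and none away from the nodes -/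
theorem exists_lift (hC : LocFam o C id y₀) (hc : c ∈ C y₀) :
    ∃ (Λ : P →ₗ[ℂ] V M → V M) (l : P →ₗ[ℂ] ℂ), (¬IsNode o (C y₀) c → l = 0) ∧
      ∀ v, AnalyticAt ℂ (Λ v) c ∧
        (l v = 0 → ∀ᶠ c' in 𝓝 c, c' ∈ C y₀ → (v, Λ v c') ∈ TgA (Tot C) (y₀, c')) := by
  rcases hC.chart c hc with ⟨σ, rfl, h⟩ | ⟨τ, h⟩
  · obtain ⟨Λ, a⟩ := chart_lift hC h hc
    exact ⟨Λ, 0, fun _ => rfl, fun v => ⟨(a v).1, fun _ => (a v).2 (.of_forall fun z _ =>
      line_TgA (.of_forall fun _ => trivial))⟩⟩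
  · have n := h.isNode hC
    obtain ⟨σ, rfl, h1, h2, h⟩ := h
    obtain ⟨Λ, a⟩ := chart_lift hC h hc
    exact ⟨Λ, fderiv ℂ τ y₀, fun b => (b n).elim, fun v => ⟨(a v).1, fun b => (a v).2
      (.of_forall fun z hz => node_TgA h1 h2 b (hz.trans h2))⟩⟩

/-- vertical tangent vectors at a smooth point -/
theorem vert (hC : LocFam o C id y₀) {γ : ℂ → V M} (hγ : IsBranch o (C y₀) γ)
    (hn : ¬IsNode o (C y₀) (γ 0)) (h : (0, w) ∈ TgA (Tot C) (y₀, γ 0)) :
    ∃ (α : ι → ℂ) (a : ℂ), w = α • γ 0 + a • deriv γ 0 := by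
  have hc := hγ.mem.self_of_nhds
  have hne := hC.ne_zero.self_of_nhds _ hc
  obtain ⟨σ, e, hσ⟩ := (hC.chart _ hc).resolve_right fun ⟨_, a⟩ => hn (a.isNode hC)
  change σ (y₀, 0) = γ 0 at e
  obtain ⟨ρ, h1, h2, -, h4⟩ := hσ.exists_mem_iff continuousAt_id (e.symm ▸ hne) hC.cone
  obtain ⟨s, φ, -, -, -, -, -, h5⟩ :=
    hσ.factor continuousAt_id (e.symm ▸ hne) hC.cone hγ.holo e.symm hγ.mem
  simp only [id, e] at h1 h2 h4 h5
  have d0 : HasFDerivAt (fun z => σ (y₀, z)) (fderiv ℂ σ (y₀, 0) ∘L .inr ℂ P ℂ) 0 :=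
    hσ.an.differentiableAt.hasFDerivAt.comp 0 (hasFDerivAt_prodMk_right y₀ 0)
  have lin (e : ℂ) : fderiv ℂ σ (y₀, 0) (0, e) = e • fderiv ℂ σ (y₀, 0) (0, 1) := by
    rw [← map_smul]; simp
  rw [d0.fderiv] at h5
  change deriv γ 0 = _ + fderiv ℂ σ (y₀, 0) (0, deriv φ 0) at h5
  rw [lin] at h5
  have n : deriv φ 0 ≠ 0 := fun b => one_ne_zero (of_li_pair hγ.imm (e := 1) (s := deriv s 0 o)
    (by rw [h5, b]; simp))
  have d1 := h1.differentiableAt.hasFDerivAt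
  have r : ((y₀, γ 0).1, (ρ (y₀, γ 0)).2) = (y₀, 0) := by simp [h2]
  have d2 : HasFDerivAt (fun q : P × V M => σ (q.1, (ρ q).2)) _ (y₀, γ 0) :=
    HasFDerivAt.comp (f' := _) (g := σ) (g' := fderiv ℂ σ (y₀, 0)) (y₀, γ 0)
      (r ▸ hσ.an.differentiableAt.hasFDerivAt) (hasFDerivAt_fst.prodMk d1.snd)
  have a1 : DifferentiableAt ℂ (fun q : P × V M => (ρ q).1 • σ (q.1, (ρ q).2)) (y₀, γ 0) :=
    (an_smul (analyticAt_fst.comp h1) (hσ.an.comp_of_eq
      (analyticAt_fst.prod (analyticAt_snd.comp h1)) r)).differentiableAt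
  have z := TgA_zero (differentiableAt_snd.sub a1)
    (h4.mono fun q a b => sub_eq_zero.2 (a.1 b).2) h
  rw [fderiv_sub differentiableAt_snd a1, sub_apply,
    fderiv_smul_apply d1.fst.differentiableAt d2.differentiableAt, d2.fderiv, fderiv_snd, r, e,
    h2, one_smul, sub_eq_zero] at z
  change w = _ + fderiv ℂ σ (y₀, 0) (0, _) at z
  rw [lin] at z
  refine ⟨fderiv ℂ (fun q => (ρ q).1) (y₀, γ 0) (0, w) -
    ((fderiv ℂ ρ (y₀, γ 0) (0, w)).2 / deriv φ 0) • deriv s 0,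
      (fderiv ℂ ρ (y₀, γ 0) (0, w)).2 / deriv φ 0, z.trans ?_⟩
  rw [h5, smul_add, smul_smul, div_mul_cancel₀ _ n, sub_smul, smul_assoc, ← add_assoc,
    sub_add_cancel]
  rfl

end Vale.Agent.P269L.I.Ks
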