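import Vale.Agent.P269L.I.KsA
import Vale.Agent.P269L.I.Cou
import Vale.Agent.P269.Cv.Dict
import Vale.Agent.P269.Cv.Map

/-!
# Gluing of local lifts on the normalisation
-/

open Set Function Topology Filter Module
open Vale.Agent.P269 Vale.Agent.P269.Base Vale.Agent.P269.Holo Vale.Agent.P269.Cv

namespace Vale.Agent.P269L.I.Ks

variable {ι : Type} [Fintype ι] {M : ι → ℕ} {o : ι}

theorem exists_dual {F : Type*} [AddCommGroup F] [Module ℂ F] {c d : F}
    (h : LinearIndependent ℂ ![c, d]) : ∃ l : F →ₗ[ℂ] ℂ, l c = 0 ∧ l d = 1 := by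
  obtain ⟨g, hg⟩ := (Fintype.linearCombination ℂ ![c, d]).exists_leftInverse_of_injective
    (LinearMap.ker_eq_bot.2 (h.fintypeLinearCombination_injective))
  have a := LinearMap.congr_fun hg (Pi.single 0 1)
  have b := LinearMap.congr_fun hg (Pi.single 1 1)
  simp only [LinearMap.comp_apply, Fintype.linearCombination_apply_single, one_smul] at a b
  exact ⟨.proj 1 ∘ₗ g, (congrFun a 1).trans (by simp), (congrFun b 1).trans (by simp)⟩

/-- the coefficient of the tangent vector is holomorphic -/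
theorem an_coef {γ η : ℂ → V M} {a : ℂ → ℂ} (hγ : AnalyticAt ℂ γ 0) (hη : AnalyticAt ℂ η 0)
    (hi : LinearIndependent ℂ ![γ 0 o, deriv γ 0 o])
    (h : ∀ᶠ t in 𝓝 0, ∃ α : ι → ℂ, η t = α • γ t + a t • deriv γ t) : AnalyticAt ℂ a 0 := by
  obtain ⟨l, a1, a2⟩ := exists_dual hi
  obtain ⟨k, b1, b2⟩ := exists_dual (LinearIndependent.pair_symm_iff.1 hi)
  have an (l : (Fin (M o) → ℂ) →ₗ[ℂ] ℂ) {δ : ℂ → V M} (h : AnalyticAt ℂ δ 0) :
      AnalyticAt ℂ (fun t => l (δ t o)) 0 :=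
    (l.toContinuousLinearMap.analyticAt _).comp (analyticAt_pi_iff.1 h o)
  have d := ((an k hγ).mul (an l hγ.deriv)).sub ((an l hγ).mul (an k hγ.deriv))
  have n : ((fun t => k (γ t o)) * (fun t => l (deriv γ t o)) -
      (fun t => l (γ t o)) * fun t => k (deriv γ t o)) 0 ≠ 0 := by simp [a1, a2, b2]
  refine ((((an k hγ).mul (an l hη)).sub ((an l hγ).mul (an k hη))).div d n).congr ?_
  filter_upwards [h, d.continuousAt.eventually_ne n] with t ⟨α, e⟩ b
  refine (div_eq_iff b).2 ?_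
  simp only [Pi.sub_apply, Pi.mul_apply, e, Pi.add_apply, Dict.smul_ap, Pi.smul_apply, map_add,
    map_smul, smul_eq_mul]
  ring

variable {X : Type} [TopologicalSpace X] [T2Space X] [CompactSpace X] {R : RS X}
  {N : Finset (X × X)} {A : ι → LB R} {π : X → V M}

theorem finrank_CSol {Z : Type*} [AddCommGroup Z] [Module ℂ Z] [FiniteDimensional ℂ Z] {L : LB R}
    {f : Z →ₗ[ℂ] X → X → ℂ} (hf : ∀ v x, ∀ᶠ y in 𝓝 x, L.Sec (f v x - f v y) y) :
    FiniteDimensional ℂ (CSol L f) ∧ finrank ℂ Z + chi L ≤ finrank ℂ (CSol L f) := by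
  let e := (LinearMap.fst ℂ Z (X → ℂ)).domRestrict (CSol L f)
  let k : L.Γ →ₗ[ℂ] LinearMap.ker e :=
    { toFun := fun s => ⟨⟨(0, s), mem_CSol.2 fun x => by simpa using s.2 x⟩, rfl⟩
      map_add' := fun _ _ => Subtype.ext (Subtype.ext (Prod.ext (add_zero _).symm rfl))
      map_smul' := fun _ _ => Subtype.ext (Subtype.ext (Prod.ext (smul_zero _).symm rfl)) }
  have k1 : Injective k := fun a b h => Subtype.ext (congrArg (fun z => z.1.1.2) h)
  have k2 : Surjective k := fun z => ⟨⟨z.1.1.2, fun x => by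
    simpa [show z.1.1.1 = 0 from z.2] using mem_CSol.1 z.1.2 x⟩,
      Subtype.ext (Subtype.ext (Prod.ext (show z.1.1.1 = 0 from z.2).symm rfl))⟩
  have : FiniteDimensional ℂ (LinearMap.ker e) := .of_surjective k k2
  have : FiniteDimensional ℂ (CSol L f) := by
    have : FiniteDimensional ℂ (CSol L f ⧸ LinearMap.ker e) :=
      e.quotKerEquivRange.symm.finiteDimensional
    exact Module.Finite.of_submodule_quotient (LinearMap.ker e)
  refine ⟨this, ?_⟩
  have a1 := cousin0 hf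
  have a2 := e.finrank_range_add_finrank_ker
  rw [← (LinearEquiv.ofBijective k ⟨k1, k2⟩).finrank_eq, LinearMap.range_domRestrict] at a2
  rw [chi]
  omega

/-- the tangent vectors of the branches centred at nearby points -/
theorem deriv_br (h : ∀ i j, (fun x => π x i j) ∈ H0 N (A i)) (x : X) : ∀ᶠ z in 𝓝 x, ∃ β : ι → ℂ,
    deriv (br A π z) 0 = β • π z +
      R.d (R.e x) z • (fun i => (A i).φ x z) • deriv (br A π x) (R.e x z) := by
  filter_upwards [R.src_nhds x, eventually_all.2 fun i => (A i).hol x,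
    (R.tends_e x).eventually (an_br h x).eventually_analyticAt] with z a b c
  let u : ℂ → ι → ℂ := fun s i => (A i).φ x (R.i z s) / (A i).φ z (R.i z s)
  have hu : AnalyticAt ℂ u 0 := analyticAt_pi_iff.2 b
  have u0 : u 0 = fun i => (A i).φ x z := funext fun i => by
    simp only [u, R.i_zero, (A i).self, div_one]
  have e : br A π z =ᶠ[𝓝 0] fun s => u s • br A π x (R.e x (R.i z s)) :=
    (R.ev_iff.1 (R.src_nhds' a)).mono fun s hs => by
      simp only
      rw [br_eq, br_e (A := A) (π := π) hs, smul_smul]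
      congr 1
      funext i
      simp [u, div_eq_inv_mul]
  have d := hasDerivAt_smul hu.differentiableAt.hasDerivAt
    (HasDerivAt.scomp_of_eq 0 c.differentiableAt.hasDerivAt
      (AnalyticAt.differentiableAt (RS.hol_e a)).hasDerivAt (congrArg (R.e x) (R.i_zero z)).symm)
  refine ⟨deriv u 0 * fun i => ((A i).φ x z)⁻¹, (d.congr_of_eventuallyEq e).deriv.trans ?_⟩
  rw [u0, comp_apply, R.i_zero, smul_comm (R.d _ _), mul_smul, br_eq, R.i_e a]
  rfl

variable {P : Type*} [NormedAddCommGroup P] [NormedSpace ℂ P] [FiniteDimensional ℂ P]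
  {C : P → Set (V M)} {y₀ : P}

/-- **gluing of local lifts** with prescribed values along `S` -/
theorem glue_lift (hC : LocFam o C id y₀) (h : Par o (C y₀) N A π) (S : Finset X)
    (hS : ∀ x ∉ S, Sm N x) (Z : Submodule ℂ P) (lam : X → Z →ₗ[ℂ] ℂ → V M)
    (h1 : ∀ x v, AnalyticAt ℂ (lam x v) 0)
    (h2 : ∀ x (v : Z), ∀ᶠ t in 𝓝 0, (v.1, lam x v t) ∈ TgA (Tot C) (y₀, br A π x t)) :
    ∃ (T : Submodule ℂ (Z × (X → ℂ))) (Ξ : (Z × (X → ℂ)) →ₗ[ℂ] X → V M), FiniteDimensional ℂ T ∧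
      finrank ℂ Z + 3 * chi (1 : LB R) - S.card ≤ finrank ℂ T ∧ ∀ z ∈ T,
      (∀ x, ∃ η : ℂ → V M, AnalyticAt ℂ η 0 ∧ ∀ᶠ t in 𝓝 0, ∃ α : ι → ℂ,
        Ξ z (R.i x t) = α • π (R.i x t) + (fun i => (A i).φ x (R.i x t)) • η t) ∧
      (∀ x, (z.1.1, Ξ z x) ∈ TgA (Tot C) (y₀, π x)) ∧ (∀ x ∈ S, Ξ z x = lam x z.1 0) ∧
      (z.1 = 0 → (∀ x, ∃ α : ι → ℂ, Ξ z x = α • π x) → z = 0) := by
  classical
  choose l l1 l2 using fun x => exists_dual (h.imm x)
  let D : X → V M := fun x => deriv (br A π x) 0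
  let φ : X → X → ι → ℂ := fun x z i => (A i).φ x z
  have hφ (x z i) : φ x z i ≠ 0 := (A i).ne x z
  have φ1 (x) : φ x x = 1 := funext fun i => (A i).self x
  have ll (x) (α : ι → ℂ) (a : ℂ) : l x ((α • π x + a • D x) o) = a := by
    simp [l1, D, l2]
  -- vertical vectors
  have vt (x) (hx : Sm N x) (w) (hw : (0, w) ∈ TgA (Tot C) (y₀, π x)) :
      ∃ α : ι → ℂ, w = α • π x + l x (w o) • D x := by
    obtain ⟨α, a, e⟩ := vert hC (h.isBranch x) (by
      rw [br_zero, ← one_smul (ι → ℂ) (π x), h.isNode_iff (t := 1) fun _ => one_ne_zero]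
      exact not_not.2 hx) (by rwa [br_zero])
    rw [br_zero] at e
    exact ⟨α, by rw [e, ll]⟩
  -- the local lifts as functions on the surface
  let κ : X → Z →ₗ[ℂ] X → V M := fun x => LinearMap.pi fun z =>
    DistribSMul.toLinearMap ℂ _ (φ x z) ∘ₗ .proj (R.e x z) ∘ₗ lam x
  have κe (x v z) : κ x v z = φ x z • lam x v (R.e x z) := rfl
  have κt (x) (v : Z) : ∀ᶠ z in 𝓝 x, (v.1, κ x v z) ∈ TgA (Tot C) (y₀, π z) := by
    filter_upwards [(R.tends_e x).eventually (h2 x v), R.src_nhds x] with z a b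
    rw [br_e (A := A) (π := π) b]
    exact tg_smul hC (hφ x z) a
  have κ0 (x v) : κ x v x = lam x v 0 := by rw [κe, φ1, one_smul, R.zero]
  let f : Z →ₗ[ℂ] X → X → ℂ := LinearMap.pi fun x => LinearMap.pi fun z =>
    l z ∘ₗ .proj o ∘ₗ .proj z ∘ₗ κ x
  have fe (v x z) : f v x z = l z (κ x v z o) := rfl
  have df (v : Z) {x y z} (hz : Sm N z) (a : (v.1, κ x v z) ∈ TgA (Tot C) (y₀, π z))
      (b : (v.1, κ y v z) ∈ TgA (Tot C) (y₀, π z)) :
      ∃ α : ι → ℂ, κ x v z - κ y v z = α • π z + (f v x z - f v y z) • D z := by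
    simpa [fe] using vt z hz (κ x v z - κ y v z) (by simpa using sub_mem a b)
  let E := ∏ p ∈ S, R.pt p
  let u : X → ℂ := ∏ p ∈ S, RS.can p
  have u1 : u ∈ E.Γ := LB.prod_mem fun p _ => R.can_mem p
  have u2 (x) (hx : x ∉ S) : u x = 1 :=
    (Finset.prod_apply _ _ _).trans (Finset.prod_eq_one fun p hp => can_ne fun e => hx (e ▸ hp))
  have u3 (x) (hx : x ∈ S) : u x = 0 :=
    (Finset.prod_apply _ _ _).trans (Finset.prod_eq_zero hx (if_pos rfl))
  have nS (x) : ∀ᶠ z in 𝓝 x, z ≠ x → z ∉ S := by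
    have : IsClosed ((S.erase x : Finset X) : Set X) := (Finset.finite_toSet _).isClosed
    exact eventually_of_mem (this.isOpen_compl.mem_nhds (by simp)) fun z a b c =>
      a (Finset.mem_erase.2 ⟨b, c⟩)
  have hf (v x) : ∀ᶠ y in 𝓝 x, (R.K⁻¹ / E).Sec (f v x - f v y) y := by
    filter_upwards [nS x, (κt x v).eventually_nhds, R.src_nhds x,
      eventually_all.2 fun i => (A i).hol x,
      (R.tends_e x).eventually (h1 x v).eventually_analyticAt] with y a b c d e
    by_cases hy : y = x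
    · rw [hy, sub_self]
      exact LB.sec_zero
    have nS' : ∀ᶠ z in 𝓝 y, z ∉ S := (nS y).mono fun z hz => by
      by_cases b : z = y
      exacts [b ▸ a hy, hz b]
    refine (LB.Sec.div (s := f v x - f v y) ?_ (u1 y) (by simp [u2 y (a hy)])).congr
      (nS'.mono fun z hz => by simp [u2 z hz])
    refine an_coef (o := o) (η := fun s => (fun i => φ x (R.i y s) i / φ y (R.i y s) i) •
      lam x v (R.e x (R.i y s)) - lam y v s) (an_br h.sec y) ((an_smul (analyticAt_pi_iff.2 d)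
        (e.comp_of_eq (RS.hol_e c) (congrArg (R.e x) (R.i_zero y)))).sub (h1 y v))
      (by simpa [br_zero] using h.imm y) ?_
    filter_upwards [R.ev_iff.1 (b.and ((κt y v).and (nS'.and (deriv_br h.sec y)))),
      R.tgt_nhds y] with s ⟨b1, b2, b3, β, b4⟩ b5
    obtain ⟨α, b6⟩ := df v (hS _ b3) b1 b2
    refine ⟨α + (f v x (R.i y s) - f v y (R.i y s)) • β, ?_⟩
    rw [κe, κe, show D _ = _ from b4, R.e_i b5] at b6
    rw [LB.loc, LB.inv_φ, div_inv_eq_mul, RS.K_φ (R.i_mem b5), br_eq]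
    ext i j
    have b7 := congrFun (congrFun b6 i) j
    have b8 := hφ y (R.i y s) i
    simp only [Pi.sub_apply, Pi.add_apply, Dict.smul_ap, Pi.smul_apply, smul_eq_mul, φ] at b7 b8 ⊢
    field_simp
    linear_combination b7
  obtain ⟨a1, a2⟩ := finrank_CSol hf
  let Ξ : (Z × (X → ℂ)) →ₗ[ℂ] X → V M := LinearMap.pi fun x =>
    LinearMap.proj 0 ∘ₗ lam x ∘ₗ LinearMap.fst ℂ Z (X → ℂ) +
      LinearMap.toSpanSingleton ℂ (V M) (u x • D x) ∘ₗ (LinearMap.proj x ∘ₗ LinearMap.snd ℂ Z (X → ℂ) -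
        LinearMap.proj x ∘ₗ LinearMap.proj x ∘ₗ f ∘ₗ LinearMap.fst ℂ Z (X → ℂ))
  have Ξe (z x) : Ξ z x = lam x z.1 0 + ((z.2 x - f z.1 x x) * u x) • D x := by
    rw [mul_smul]; rfl
  refine ⟨_, Ξ, a1, ?_, fun z hz => ⟨fun x => ?_, fun x => ?_, fun x hx => ?_, fun b c => ?_⟩⟩
  · rw [chi_eq, deg_div, deg_inv, deg_K, deg_prod] at a2
    simp only [deg_pt, Finset.sum_const, nsmul_eq_mul, mul_one] at a2
    omega
  · have k := (mem_CSol.1 hz x).mul (u1 x)
    rw [div_mul_cancel] at k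
    refine ⟨fun t => lam x z.1 t + R.K⁻¹.loc ((z.2 - f z.1 x) * u) x t • deriv (br A π x) t,
      (h1 x _).add (AnalyticAt.smul k (an_br h.sec x).deriv), ?_⟩
    filter_upwards [R.ev_iff.1 ((nS x).and ((κt x z.1).and (deriv_br h.sec x))), R.tgt_nhds x]
      with t ⟨b1, b2, β, b4⟩ b5
    by_cases e : t = 0
    · refine ⟨0, ?_⟩
      rw [e, R.i_zero, Ξe, LB.loc_zero, zero_smul, zero_add, show (fun i => (A i).φ x x) = 1 from
        φ1 x, one_smul]
      rfl
    have b3 := b1 fun a => e ((R.i_eq b5).1 a)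
    obtain ⟨α, b6⟩ := df z.1 (hS _ b3) (κt _ z.1).self_of_nhds b2
    refine ⟨α + (z.2 (R.i x t) - f z.1 x (R.i x t)) • β, ?_⟩
    rw [κ0, κe, show D _ = _ from b4, R.e_i b5] at b6
    rw [Ξe, show D _ = _ from b4, R.e_i b5, LB.loc, LB.inv_φ, div_inv_eq_mul, RS.K_φ (R.i_mem b5),
      Pi.mul_apply, u2 _ b3]
    ext i j
    have b7 := congrFun (congrFun b6 i) j
    simp only [Pi.sub_apply, Pi.add_apply, Dict.smul_ap, Pi.smul_apply, smul_eq_mul, φ] at b7 ⊢
    linear_combination b7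
  · have b := (h2 x z.1).self_of_nhds
    have c := (tg_der (C := C) (h.isBranch x).holo (h.isBranch x).mem).self_of_nhds
    rw [br_zero] at b c
    simpa [Ξe] using add_mem b (Submodule.smul_mem _ ((z.2 x - f z.1 x x) * u x) c)
  · rw [Ξe, u3 x hx, mul_zero, zero_smul, add_zero]
  · have k (x) (hx : x ∉ S) : z.2 x = 0 := by
      obtain ⟨α, e⟩ := c x
      have := congrArg (fun w : V M => l x (w o)) e
      simpa [Ξe, b, u2 x hx, Dict.smul_ap, l1, D, l2] using this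
    refine Prod.ext b (funext fun x => ?_)
    have k2 : (R.K⁻¹ / E).Sec z.2 x := by simpa [b] using mem_CSol.1 hz x
    by_contra k3
    have := R.neBot x
    obtain ⟨y, y1, y2, y3⟩ := (((k2.ev_ne k3).and (nS x)).filter_mono nhdsWithin_le_nhds
      |>.and (self_mem_nhdsWithin (s := {x}ᶜ))).exists.imp fun y a => And.intro a.1.1
        (And.intro a.1.2 a.2)
    exact y1 (k y (y2 y3))

end Vale.Agent.P269L.I.Ks
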