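import Vale.Agent.P269L.I.Ks
import Vale.Agent.P269L.I.Hol

/-!
# The Kodaira-Spencer bound in the words of the statement
-/

open Set Function Topology Filter Module
open Vale.Agent.P269 Vale.Agent.P269.Base Vale.Agent.P269.Holo

namespace Vale.Agent.P269L.I

theorem Ks.TgA_tan {E : Type} [NormedAddCommGroup E] [NormedSpace ℂ E] {S : Set E} {a u : E}
    (h : u ∈ Ks.TgA S a) : u ∈ Tan S a := fun _ k =>
  Ks.TgA_zero k.1.differentiableAt ((eventually_nhdsWithin_iff.1 k.2).mono fun _ b c => (b c).symm) h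

variable {ι : Type} [Fintype ι] {M : ι → ℕ} {o : ι} {W : Type} [NormedAddCommGroup W]
  [NormedSpace ℂ W] {S : Set W} {C : W → Set (V M)} {x : W}

/-- vector fields that are holomorphic along the branches modulo the torus directions -/
theorem sec_vf {C : Set (V M)} (h : Nod o C) {ξ : V M → V M}
    (h1 : ∀ c ∈ C, ∀ s : ι → ℂ, (∀ i, s i ≠ 0) → ∃ α : ι → ℂ, ξ (s • c) = α • c + s • ξ c)
    (h2 : ∀ γ, IsBranch o C γ → ∃ η : ℂ → V M,
      AnalyticAt ℂ η 0 ∧ ∀ᶠ t in 𝓝 0, ∃ α : ι → ℂ, ξ (γ t) = α • γ t + η t) :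
    Sec (fun (t : ι → ℂ) (c : V M) => t • c) C (fun (t : ι → ℂ) (c : V M) => t • c)
      (dir fun (t : ι → ℂ) (c : V M) => t • c) ξ := by
  refine sec_of h (fun v => an_smul analyticAt_fst analyticAt_snd)
    (fun c _ t _ v w ⟨α, e⟩ => ⟨α, ?_⟩) (fun c _ v ⟨α, e⟩ w ⟨β, e'⟩ => ⟨α + β, ?_⟩)
    (fun c hc t ht => ?_) fun γ hγ => ?_
  · simp only at e ⊢
    rw [← smul_sub, ← e, smul_comm]
  · simp only at e e' ⊢
    rw [add_smul, e, e']
  · have u := isUnit_pi_iff.1 ht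
    obtain ⟨α, e⟩ := h1 c hc t u
    exact ⟨α * t⁻¹, by simp only [mul_smul, inv_smul_smul' u, e, add_sub_cancel_right]⟩
  · obtain ⟨η, a, b⟩ := h2 γ hγ
    obtain ⟨α, e⟩ := b.self_of_nhds
    exact ⟨fun t => α • γ t + η t, (an_smul analyticAt_const hγ.holo).add a, e.symm,
      b.mono fun t ⟨β, e⟩ => ⟨β - α, by simp only [e, sub_smul, add_sub_add_right_eq_sub]⟩⟩

/-- **The Kodaira-Spencer bound**: the tangent space of `S` relative to the stack of pointed nodal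
curves has dimension at least `d - (3 g - 3 + n)`. -/
theorem ks_text {d n : ℕ} {g : ℤ} {m : ι → ℤ} {p : Fin n → W → V M} (hS : MfdAt S d x)
    (hC : LocFam o (fun y : S => C y) Subtype.val ⟨x, hS.mem⟩) (h : IsCurve o g m (C x))
    (hp : ∀ i, AnalyticAt ℂ (p i) x) (hm : ∀ᶠ y in 𝓝 x, y ∈ S → ∀ i, p i y ∈ C y)
    (hn : ∀ i, ¬IsNode o (C x) (p i x)) (hd : ∀ i j, ∀ s : ι → ℂ, p i x = s • p j x → i = j) :
    ∃ Z : Submodule ℂ (W × (V M → V M)), FiniteDimensional ℂ Z ∧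
      (d : ℤ) ≤ finrank ℂ Z + (3 * g - 3 + n) ∧
      (∀ z ∈ Z, z.1 ∈ Tan S x ∧ Sec (fun (t : ι → ℂ) (c : V M) => t • c) (C x)
          (fun (t : ι → ℂ) (c : V M) => t • c) (dir fun (t : ι → ℂ) (c : V M) => t • c) z.2 ∧
        (∀ c ∈ C x, (z.1, z.2 c) ∈ Tan {q : W × V M | q.1 ∈ S ∧ q.2 ∈ C q.1} (x, c)) ∧
        ∀ i, z.2 (p i x) - fderiv ℂ (p i) x z.1 ∈
          dir (fun (t : ι → ℂ) (c : V M) => t • c) (p i x)) ∧
      ∀ z ∈ Z, z.1 = 0 →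
        (∀ c ∈ C x, z.2 c ∈ dir (fun (t : ι → ℂ) (c : V M) => t • c) c) → z = 0 := by
  obtain ⟨Z, a1, a2, a3⟩ := Ks.ks (p := fun y i => p i y) hS hC h (analyticAt_pi_iff.2 hp) hm hn hd
  rw [Fintype.card_fin] at a2
  refine ⟨Z, a1, a2, fun z hz => ?_, fun z hz b c => (a3 z hz).2.2 b fun y hy =>
    (c y hy).imp fun _ => Eq.symm⟩
  obtain ⟨b1, b2, -⟩ := a3 z hz
  refine ⟨Ks.TgA_tan b1, sec_vf h.nod (fun c hc s hs => ⟨0, by rw [b2.hom c hc s hs]; simp⟩)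
    fun γ hγ => b2.hol γ hγ.holo hγ.mem, fun c hc => Ks.TgA_tan (b2.tg c hc), fun i => ?_⟩
  obtain ⟨α, e⟩ := b2.mrk i
  rw [fderiv_pi fun i => (hp i).differentiableAt] at e
  exact ⟨α, eq_sub_iff_add_eq.2 e.symm⟩

end Vale.Agent.P269L.I
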