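import Vale.Agent.P269L.I.LCrv
import Vale.Agent.P269L.I.Hol
import Vale.Agent.P269L.U.Tx
import Vale.Agent.P269.Br.GWb

/-!
# The class of a stable map: invariance under isomorphisms and the internal description
-/

set_option linter.unusedSectionVars false

namespace Vale.Agent.P269L.I

open Set Function Topology Filter P291Z P269 P269.Cv P269.Base P269.Ch P269.Tf P269.Br

section

variable {ι ι' B E X X' : Type} [Fintype ι] [Fintype ι'] [Monoid B] [NormedAddCommGroup E]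
  [NormedSpace ℂ E] {n : ℕ} {M : ι → ℕ} {M' : ι' → ℕ} {o : ι} {o' : ι'} {C : Set (V M)}
  {C' : Set (V M')} [TopologicalSpace X] [TopologicalSpace X'] [T2Space X] [CompactSpace X]
  [T2Space X'] [CompactSpace X'] {R : RS X} {R' : RS X'} {N : Finset (X × X)}
  {N' : Finset (X' × X')} {A : ι → LB R} {A' : ι' → LB R'} {π : X → V M} {π' : X' → V M'}

theorem cls_fp (h : Par o C N A π) : Mono.FP (tor (M := M)) C :=
  { toIsAct := h.isAct, proper := h.properSMul, lc := h.locallyCompactSpace, free := h.free }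

theorem cls_mk_eq (h : Par o C N A π) {c c' : C} :
    Quo.mk tor c = Quo.mk tor c' ↔ Orb c.1 c'.1 :=
  haveI := h.isAct
  (Holo.Sp.mk_eq_iff (act := tor) (x := c) (y := c')).trans
    ⟨fun ⟨g, e⟩ => ⟨g, Crv.unit_ne g, (congrArg Holo.Sp.val e).symm⟩,
      fun ⟨_, ht, e⟩ => ⟨(Crv.isUnit_iff.2 ht).unit, Holo.Sp.ext e.symm⟩⟩

/-- an isomorphism induces a homeomorphism of the curves that respects the fundamental classes -/
theorem cls_homeo (h : Par o C N A π) (h' : Par o' C' N' A' π') {sc : B → E → E} {p : Fin n → V M}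
    {p' : Fin n → V M'} {G : V M → E} {G' : V M' → E} {φ : V M → V M'}
    (a : Iso tor tor sc C C' p p' G G' φ) : (IsConnected C → IsConnected C') ∧
      ∃ Ψ : Quo tor C ≃ₜ Quo tor C', (∀ c : C, Ψ (Quo.mk _ c) = Quo.mk _ ⟨φ c, (a.1 c c.2).1⟩) ∧
        ∀ γ, IsFund tor C γ → IsFund tor C' (push Ψ γ) := by
  obtain ⟨f, b, d, e⟩ := a.lift h h'
  have := h.nice_quo
  have := h'.nice_quo
  have := h.surjective_nrm.compactSpace h.continuous_nrm
  let ψ : Quo tor C → Quo tor C' := Quot.lift (fun c : C => Quo.mk tor (⟨φ c, (a.1 c c.2).1⟩ : C'))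
    fun x y k => (cls_mk_eq h').2 (a.1.orb x.2 (same_iff.1 k))
  have k : ψ ∘ h.nrm = h'.nrm ∘ f := funext fun y => ((cls_mk_eq h').2 (e y _ (.refl _))).symm
  have c1 : Continuous (h'.nrm ∘ f) := h'.continuous_nrm.comp b.cont
  have c2 : Continuous ψ := (h.continuous_nrm.isClosedMap.isQuotientMap h.continuous_nrm
    h.surjective_nrm).continuous_iff.2 (k ▸ c1)
  have c3 : Bijective ψ := ⟨fun x y l => by
      obtain ⟨x, rfl⟩ := h.surjective_nrm x
      obtain ⟨y, rfl⟩ := h.surjective_nrm y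
      exact h.nrm_eq_iff.2 ((h'.nrm_eq_iff.1 ((congrFun k x).symm.trans
        (l.trans (congrFun k y)))).imp (fun q => f.injective q) (d x y).2),
    .of_comp (k ▸ h'.surjective_nrm.comp f.surjective)⟩
  refine ⟨fun l => ?_, Continuous.homeoOfEquivCompactToT2 (f := .ofBijective ψ c3) c2, fun _ => rfl,
    fun γ l => h'.isFund_iff.2 ?_⟩
  · obtain ⟨⟨x⟩, l⟩ := h.isConnected_iff.1 l
    refine h'.isConnected_iff.2 ⟨⟨f x⟩, fun U hU hN => (l _ (hU.preimage b.cont) fun m hm =>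
      ((d m.1 m.2).1 (.inl hm)).elim (hN _) fun q => (hN _ q).symm).imp (fun q => ?_) fun q => ?_⟩
    · rw [← f.surjective.image_preimage U, q, image_empty]
    · rw [← f.surjective.image_preimage U, q, image_univ, f.surjective.range_eq]
  · rw [h.isFund_iff.1 l, ← b.push_fund, IntP.push_push (IsPr.of_compact b.cont)
      (IsPr.of_compact h'.continuous_nrm), ← k]
    exact IntP.push_push (IsPr.of_compact h.continuous_nrm) (IsPr.of_compact c2) _

end

theorem lCls' : LCls' := fun N c F g d n k D r jj ρ' dg _ x β => by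
  obtain ⟨X, _, _, _, R, N', A, π, u, p, ξ, h⟩ := exists_cr x.2.1
  refine and_congr_right fun _ => (exists₂_congr fun γ f =>
    and_congr_left' (U.isFund_iff (cls_fp h.par) γ)).trans ?_
  exact class_iff (act' := tor) (C := crv) (mp := Ch.map)
    (V := fun x c y => ∃ h, y = Quo.mk (ci F).act ⟨fld x c, h⟩) (fun x c y =>
      ⟨fun ⟨a, e⟩ => e.trans (map_eq_fld x c a).symm,
        fun e => ⟨(fld_mem x.2 c.2).1, e.trans (map_eq_fld x c _)⟩⟩) x

section

variable {M : ℕ} {C : Set (Fin M → ℂ)}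

/-- The identification of a vector with a family of one vector. -/
noncomputable def clsω (M : ℕ) : (Fin M → ℂ) ≃L[ℂ] V fun _ : Unit => M :=
  (ContinuousLinearEquiv.funUnique Unit ℂ (Fin M → ℂ)).symm

theorem cls_tr : P269.Br.Tr Pub.scal tor (.refl ℂ (Unit → ℂ)) (clsω M) :=
  ⟨rfl, fun _ _ => rfl, fun _ _ => rfl⟩

theorem cls_fp' (h : Mono.FP (tor (M := fun _ : Unit => M)) {c | c () ∈ C}) :
    Mono.FP Pub.scal C :=
  haveI : Holo.IsAct Pub.scal C := ⟨fun x _ => ac_scal.one x, fun a b _ _ x _ => ac_scal.mul a b x,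
    fun a ha x hx => h.mem a ha (fun _ => x) hx, fun _ _ _ _ => analyticAt_pi_iff.2 fun j =>
      (analyticAt_pi_iff.1 analyticAt_fst ()).mul (analyticAt_pi_iff.1 analyticAt_snd j)⟩
  haveI := h.lc
  let f : Holo.Sp Pub.scal C ≃ₜ Holo.Sp (tor (M := fun _ : Unit => M)) {c | c () ∈ C} :=
    (clsω M).toHomeomorph.subtype fun _ => Iff.rfl
  { toIsAct := ‹_›
    proper := Orb.properSMul_of_map f.continuous fun _ _ => rfl
    lc := f.locallyCompactSpace_iff.2 inferInstance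
    free := fun x g e => h.free (f x) g (congrArg f e) }

variable {ι B E : Type} [Fintype ι] [Monoid B] [NormedAddCommGroup E] [NormedSpace ℂ E] {n : ℕ}
  {M' : ι → ℕ} {C' : Set (V M')}

theorem cls_iso {sc : B → E → E} {p : Fin n → Fin M → ℂ} {p' : Fin n → V M'}
    {G : (Fin M → ℂ) → E} {G' : V M' → E} {φ : (Fin M → ℂ) → V M'}
    (a : Iso Pub.scal tor sc C C' p p' G G' φ) :
    Iso (tor (M := fun _ : Unit => M)) tor sc {c | c () ∈ C} C' (fun i _ => p i) p'
      (fun c => G (c ())) G' fun c => φ (c ()) := by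
  obtain ⟨a, ⟨ψ, b, d, e⟩, k, l⟩ := a
  have s : ∀ {x y : Fin M → ℂ}, Same Pub.scal x y →
      Same (tor (M := fun _ : Unit => M)) (fun _ => x) fun _ => y :=
    fun ⟨t, u, v⟩ => ⟨t, u, funext fun _ => v⟩
  refine ⟨fun c hc => ?_, ⟨fun c _ => ψ c, fun c hc => ?_, fun c hc => s (d _ hc), e⟩, k,
    fun c hc => l _ hc⟩
  · obtain ⟨a1, a2, g, a3, a4⟩ := a _ hc
    exact ⟨a1, a2, fun y => g (y ()), a3.comp_of_eq (analyticAt_pi_iff.1 analyticAt_id ()) rfl,
      tendsto_nhdsWithin_iff.2 ⟨((continuous_apply ()).tendsto c).mono_left nhdsWithin_le_nhds,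
        self_mem_nhdsWithin⟩ a4⟩
  · obtain ⟨a1, a2, g, a3, a4⟩ := b _ hc
    exact ⟨a1, fun t u => s (a2 t u), fun y _ => g y, analyticAt_pi_iff.2 fun _ => a3,
      a4.mono fun _ => s⟩

end

theorem lCls : LCls := by
  rintro N c F g g' n M C m p f M' C' m' p' f' φ β h h' - hf a ⟨k, γ, u, k1, k2, k3⟩
  obtain ⟨X, _, _, _, R, Nd, A, π, q⟩ := (lTst M g m C n p h).1.isNodal.exists_par
  obtain ⟨X', _, _, _, R', Nd', A', π', q'⟩ := h'.isNodal.exists_par
  obtain ⟨b, Ψ, b1, b2⟩ := cls_homeo q q' (cls_iso a)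
  obtain ⟨Φ, b3⟩ := (cls_tr (M := M)).exists_quo (S := C) (S' := {c | c () ∈ C}) fun _ => Iff.rfl
  obtain ⟨γ, k4, rfl⟩ := isFund_iff.1 ((U.isFund_iff (cls_fp' (cls_fp q)) γ).1 k1)
  let u' : Quo tor C' → (ci F).X := fun z => Quo.mk _ ⟨f' z.out, (hf _ z.out.2).1⟩
  have e : (u' ∘ Ψ) ∘ Φ = u := funext fun z => by
    obtain ⟨l, e⟩ := k2 z
    have e1 : Ψ (Φ z) = Quo.mk tor ⟨φ z.out, (a.1 _ z.out.2).1⟩ :=
      (congrArg (Ψ ∘ Φ) (Quot.out_eq z).symm).trans ((congrArg Ψ (b3 _)).trans (b1 _))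
    obtain ⟨t, t0, e2⟩ := (cls_mk_eq q').1 (e1.symm.trans (Quot.out_eq _).symm)
    have e3 := hf _ (a.1 _ z.out.2).1
    have e4 : ∀ {x y} (u v), Same (ci F).act x y →
        Quo.mk (ci F).act (⟨x, u⟩ : (ci F).cone) = Quo.mk _ ⟨y, v⟩ := fun _ _ w => Quot.sound w
    exact ((e.trans (e4 _ e3.1 (a.2.2.2 _ z.out.2))).trans (e4 _ _
      ((congrArg (fun y => Same (ci F).act _ (f' y)) e2).mpr (e3.2.1 t (isUnit_pi_iff.2 t0))))).symm
  refine ⟨b ((clsω M).toHomeomorph.isConnected_preimage.1 k), Tf.fn (push Ψ (push Φ γ)), u',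
    (U.isFund_iff (cls_fp q') _).2 (isFund_fn.2 (b2 _ (cls_tr.isFund (fun _ => Iff.rfl) b3 k4))),
    fun z => ⟨_, rfl⟩, fun y hy => ?_⟩
  obtain ⟨y, -, rfl⟩ := zc_iff.1 hy
  refine (k3 _ hy).trans ((Tf.fn_val γ (pull u y)).trans (.trans ?_ (Tf.fn_val _ (pull u' y)).symm))
  rw [ev_push_homeo, ev_push_homeo, pull_pull, pull_pull, ← e]
  rfl

end Vale.Agent.P269L.I
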