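import Vale.Agent.P269L.I.Dat
import Vale.Agent.P269L.I.Crv

/-!
# Curves and test curves
-/

set_option linter.unusedSectionVars false

namespace Vale.Agent.P269L.I

open Set Function Topology Filter Vale.Agent.P269

theorem lCrv : LCrv := fun _ _ _ _ _ _ _ _ _ h a b => crv_of h a b

variable {B E E' ι : Type} [Monoid B] [NormedAddCommGroup E] [NormedSpace ℂ E]
  [NormedAddCommGroup E'] [NormedSpace ℂ E'] [Fintype ι] {n : ℕ} {act : B → E → E}
  {act' : B → E' → E'} {C : Set E} {C' : Set E'}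

variable (act act' C C') in
/-- A linear isomorphism that respects the actions and the curves. -/
structure Tr (L : E ≃L[ℂ] E') : Prop where
  eqv : ∀ t c, L (act t c) = act' t (L c)
  mem : ∀ c, L c ∈ C' ↔ c ∈ C

namespace Tr

variable {L : E ≃L[ℂ] E'} (h : Tr act act' C C' L) {c v : E} {γ δ : ℂ → E} {χ : (ι → ℕ) → B → ℂ}
include h

theorem symm : Tr act' act C' C L.symm :=
  ⟨fun t c => L.injective (by simp [h.eqv]), fun c => by rw [← h.mem, L.apply_symm_apply]⟩

theorem dir_iff : L v ∈ dir act' (L c) ↔ v ∈ dir act c :=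
  exists_congr fun t => by simp only [← h.eqv, L.injective.eq_iff]

theorem same : Same act' (L c) (L v) ↔ Same act c v :=
  exists_congr fun t => by rw [← h.eqv, L.injective.eq_iff]

omit h in
theorem deriv_eq (a : AnalyticAt ℂ γ 0) : deriv (fun z => L (γ z)) 0 = L (deriv γ 0) :=
  (L.hasFDerivAt.comp_hasDerivAt 0 a.differentiableAt.hasDerivAt).deriv

theorem br (a : Br act C γ) : Br act' C' fun z => L (γ z) :=
  ⟨(L.analyticAt _).comp a.1, a.2.1.mono fun _ => (h.mem _).2, by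
    rw [deriv_eq a.1, h.dir_iff]
    exact a.2.2⟩

theorem cross (a : Cross act C c γ δ) : Cross act' C' (L c) (fun z => L (γ z)) fun z => L (δ z) :=
  ⟨h.br a.1, h.br a.2.1, congrArg L a.2.2.1, congrArg L a.2.2.2.1, fun s => by
    rw [deriv_eq a.1.1, deriv_eq a.2.1.1, ← map_smul, ← map_sub, h.dir_iff]
    exact a.2.2.2.2 s⟩

theorem tendsto : Tendsto L (𝓝[C] c) (𝓝[C'] (L c)) :=
  L.continuous.continuousWithinAt.tendsto_nhdsWithin fun y => (h.mem y).2

theorem pol_mem {a : ι → ℕ} {q : E' → ℂ} (k : q ∈ pol act' χ a) : q ∘ L ∈ pol act χ a :=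
  ⟨k.1.comp L.differentiable, fun t c => (congrArg q (h.eqv t c)).trans (k.2 t _)⟩

theorem finrank_eq (a : ι → ℕ) : Set.finrank ℂ (C'.domRestrict '' pol act' χ a) =
    Set.finrank ℂ (C.domRestrict '' pol act χ a) := by
  let e := LinearEquiv.funCongrLeft ℂ ℂ (L.toEquiv.subtypeEquiv fun c => (h.mem c).symm)
  have : C.domRestrict '' pol act χ a = e '' (C'.domRestrict '' pol act' χ a) := by
    rw [image_image]
    refine subset_antisymm (image_subset_iff.2 fun q k => ⟨_, h.symm.pol_mem k, funext fun c =>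
      congrArg q (L.symm_apply_apply c)⟩) (image_subset_iff.2 fun q k => ⟨_, h.pol_mem k, rfl⟩)
  rw [this, Set.finrank, Set.finrank, ← e.finrank_map_eq]
  exact congrArg (fun S : Submodule ℂ _ => Module.finrank ℂ S) (Submodule.map_span _ _)

theorem crv {g : ℤ} {m : ι → ℤ} {p : Fin n → E} (k : Crv act C χ g m p) :
    Crv act' C' χ g m fun i => L (p i) := by
  obtain ⟨h1, h2, h3, h4, h5, h6⟩ := k
  refine ⟨L.surjective.forall.2 fun c hc => ?_, L.surjective.forall.2 fun c hc =>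
    L.surjective.forall.2 fun c' e => (h.mem _).2 (h2 c ((h.mem _).1 hc) c' (h.same.1 e)),
    L.surjective.forall.2 fun c hc => ?_, fun a ha => ⟨fun f hf => ?_, ?_⟩,
    fun i => ⟨(h.mem _).2 (h5 i).1, fun γ δ e => (h5 i).2 _ _
      (L.symm_apply_apply (p i) ▸ h.symm.cross e)⟩, fun i j e => h6 i j (h.same.1 e)⟩
  · rw [h.mem, h1 c (L.symm_apply_apply c ▸ map_mem_closure L.symm.continuous hc
      fun y => (h.symm.mem y).2), ← L.injective.of_comp_iff]
    exact iff_of_eq (congrArg _ (funext fun t => h.eqv t c))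
  · obtain ⟨γ, δ, a, b⟩ := h3 c ((h.mem _).1 hc)
    refine ⟨_, _, a.imp (fun e => ⟨h.br e.1, congrArg L e.2.1, by rw [e.2.2]⟩) h.cross,
      fun ε hε => (h.symm.tendsto.eventually (L.symm_apply_apply c ▸ b ε hε :)).mono
        fun y ⟨t, z, u, w⟩ => ⟨t, z, u, ?_⟩⟩
    simpa only [L.symm_apply_eq, h.eqv] using w
  · obtain ⟨q, a, b⟩ := (h4 a ha).1 (f ∘ L) fun c hc =>
      let ⟨u, G, w, z⟩ := hf _ ((h.mem c).2 hc)
      ⟨fun t ht => by simpa only [comp_apply, h.eqv] using u t ht, G ∘ L,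
        w.comp (L.analyticAt c), h.tendsto z⟩
    exact ⟨_, h.symm.pol_mem a, fun y hy =>
      (congrArg f (L.apply_symm_apply y).symm).trans (b ((h.symm.mem y).2 hy))⟩
  · rw [h.finrank_eq, (h4 a ha).2]

end Tr

theorem tr_unit {M : ℕ} (C : Set (Fin M → ℂ)) : Tr Pub.scal (sm fun _ : Unit => M) C {c | c () ∈ C}
    (ContinuousLinearEquiv.funUnique Unit ℂ (Fin M → ℂ)).symm :=
  ⟨fun _ _ => rfl, fun _ => Iff.rfl⟩

theorem lTst : LTst := fun _ _ _ C _ _ h => isCurve_of () ((tr_unit C).crv h)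

end Vale.Agent.P269L.I
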