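import Vale.Agent.P269L.I.Dat
import Vale.Agent.P269L.I.Eq

/-!
# The data of the chart are equivariant; the embedding of the target
-/

set_option linter.all false

namespace Vale.Agent.P269L.I

open Set Function Topology Filter P269 P269.Ch P269.Ch.AnM P269.Holo

variable {R J K ι ν : Type} [Fintype R] [Fintype J] [Fintype K] [Fintype ι] [DecidableEq ι]
  [Fintype ν] {ch : Ch ι J}

theorem rep_act : Rep (act : ch.A ν → ch.W ν → ch.W ν) :=
  ⟨inferInstance, Ch.act_one, fun u _ => ⟨⟨fun x y => W.ext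
      (fun l => ContinuousLinearMap.ext fun μ => map_add (u.2.1 l) _ _)
      (fun n => funext fun i => (congrArg _ (map_add (u.1 i) _ _)).trans (smul_add _ _ _))
      (ContinuousLinearMap.ext fun μ => map_add (u.2.1 none) _ _)
      fun j => ContinuousLinearMap.ext fun μ => map_add (u.2.1 (some j)) _ _,
    fun t x => W.ext (fun l => ContinuousLinearMap.ext fun μ => map_smul (u.2.1 l) _ _)
      (fun n => funext fun i => (congrArg _ (map_smul (u.1 i) _ _)).trans (smul_comm _ _ _))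
      (ContinuousLinearMap.ext fun μ => map_smul (u.2.1 none) _ _)
      fun j => ContinuousLinearMap.ext fun μ => map_smul (u.2.1 (some j)) _ _⟩,
    fun _ => ⟨an_act₂ _, fun _ _ => act_mul _ _ _⟩⟩⟩

theorem rep_eps : Rep fun (s : ch.A ν) (c : V ch.M) i => s.1 i (c i) :=
  ⟨inferInstance, fun _ => rfl, fun u _ => ⟨⟨fun _ _ => funext fun i => map_add (u.1 i) _ _,
    fun _ _ => funext fun i => map_smul (u.1 i) _ _⟩, fun _ => ⟨AnalyticAt.pi fun i =>
      an_apply (analyticAt_pi_iff.1 (analyticAt_fst.comp analyticAt_fst) i)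
        (analyticAt_pi_iff.1 analyticAt_snd i), fun _ _ => rfl⟩⟩⟩

theorem rep_nu : Rep fun (s : ch.A ν) (w : ∀ j, ch.Th j →L[ℂ] ℂ) j => w j ∘L sub s _ :=
  ⟨inferInstance, fun _ => rfl, fun _ _ => ⟨⟨fun _ _ => rfl, fun _ _ => rfl⟩, fun _ =>
    ⟨AnalyticAt.pi fun j => an_comp (analyticAt_pi_iff.1 analyticAt_snd j) (an_sub analyticAt_fst _),
      fun _ _ => rfl⟩⟩⟩

theorem rep_tau {M : ι → ℕ} : Rep fun (t : ι → ℂ) (c : V M) => t • c :=
  ⟨inferInstance, one_smul _, fun u _ => ⟨⟨smul_add u, fun t c => funext fun i => smul_comm (u i) t (c i)⟩,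
    fun _ => ⟨AnalyticAt.pi fun i => (analyticAt_pi_iff.1 analyticAt_fst i).smul
      (analyticAt_pi_iff.1 analyticAt_snd i), fun _ _ => mul_smul _ _ _⟩⟩⟩

theorem lin_tau {M : ι → ℕ} (c : V M) : IsLinearMap ℂ fun t : ι → ℂ => t • c :=
  ⟨fun _ _ => add_smul _ _ _, fun a t => funext fun i => mul_smul a (t i) (c i)⟩

variable {T : Tgt Unit J K} {e : K → ι → ℕ} {E : Type} [NormedAddCommGroup E] [NormedSpace ℂ E]
  [FiniteDimensional ℂ E] {j : E →ₗ[ℂ] ch.P K} {ρ' : ch.A ν → E → E}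

theorem rep_rho (h : P269L.T.IsKur ch ν T e) (c : G.Crd (P269L.T.kdT ch ν T e) j ρ') : Rep ρ' :=
  let ⟨_, _, _, _, h⟩ := h
  ⟨inferInstance, G.rho_one h c, fun _ hu => ⟨G.rho_lin h c hu, fun x => ⟨G.an_rho h c hu x,
    fun _ hw => G.rho_mul h c hu hw x⟩⟩⟩

theorem uu_act {s : ch.A ν} (hs : IsUnit s) {x : ch.W ν} (hx : x ∈ ch.base ν) {c : V ch.M}
    (hc : c ∈ crv x) (l) (w : ch.E l) :
    uu (act s x) (fun i => s.1 i (c i)) l (s.2.1 l w) = uu x c l w := by
  rw [uu_eq (x := act s x) (act_mem_base hs.unit hx) ((gr_act hs).1 (uu_mem hc))]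
  exact congrArg (uu x c l) (DFunLike.congr_fun (Ring.inverse_mul_cancel _ (isUnit_E hs l)) w)

variable {n r : ℕ} {a b : ι → ℕ} {jj : (Fin r → ℂ) →ₗ[ℂ] ch.P K}
  {ρ₀ : ch.A (Fin n) → (Fin r → ℂ) → Fin r → ℂ}

theorem eqv_dat (h : P269L.T.IsKur ch (Fin n) T e) (c : G.Crd (P269L.T.kdT ch (Fin n) T e) jj ρ₀) :
    (dat ch n T e a b jj ρ₀).Eqv := by
  refine ⟨rep_act, rep_eps, rep_nu, rep_rho h c, rep_tau, lin_tau, fun u hu => ⟨fun i =>
    Pi.isUnit_iff.2 fun k => Ne.isUnit (tor_ne hu.unit i k), fun z => ⟨fun w => funext fun i =>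
      map_smul (u.1 i) (w i) (z i), fun _ => rfl, fun l w => by cases l <;> rfl⟩,
    fun x hx => ⟨act_mem_base hu.unit hx, crv_act hu x, fun _ => rfl, fun z hz => ⟨funext fun j =>
      ContinuousLinearMap.ext fun μ => uu_act hu hx hz _ _, fun κ l => ?_⟩⟩⟩⟩
  have e1 : (fun i => Ring.inverse (u.1 i) (u.1 i (z i))) = z := funext fun i =>
    DFunLike.congr_fun (Ring.inverse_mul_cancel _ (isUnit_fst hu i)) (z i)
  have e2 : (fun l => uu (act u x) (fun i => u.1 i (z i)) l ∘L u.2.1 l) = uu x z :=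
    funext fun l => ContinuousLinearMap.ext (uu_act hu hx hz l)
  change evL (jj (ρ₀ u κ)) l (_, _) = evL (jj κ) _ (z, uu x z)
  rw [c.eqv u κ hu, ← e2]
  conv_rhs => arg 3; arg 1; rw [← e1]
  cases l <;> rfl

/-- **Equivariance.** -/
theorem lEqv : LEqv := fun _ _ _ _ _ _ _ _ _ _ _ _ h => eqv_dat h.kur h.crd

theorem ne_of_inj {M : ι → ℕ} {c : V M} (h : Injective fun t : ι → ℂ => t • c) (i : ι) : c i ≠ 0 :=
  fun a => one_ne_zero (α := ℂ) (by
    simpa using congrFun (@h (Pi.single i 1) 0 (funext fun k => by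
      by_cases b : k = i
      · subst b
        simp [a]
      · simp [b])) i)

theorem emb_dat (hb : ∀ j, ch.b j = b) (hl : Le ch T e) (hU : T.U = {0}ᶜ) :
    (dat ch n T e a b jj ρ₀).Emb chr T.cone T.tan := by
  refine ⟨fun q => (an_jm (ch := ch) analyticAt_fst analyticAt_snd).differentiableAt, fun l q =>
    (an_Hq T e analyticAt_fst analyticAt_snd l).differentiableAt, fun c =>
      ⟨⟨(jm (ch := ch) c).map_add, (jm (ch := ch) c).map_smul⟩, fun u y => jm_smul hb u c y,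
        fun h => ?_⟩⟩
  have hc := ne_of_inj h
  refine ⟨jm_inj hc, fun w hw => (Hq_eq_zero hl hc).trans ⟨fun ⟨y, h1, h2⟩ => ⟨y, ⟨?_, h1⟩, h2.symm⟩,
    fun ⟨y, h1, h2⟩ => ⟨y, h1.2, h2.symm⟩⟩, fun y _ w => (forall_congr' fun l => Eq.congr_left
      (fderiv_Hq T e l c (jm c y) w)).trans ((dH_eq_zero hl hc y).trans
        (exists_congr fun _ => and_congr_right fun _ => eq_comm))⟩
  rw [hU]
  rintro rfl
  exact hw (h2.trans (map_zero _))

theorem le_cH {N c : ℕ} (F : Fin c → MvPolynomial (Fin (N + 1)) ℂ) (g d : ℤ) (n k D : ℕ) :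
    Le (cH F g d n k D) (ci F) (eH F g d n k D) := fun q α hα i => by
  simp only [eH, cH_b]
  rw [← Finset.sum_mul, ← Finsupp.sum_fintype α (fun _ m => m) fun _ => rfl]
  exact Nat.mul_le_mul (MvPolynomial.le_totalDegree hα)
    (Finset.single_le_sum (f := fun _ => bH i) (fun _ _ => Nat.zero_le _) (Finset.mem_univ 0))

/-- **The embedding of the target.** -/
theorem lEmb : LEmb := fun _ _ F g d n k D _ _ _ _ _ =>
  emb_dat (cH_b F g d n k D) (le_cH F g d n k D) rfl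

end Vale.Agent.P269L.I
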