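import Vale.Agent.P269L.I.LCrv
import Vale.Agent.P269L.T.Pol

/-!
# The family of curves of the chart
-/

set_option linter.unusedSectionVars false

namespace Vale.Agent.P269L.I

open Set Function Topology Filter Module P269 P269.Ch P269.Holo

variable {ι J K ν : Type} [Fintype ι] [DecidableEq ι] [Fintype J] [Fintype K] [Fintype ν]
  {ch : Ch ι J}

/-- The evaluations are holomorphic on the total space. -/
theorem ext_uu {x : ch.W ν} (hx : x ∈ ch.base ν) (c : V ch.M) :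
    ∃ U, Ext {q : ch.W ν × V ch.M | q.1 ∈ ch.base ν ∧ q.2 ∈ crv q.1} (fun q => uu q.1 q.2) (x, c) U :=
  let ⟨U, a, b⟩ := exists_an_ev hx.1 c
  ⟨U, a, eventually_nhdsWithin_iff.2 (b.mono fun _ h e => h _ (uu_mem e.2))⟩

theorem uu_smul {x : ch.W ν} (hx : x ∈ ch.base ν) {c : V ch.M} (hc : c ∈ crv x) {t : ι → ℂ}
    (ht : IsUnit t) (l : Option J) : uu x (t • c) l = chr (ch.a l) t • uu x c l :=
  congrFun (uu_eq hx (gr_smul (uu_mem hc) fun i => (Pi.isUnit_iff.1 ht i).ne_zero)) l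

theorem finrank_Vv : finrank ℂ (Vv ch) = ∑ j, finrank ℂ (Tens ch.M (ch.b j)) := by
  simpa only [finrank_self, mul_one] using
    Base.finrank_pi_clm (fun j => Tens ch.M (ch.b j)) fun _ => ℂ

variable {n r : ℕ} {T : Tgt Unit J K} {e : K → ι → ℕ} {a b : ι → ℕ}
  {jj : (Fin r → ℂ) →ₗ[ℂ] ch.P K} {ρ' : ch.A (Fin n) → (Fin r → ℂ) → Fin r → ℂ}

theorem fam_dat (h : ch.Num₀) (hι : Fintype.card ι = 2) (ha : ∀ j, ch.a (some j) = a)
    (h0 : ∃ i, a i ≠ 0) (hr : LinearMap.range jj = ch.pol T e)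
    (hs : ∀ x : ch.W (Fin n), sct T e x ∈ ch.pol T e) :
    (dat ch n T e a b jj ρ').Fam chr ch.g := by
  refine ⟨h0, fun i x => (W.an_p analyticAt_id i).differentiableAt, fun l q => ?_, fun x hx => ?_⟩
  · rcases l with l | l <;> exact ⟨fun u v => by simp [dat, evL], fun s u => by simp [dat, evL]⟩
  obtain ⟨N, h1, h2⟩ := h.mfdAt hx
  obtain ⟨l, hl⟩ := h.cut
  have hd : (dat ch n T e a b jj ρ').d = N := by
    change (ch.dimB (Fin n)).toNat = N
    omega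
  refine ⟨?_, hd ▸ mfd_clause h2, crv_of hx.2.2.1 hx.2.2.2.1 hx.2.2.2.2.1,
    flat hx (locFam_base hl ⟨x, hx⟩) hx.2.2.1, fun c hc => ?_⟩
  · have k : ∀ j, (ch.h (some j) : ℤ) = ∑ i, a i * ch.m i + 1 - ch.g := fun j =>
      ha j ▸ h_eq hx (h.a_ne _)
    rw [hd, h1, dimB, finrank_Vv, hι, Fintype.card_fin]
    simp only [Nat.cast_sum, Nat.cast_mul, k, ← Finset.sum_mul]
    change _ = _ + (_ * (∑ i, (a i : ℤ) * ch.m i + 1 - ch.g) - _) + _
    push_cast
    ring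
  obtain ⟨U, a1, a2⟩ := ext_uu hx c
  have a3 : AnalyticAt ℂ (fun q : ch.W (Fin n) × V ch.M => ((q.2, U q) : ch.Pt)) (x, c) :=
    analyticAt_snd.prod a1
  refine ⟨⟨fun q j => U q (some j) ∘L q.1.X j, AnalyticAt.pi fun j => an_comp
    (analyticAt_pi_iff.1 a1 _) (W.an_X analyticAt_fst j), a2.mono fun q k => funext fun j =>
      congrArg (fun u : ∀ l, ch.E l →L[ℂ] ℂ => u (some j) ∘L q.1.X j) k⟩,
    fun t ht => funext fun j => ?_, fun l => ⟨?_, fun κ => ⟨fun q => evL (jj κ) l (q.2, U q), ?_,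
      a2.mono fun q k => congrArg (fun u => evL (jj κ) l (q.2, u)) k⟩⟩⟩
  · change uu x (t • c) (some j) ∘L x.X j = chr a t • uu x c (some j) ∘L x.X j
    rw [uu_smul hx hc ht, ha, ContinuousLinearMap.smul_comp]
  · change evL (jj (invFun jj (sct T e x))) l _ = _
    rw [invFun_eq (hr.ge (hs x))]
    cases l <;> rfl
  · have m := mem_polS.1 (hr.le ⟨κ, rfl⟩)
    rcases l with ⟨j, μ⟩ | ⟨k, ζ⟩
    exacts [P269L.T.Pol.an_G1 a3 analyticAt_const (m.1 j),
      P269L.T.Pol.an_G2 a3 analyticAt_const (m.2 k)]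

theorem sct_mem {R : Type} [Fintype R] {T : Tgt R J K} {χ : K → R → ℤ} (h : ch.Fits (T.fam χ) e)
    (x : ch.W ν) : sct T e x ∈ ch.pol T e := by
  rw [← polF_fam (χ := χ), ← sctF_trW (χ := χ) (ν₀ := Empty) (κ := Empty)]
  exact h.sctF_mem _

theorem lFam : LFam := fun _ _ F g d n k D _ _ _ _ h =>
  fam_dat h.num rfl (cH_a F g d n k D) ⟨none, one_ne_zero⟩ h.crd.rng
    (let ⟨_, s⟩ := h.std; sct_mem s.fits)

end Vale.Agent.P269L.I
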