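import Vale.Agent.P269L.I.Dat
import Vale.Agent.P269L.I.Hol
import Vale.Agent.P269L.I.Crv

/-!
# The solutions are stable maps and their isomorphisms are the elements of the group
-/

namespace Vale.Agent.P269L.I

open Set Function Topology Filter Vale.Agent.P269 Vale.Agent.P269.Ch

theorem stab_fin {A W P : Type} [NormedRing A] [NormedAlgebra ℂ A] [NormedAddCommGroup W]
    [NormedSpace ℂ W] [AddCommGroup P] [Module ℂ P] [TopologicalSpace P] {D : KD A W P}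
    {act : A → W → W} {Z S O : Set W} (h : D.Dom act Z S O) {x : W} (hx : x ∈ Z) :
    {a | IsUnit a ∧ act a x = x}.Finite := by
  have := h.isAct
  have := h.orb.finite_stabilizer (Holo.Sp.of act x (h.sub hx))
  refine (finite_range fun g : MulAction.stabilizer Aˣ (Holo.Sp.of act x (h.sub hx)) =>
    (g.1 : A)).subset ?_
  rintro _ ⟨⟨g, rfl⟩, e⟩
  exact ⟨⟨g, Holo.Sp.ext e⟩, rfl⟩

variable {N c : ℕ} (F : Fin c → MvPolynomial (Fin (N + 1)) ℂ)

theorem lt_ci : Lt (fun _ _ => 1 : Fin (N + 1) → Unit → ℤ) (ci F).cone := fun y hy _ => by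
  obtain ⟨j, a⟩ := Function.ne_iff.1 hy.1
  exact ⟨Pi.single j 1, fun j' e => Pi.single_eq_of_ne (fun k => a ((congrArg y k).symm.trans e)) _,
    funext fun _ => by simp⟩

theorem same_ci (z z' : Fin (N + 1) → ℂ) (h : Same (ci F).act z z') :
    ∃ t : Unit → ℂ, (∀ r, t r ≠ 0) ∧ ∀ j, z' j = (∏ r, t r ^ (1 : ℤ)) * z j :=
  let ⟨t, a, b⟩ := h
  ⟨t, isUnit_pi_iff.1 a, congrFun b⟩

theorem ci_same (z : Fin (N + 1) → ℂ) (t : Unit → ℂ) (h : ∀ r, t r ≠ 0) :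
    Same (ci F).act z fun j => (∏ r, t r ^ (1 : ℤ)) * z j :=
  ⟨t, isUnit_pi_iff.2 h, rfl⟩

theorem ac_ci : Ac (ci F).act :=
  ⟨fun _ => funext fun _ => by simp [Tgt.act], fun _ _ _ => funext fun _ => by
    simp [Tgt.act, ci, mul_assoc], fun _ _ => analyticAt_pi_iff.2 fun j =>
      analyticAt_const.mul (analyticAt_pi_iff.1 analyticAt_id j)⟩

theorem lIsoG : LIsoG := fun _ _ F _ _ _ _ _ _ _ _ _ h _ hx _ hy _ e =>
  iso_eq h.lat (lt_ci F) h.num.a_ne h.num.M_eq (same_ci F) hx hy (fun _ _ => rfl) (fun _ _ => rfl) e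

theorem lStb : LStb := fun _ _ F _ _ _ _ _ _ _ _ _ h _ hx =>
  let ⟨_, _, _, _, k⟩ := h.kur
  ⟨crv_of hx.1.2.2.1 hx.1.2.2.2.1 hx.1.2.2.2.2.1, hol_fld h.lat.wd (ci_same F) hx,
    aut_fin h.lat (lt_ci F) h.num.a_ne h.num.M_eq (same_ci F) hx (fun _ _ => rfl)
      (stab_fin k.dom hx)⟩

end Vale.Agent.P269L.I
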