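import Vale.Agent.P269L.I.LKer0
import Vale.Agent.P269L.I.Ker3

/-!
# The kernel of the derivative of the map is the Lie algebra
-/

set_option linter.all false

namespace Vale.Agent.P269L.I

open Set Function Topology Filter P269 P269.Ch P269.Ch.AnM P269.Holo

variable {S Λ J K ι : Type} [Fintype S] [Fintype Λ] [Fintype J] [Fintype K] [Fintype ι]
  [DecidableEq ι] {ch : Ch ι J} {T : Tgt Unit J K} {e : K → ι → ℕ} {n r : ℕ} {a b : ι → ℕ}
  {jj : (Fin r → ℂ) →ₗ[ℂ] ch.P K} {ρ₀ : ch.A (Fin n) → (Fin r → ℂ) → Fin r → ℂ}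
  {x v : ch.W (Fin n)} {ξ : V ch.M → V ch.M} {W : Wt S Λ Unit J} {ℓ : Unit → ι → ℤ}

theorem LK.bij (h : ch.Lat W ℓ) :
    Bijective fun l : ι → ℂ => (∑ i, (ch.χ i : ℂ) * l i, ∑ i, (ℓ () i : ℂ) * l i) := by
  obtain ⟨w, h1, h2, h3⟩ := h.dual
  refine ⟨fun l l' k => funext fun i => ?_, fun z =>
    ⟨fun i => z.1 * w none i + z.2 * w (some ()) i, ?_⟩⟩
  · have e : ∀ l : ι → ℂ, l i = w none i * ∑ j, (ch.χ j : ℂ) * l j +
        w (some ()) i * ∑ j, (ℓ () j : ℂ) * l j := fun l => by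
      have : ∀ j, (w none i : ℂ) * (ch.χ j * l j) + w (some ()) i * (ℓ () j * l j) =
          if j = i then l j else 0 := fun j => by
        have := congrArg (fun m : ℤ => (m : ℂ) * l j) (congrFun (h3 i) j)
        simp only [Fintype.sum_option, Finset.univ_unique, Finset.sum_singleton, Option.elim,
          Pi.single_apply] at this
        split_ifs at this ⊢ <;> push_cast at this <;> linear_combination this
      simp [Finset.mul_sum, ← Finset.sum_add_distrib, this]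
    rw [e l, e l', (Prod.mk.inj k).1, (Prod.mk.inj k).2]
  · have c : ∀ (f : ι → ℤ) (p q : ℤ), ∑ i, f i * w none i = p → ∑ i, f i * w (some ()) i = q →
        ∑ i, (f i : ℂ) * (z.1 * w none i + z.2 * w (some ()) i) = z.1 * p + z.2 * q := by
      rintro f _ _ rfl rfl
      push_cast
      simp only [Finset.mul_sum, ← Finset.sum_add_distrib]
      exact Finset.sum_congr rfl fun i _ => by ring
    exact Prod.ext ((c _ _ _ (h1 none) (h2 none _ (by simp))).trans (by simp))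
      ((c _ _ _ (h2 (some ()) none (by simp)) (h1 (some ()))).trans (by simp))

theorem ker_dat (hl : ch.Lat W ℓ) (hw : ∀ j, W.w j () = 1) (hn : ch.Num₀)
    (hU : ∀ y ∈ T.cone, y ≠ 0) (hx : x ∈ ch.sol (Fin n) T)
    (h1 : (dat ch n T e a b jj ρ₀).TT x v ξ) (h2 : (dat ch n T e a b jj ρ₀).RR x v ξ fun _ => 0) :
    let D := dat ch n T e a b jj ρ₀
    ∃ u, v = fderiv ℂ (D.α · x) 1 u ∧ ∀ c ∈ D.C x, ξ c - fderiv ℂ (D.ε · c) 1 u ∈ dir D.τ c := by
  choose R₀ hR₀ using fun l => (x.Q l).toLinearMap.exists_rightInverse_of_surjective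
    (LinearMap.range_eq_top.2 (hx.1.1 l))
  let R := fun l => LinearMap.toContinuousLinearMap (R₀ l)
  have hR : ∀ l e, x.Q l (R l e) = e := fun l => LinearMap.congr_fun (hR₀ l)
  have hκ : ∀ j i, (ℓ () i : ℂ) = ch.a (some j) i - ch.b j i := fun j i => by
    have := hl.wd j i
    rw [Finset.univ_unique, Finset.sum_singleton, hw, one_mul] at this
    rw [← this, Ch.wd]
    push_cast
    rfl
  obtain ⟨u, k1, k2⟩ := Ker.Lf.ker hR hκ ⟨fun c => LK.tt_hom h1,
    fun γ k => LK.tt_hol h1 γ k.holo k.mem, fun c hc => LK.tt_tg h1 hc, LK.tt_mrk h1⟩ hn hx.1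
    (LK.tt_tan h1 hx.1) (LK.bij hl) fun c hc => by
      have a1 : AnalyticAt ℂ (fun (q : ch.W (Fin n) × V ch.M) j => Ker.U R (some j) q ∘L q.1.X j)
          (x, c) := AnalyticAt.pi fun j => an_comp (Ker.an_U hR _ c) (Ch.W.an_X analyticAt_fst j)
      obtain ⟨s, k⟩ := LK.rr_rad h2 hx hc a1 ((continuousAt_fst.eventually (Ker.U_gr hR)).mono
        fun q k u _ hu j μ => k _ u hu _ _)
      have e : ∀ j μ, Ker.U R (some j) (x, c) (x.X j μ) = fld x c j * val μ c := fun j μ =>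
        ((Ker.U_gr hR).self_of_nhds c _ (uu_mem hc) _ _).trans
          ((fld_mem hx hc).2 j _ (uu_mem hc) μ)
      obtain ⟨j, hj⟩ := ne_iff.1 (hU _ (fld_mem hx hc).1)
      obtain ⟨μ, hμ⟩ := exists_val_one (a := ch.b j) (crv_ne hc)
      refine ⟨s, (Ker.D₂_iff hR hκ).2 ⟨⟨j, μ, by rwa [e, hμ, mul_one]⟩, fld x c, fun j μ =>
        ⟨e j μ, ?_⟩⟩⟩
      rw [e, ← k, add_sub_cancel]
      exact LK.fderiv_ap a1.differentiableAt _ j μ
  exact LK.li_of k1 k2

/-- **The kernel is the Lie algebra.** -/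
theorem lKer : LKer := fun _ _ _ _ _ _ _ _ _ _ _ _ h _ hx _ _ h1 h2 =>
  ker_dat h.lat (fun _ => rfl) h.num (fun _ k => k.1) hx h1 h2

end Vale.Agent.P269L.I
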