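import Vale.Agent.P269L.I.Dat

/-!
# The Zariski tangent space of the text
-/

set_option linter.unusedSectionVars false

namespace Vale.Agent.P269L.I

open Set Function Topology Filter P269 P269.Holo P269.Base

section

variable {E P : Type} [NormedAddCommGroup E] [NormedSpace ℂ E] [NormedAddCommGroup P]
  [NormedSpace ℂ P] {S : Set E} {a v : E}

theorem Tan.fderiv_eq_zero {F : Type} [NormedAddCommGroup F] [NormedSpace ℂ F] (hv : v ∈ Tan S a)
    {Φ : E → F} (h1 : AnalyticAt ℂ Φ a) (h2 : ∀ᶠ y in 𝓝[S] a, Φ y = 0) : fderiv ℂ Φ a v = 0 :=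
  SeparatingDual.eq_zero_of_forall_dual_eq_zero (R := ℂ) fun l =>
    (congr($((l.hasFDerivAt.comp a h1.differentiableAt.hasFDerivAt).fderiv) v)).symm.trans
      (hv (l ∘ Φ) ⟨(l.analyticAt _).comp h1, h2.mono fun y e => by simp [e]⟩)

theorem mem_Tan_iff (ha : a ∈ S) : v ∈ Tan S a ↔ v ∈ tan (Subtype.val : S → E) ⟨a, ha⟩ := by
  refine ⟨fun hv Φ h1 h2 => Tan.fderiv_eq_zero hv h1 (eventually_nhdsWithin_iff.2
    ((ev_sub ha (p := fun s => Φ s = 0)).1 h2)), fun hv h ⟨h1, h2⟩ => ?_⟩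
  have := hv (fun y => h y • v) (h1.smul analyticAt_const) ((ev_sub ha
    (p := fun s => h s • v = 0)).2 ((eventually_nhdsWithin_iff.1 h2).mono fun y e b => by
      rw [← e b, Pi.zero_apply, zero_smul]))
  rw [(h1.differentiableAt.hasFDerivAt.smul_const v).fderiv] at this
  exact (smul_eq_zero.1 this).elim id fun e => by rw [e, map_zero]

theorem Tan_eq (ha : a ∈ S) : Tan S a = tan (Subtype.val : S → E) ⟨a, ha⟩ :=
  Set.ext fun _ => mem_Tan_iff ha

theorem span_Tan (ha : a ∈ S) :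
    Submodule.span ℂ (Tan S a) = tan (Subtype.val : S → E) ⟨a, ha⟩ := by
  rw [Tan_eq ha, Submodule.span_eq]

theorem arc_mem_Tan {γ : ℂ → E} (h : Arc S a γ) : deriv γ 0 ∈ Tan S a :=
  have ha : a ∈ S := h.zero ▸ h.mem.self_of_nhds
  (mem_Tan_iff ha).2 (h.mem_tan ha)

/-- Tangent vectors of a set with a retraction onto a parametrisation are velocities of arcs. -/
theorem Tan.exists_arc_of (hv : v ∈ Tan S a) {Ψ : P → E} {ρ : E → P} (h1 : AnalyticAt ℂ Ψ (ρ a))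
    (h2 : AnalyticAt ℂ ρ a) (h0 : Ψ (ρ a) = a) (h3 : ∀ᶠ y in 𝓝[S] a, Ψ (ρ y) = y)
    (h4 : ∀ᶠ q in 𝓝 (ρ a), Ψ q ∈ S) : ∃ γ, Arc S a γ ∧ deriv γ 0 = v := by
  have b := Tan.fderiv_eq_zero hv ((h1.comp h2).sub analyticAt_id)
    (h3.mono fun y e => sub_eq_zero.2 e)
  rw [((h1.differentiableAt.hasFDerivAt.comp a h2.differentiableAt.hasFDerivAt).sub
    (hasFDerivAt_id a)).fderiv] at b
  have c : HasDerivAt (fun ε : ℂ => ρ a + ε • fderiv ℂ ρ a v) (fderiv ℂ ρ a v) 0 := by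
    simpa using ((hasDerivAt_id (0 : ℂ)).smul_const (fderiv ℂ ρ a v)).const_add (ρ a)
  have e : ρ a = ρ a + (0 : ℂ) • fderiv ℂ ρ a v := by simp
  have d : AnalyticAt ℂ (fun ε : ℂ => ρ a + ε • fderiv ℂ ρ a v) 0 :=
    analyticAt_const.add (analyticAt_id.smul analyticAt_const)
  exact ⟨fun ε => Ψ (ρ a + ε • fderiv ℂ ρ a v), ⟨h1.comp_of_eq d e.symm, by rw [← e, h0],
    d.continuousAt.tendsto.eventually (e ▸ h4)⟩, (HasFDerivAt.comp_hasDerivAt_of_eq 0
      h1.differentiableAt.hasFDerivAt c e).deriv.trans (sub_eq_zero.1 b)⟩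

theorem Tan.exists_arc {n : ℕ} (hv : v ∈ Tan S a) (h : MfdAt S n a) :
    ∃ γ, Arc S a γ ∧ deriv γ 0 = v := by
  obtain ⟨ha, ψ, h1, h0⟩ := h
  obtain ⟨w, h2, h3, -, h4, -⟩ := h1.exists_inv
  rw [h0] at h2 h3 h4
  exact Tan.exists_arc_of hv (Ψ := fun z => (ψ z).1) (ρ := w) (h3.symm ▸ h1.an) h2
    (by rw [h3, h0]) (eventually_nhdsWithin_iff.2 ((ev_sub ha (p := fun y => (ψ (w y)).1 = y)).1
      (h4.mono fun _ => congrArg Subtype.val))) (.of_forall fun q => (ψ q).2)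

end

variable {ι : Type} [Fintype ι] {M : ι → ℕ} {o : ι} {C : Set (V M)} {c v : V M}

/-- The multicone at a smooth point. -/
theorem Tan.exists_arc_crv (hv : v ∈ Tan C c) (h : Nod o C) (hc : c ∈ C) (hn : ¬IsNode o C c) :
    ∃ γ, Arc C c γ ∧ deriv γ 0 = v := by
  obtain ⟨γ, k⟩ := h.exists_loc hc
  obtain ⟨s, z, a1, a2, -, a3⟩ := k.exists_coord
  have e : (s c, z true c) = (1, 0) := by
    have := (a3 true).self_of_nhds
    simp only [one_smul, k.zero] at this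
    exact Prod.ext this.1 this.2.1
  refine Tan.exists_arc_of hv (Ψ := fun w : (ι → ℂ) × ℂ => w.1 • γ true w.2)
    (ρ := fun y => (s y, z true y)) (e ▸ k.an₂ true) (a1.prod (a2 true)) ?_
    (k.ev _ fun j => ?_) (e ▸ (k.tendsto₂' h true).eventually self_mem_nhdsWithin)
  · simp only [(Prod.mk.inj e).1, (Prod.mk.inj e).2, one_smul, k.zero]
  · rw [k.eq_of_not_node hn]
    exact (a3 true).mono fun w b => by simp only [b.1, b.2.1]

theorem lPsi : LPsi := fun ι _ _ M o g m C p h hp hn => by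
  refine ⟨congrArg _ (Set.ext fun v => ⟨fun hv => ?_, ?_⟩), le_antisymm (Submodule.span_le.2 ?_)
    (Submodule.span_mono ?_)⟩
  · obtain ⟨γ, a, b⟩ := Tan.exists_arc_crv hv h.nod hp hn
    exact ⟨γ, a.an, a.mem, a.zero, b.symm⟩
  · rintro ⟨γ, a, b, c, rfl⟩
    exact arc_mem_Tan ⟨a, c, b⟩
  · rintro _ ⟨t, rfl⟩
    rw [show (fun t => tor t p) t = ∑ i, t i • (Pi.single i (p i) : V M) from by
      simp only [← Pi.single_smul, Finset.univ_sum_single]
      rfl]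
    exact sum_mem fun i _ => Submodule.smul_mem _ _ (Submodule.subset_span ⟨i, rfl⟩)
  · rintro _ ⟨i, rfl⟩
    refine ⟨Pi.single i 1, funext fun j => ?_⟩
    by_cases e : j = i
    · subst e
      simp
    · simp [e]

end Vale.Agent.P269L.I
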