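import Vale.Agent.P269L.I.ExtS
import Vale.Agent.P269L.I.Tan
import Vale.Agent.P269L.I.Hol

/-!
# The relative tangent space of the chart: dictionary
-/

set_option linter.all false

namespace Vale.Agent.P269L.I.LK

open Set Function Topology Filter P269 P269.Ch P269.Ch.AnM P269.Holo

variable {J K ι : Type} [Fintype J] [Fintype K] [Fintype ι] [DecidableEq ι] {ch : Ch ι J}
  {T : Tgt Unit J K} {e : K → ι → ℕ} {n r : ℕ} {a b : ι → ℕ} {jj : (Fin r → ℂ) →ₗ[ℂ] ch.P K}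
  {ρ₀ : ch.A (Fin n) → (Fin r → ℂ) → Fin r → ℂ} {x v : ch.W (Fin n)} {c : V ch.M}
  {ξ : V ch.M → V ch.M}

theorem fderiv_lin {E F : Type} [NormedAddCommGroup E] [NormedSpace ℂ E] [NormedAddCommGroup F]
    [NormedSpace ℂ F] [FiniteDimensional ℂ E] {f : E → F} (h : IsLinearMap ℂ f) (p u : E) :
    fderiv ℂ f p u = f u :=
  DFunLike.congr_fun (LinearMap.toContinuousLinearMap (h.mk' f)).fderiv u

theorem fderiv_eps (u : ch.A (Fin n)) (c : V ch.M) :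
    fderiv ℂ ((dat ch n T e a b jj ρ₀).ε · c) 1 u = fun i => u.1 i (c i) :=
  fderiv_lin ⟨fun _ _ => rfl, fun _ _ => rfl⟩ _ _

theorem fderiv_p (i : Fin n) : fderiv ℂ ((dat ch n T e a b jj ρ₀).p i) x v = v.p i :=
  DFunLike.congr_fun (W.pL (ch := ch) i).fderiv v

theorem fderiv_ap₀ {E : Type} [NormedAddCommGroup E] [NormedSpace ℂ E] {A : J → Type}
    [∀ j, NormedAddCommGroup (A j)] [∀ j, NormedSpace ℂ (A j)] {S : E → ∀ j, A j →L[ℂ] ℂ} {q : E}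
    (h : DifferentiableAt ℂ S q) (w : E) (j μ) :
    fderiv ℂ (fun z => S z j μ) q w = fderiv ℂ S q w j μ := by
  rw [((hasFDerivAt_pi'.1 h.hasFDerivAt j).clm_apply (hasFDerivAt_const μ q)).fderiv]
  simp

/-- evaluation of the components -/
theorem fderiv_ap {E : Type} [NormedAddCommGroup E] [NormedSpace ℂ E] {S : E → Vv ch} {q : E}
    (h : DifferentiableAt ℂ S q) (w : E) (j μ) :
    fderiv ℂ (fun z => S z j μ) q w = fderiv ℂ S q w j μ :=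
  fderiv_ap₀ (A := fun j => Tens ch.M (ch.b j)) h w j μ

theorem fderiv_j (c w : V ch.M) (y : J → ℂ) (j μ) :
    fderiv ℂ (dat ch n T e a b jj ρ₀).j (c, y) (w, 0) j μ = y j * fderiv ℂ (val μ) c w := by
  have h : DifferentiableAt ℂ (dat ch n T e a b jj ρ₀).j (c, y) :=
    (an_jm (ch := ch) analyticAt_fst analyticAt_snd).differentiableAt
  have k := HasFDerivAt.comp (G := Vv ch) c (f := fun z => (z, y)) h.hasFDerivAt
    (hasFDerivAt_prodMk_left (𝕜 := ℂ) c y)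
  have l := fderiv_ap k.differentiableAt w j μ
  rw [k.fderiv] at l
  exact l.symm.trans (DFunLike.congr_fun
    ((Cv.Dict.an_val μ c).differentiableAt.hasFDerivAt.const_smul (y j)).fderiv w)

theorem s_eq (hx : x ∈ ch.sol (Fin n) T) (hc : c ∈ crv x) (j μ) :
    (dat ch n T e a b jj ρ₀).s (x, c) j μ = fld x c j * val μ c :=
  (fld_mem hx hc).2 j _ (uu_mem hc) μ

section

variable (h : (dat ch n T e a b jj ρ₀).TT x v ξ)
include h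

theorem tt_tan (hx : x ∈ ch.base (Fin n)) :
    v ∈ tan (Subtype.val : ch.base (Fin n) → ch.W (Fin n)) ⟨x, hx⟩ := (mem_Tan_iff hx).1 h.1

theorem tt_hom' (hc : c ∈ crv x) (s : ι → ℂ) (hs : ∀ i, s i ≠ 0) :
    ∃ α : ι → ℂ, ξ (s • c) = α • s • c + s • ξ c :=
  let ⟨α, k⟩ := (h.2.1 c hc).1 s (isUnit_pi_iff.2 hs)
  ⟨α, eq_add_of_sub_eq k.symm⟩

theorem tt_hom (hc : c ∈ crv x) (s : ι → ℂ) (hs : ∀ i, s i ≠ 0) :
    ∃ α : ι → ℂ, ξ (s • c) = α • c + s • ξ c :=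
  let ⟨α, k⟩ := tt_hom' h hc s hs
  ⟨α * s, by rw [k, mul_smul]⟩

theorem tt_hol (γ : ℂ → V ch.M) (h1 : AnalyticAt ℂ γ 0) (h2 : ∀ᶠ t in 𝓝 0, γ t ∈ crv x) :
    ∃ η : ℂ → V ch.M, AnalyticAt ℂ η 0 ∧ ∀ᶠ t in 𝓝 0, ∃ α : ι → ℂ, ξ (γ t) = α • γ t + η t :=
  let ⟨η, k, l⟩ := Sec.br h.2.1 h1 h2
  ⟨η, k, l.mono fun _ ⟨α, m⟩ => ⟨α, eq_add_of_sub_eq m.symm⟩⟩

theorem tt_ext (hc : c ∈ crv x) : ∃ g, AnalyticAt ℂ g c ∧
    ∀ᶠ y in 𝓝[crv x] c, ∃ α : ι → ℂ, ξ y = α • y + g y :=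
  let ⟨η, k, l⟩ := (h.2.1 c hc).2
  ⟨η, k, l.mono fun _ ⟨α, m⟩ => ⟨α, eq_add_of_sub_eq m.symm⟩⟩

theorem tt_tg {F : Type} [NormedAddCommGroup F] [NormedSpace ℂ F] (hc : c ∈ crv x)
    (Φ : ch.W (Fin n) × V ch.M → F) (h1 : AnalyticAt ℂ Φ (x, c))
    (h2 : ∀ᶠ q in 𝓝 (x, c), q.1 ∈ ch.base (Fin n) → q.2 ∈ crv q.1 → Φ q = 0) :
    fderiv ℂ Φ (x, c) (v, ξ c) = 0 :=
  Tan.fderiv_eq_zero (h.2.2.1 c hc) h1
    (eventually_nhdsWithin_iff.2 (h2.mono fun _ k l => k l.1 l.2))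

theorem tt_mrk (i : Fin n) : ∃ α : ι → ℂ, ξ (x.p i) = α • x.p i + v.p i :=
  let ⟨α, k⟩ := h.2.2.2 i
  ⟨α, eq_add_of_sub_eq (k.trans (congrArg _ (fderiv_p i))).symm⟩

end

/-- the derivative of the map is radial -/
theorem rr_rad (h : (dat ch n T e a b jj ρ₀).RR x v ξ fun _ => 0) (hx : x ∈ ch.sol (Fin n) T)
    (hc : c ∈ crv x) {S : ch.W (Fin n) × V ch.M → Vv ch} (h1 : AnalyticAt ℂ S (x, c))
    (h2 : ∀ᶠ q in 𝓝 (x, c), ∀ u, q.1 ∈ ch.base (Fin n) → (q.2, u) ∈ gr q.1 →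
      ∀ j μ, S q j μ = u (some j) (q.1.X j μ)) :
    ∃ r : ℂ, ∀ j μ, fderiv ℂ S (x, c) (v, ξ c) j μ - fld x c j * fderiv ℂ (val μ) c (ξ c) =
      r * (fld x c j * val μ c) := by
  obtain ⟨r, k⟩ := h c hc S ⟨h1, eventually_nhdsWithin_iff.2 (h2.mono fun q l m => funext fun j =>
    ContinuousLinearMap.ext fun μ => (l _ m.1 (uu_mem m.2) j μ).symm)⟩
  refine ⟨r, fun j μ => ?_⟩
  rw [← fderiv_j (T := T) (e := e) (a := a) (b := b) (jj := jj) (ρ₀ := ρ₀),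
    ← s_eq (e := e) (a := a) (b := b) (jj := jj) (ρ₀ := ρ₀) hx hc]
  exact (sub_zero _).symm.trans (DFunLike.congr_fun (congrFun k j) μ).symm

/-- the conclusion -/
theorem li_of {u : ch.A (Fin n)} (h1 : v = fderiv ℂ (act · x) 1 u)
    (h2 : ∀ c ∈ crv x, ∃ α : ι → ℂ, ξ c = α • c + fun i => u.1 i (c i)) :
    let D := dat ch n T e a b jj ρ₀
    ∃ u, v = fderiv ℂ (D.α · x) 1 u ∧ ∀ c ∈ D.C x, ξ c - fderiv ℂ (D.ε · c) 1 u ∈ dir D.τ c :=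
  ⟨u, h1, fun c hc => let ⟨α, k⟩ := h2 c hc
    ⟨α, by rw [fderiv_eps, k, add_sub_cancel_right]; rfl⟩⟩

end Vale.Agent.P269L.I.LK
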