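import Vale.Agent.P269L.I.Eq
import Vale.Agent.P269.Br.GWa

/-!
# Sections of the normal bundle are restrictions of polynomial functions
-/

set_option linter.unusedSectionVars false

namespace Vale.Agent.P269L.I

open Set Function Topology Filter Module P269 P269.Ch P269.Ch.AnM P269.Vir P269.Base P269.Holo
  P269.Cv
open MvPolynomial hiding funext

variable {R J K ι ν : Type} [Fintype R] [Fintype J] [Fintype K] [Fintype ι] [DecidableEq ι]
  [Fintype ν] {ch : Ch ι J} {T : Tgt R J K} {e n : K → ι → ℕ} {a : ι → ℕ}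

section lift

variable {Y E : Type} [TopologicalSpace Y] [NormedAddCommGroup E] [NormedSpace ℂ E] {π : Y → E}
  {t : Y}

theorem hol_mul {f g : Y → ℂ} (hf : HolAt π f t) (hg : HolAt π g t) :
    HolAt π (fun s => f s * g s) t := hf.smul hg

theorem hol_div {f g : Y → ℂ} (hf : HolAt π f t) (hg : HolAt π g t) (h : g t ≠ 0) :
    HolAt π (fun s => f s / g s) t :=
  (hf.prod hg).comp_an (Ψ := fun p => p.1 / p.2) (analyticAt_fst.div analyticAt_snd h)

theorem Yf.hol_of {y : Y → Yf ch} (h : ∀ j μ, HolAt π (fun s => (y s).ap j μ) t) : HolAt π y t :=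
  (HolAt.pi fun j => HolAt.of_apply (h j) : HolAt (B := ∀ j, ch.Th j →L[ℂ] ℂ) π y t)

theorem hol_solve {A B : Type} [NormedAddCommGroup A] [NormedSpace ℂ A] [NormedAddCommGroup B]
    [NormedSpace ℂ B] [FiniteDimensional ℂ B] {m : Y → A →L[ℂ] B} {w : Y → B}
    (hπ : ContinuousAt π t) (hm : HolAt π m t) (h : Surjective (m t)) (hw : HolAt π w t) :
    ∃ v, HolAt π v t ∧ ∀ᶠ s in 𝓝 t, m s (v s) = w s := by
  obtain ⟨i, hi⟩ := exists_rightInv h
  have h1 := hm.clm_comp (HolAt.const i)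
  have h2 : Bijective ((m t).comp i) := ⟨fun a b k => by simpa [hi] using k, fun y => ⟨y, hi y⟩⟩
  exact ⟨fun s => i (((m s).comp i).inverse (w s)), ((h1.inverse h2).apply hw).clm i,
    (eventually_bijective (h1.cont hπ) h2).mono fun s k =>
      (isInvertible_of_bijective k).self_apply_inverse _⟩

theorem an_dH {c : E → V ch.M} {y η : E → Yf ch} {p : E} (hc : AnalyticAt ℂ c p)
    (hy : AnalyticAt ℂ y p) (hη : AnalyticAt ℂ η p) (τ : Ts K ch) :
    AnalyticAt ℂ (fun q => dH T e τ (c q) (y q) (η q)) p := by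
  simp only [← fderiv_Hq]
  exact an_apply ((an_Hq T e analyticAt_fst analyticAt_snd τ).fderiv.comp_of_eq (hc.prod hy) rfl)
    (analyticAt_const.prod hη)

variable {c : Y → V ch.M} {y η : Y → Yf ch} {f : Y → J → ℂ}

theorem hol_dH (hc : HolAt π c t) (hy : HolAt π y t) (hη : HolAt π η t) (τ : Ts K ch) :
    HolAt π (fun s => dH T e τ (c s) (y s) (η s)) t :=
  (hc.prod (hy.prod hη)).comp_an (an_dH analyticAt_fst (analyticAt_fst.comp analyticAt_snd)
    (analyticAt_snd.comp analyticAt_snd) τ)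

theorem hol_jm (hc : HolAt π c t) (hf : HolAt π f t) : HolAt π (fun s => jm (c s) (f s)) t :=
  (hc.prod hf).comp_an (an_jm analyticAt_fst analyticAt_snd)

theorem hol_of_jm (hπ : ContinuousAt π t) (hc : HolAt π c t) (h0 : ∀ i, c t i ≠ 0)
    (h : HolAt π (fun s => jm (c s) (f s)) t) : HolAt π f t := HolAt.pi fun j => by
  obtain ⟨μ, k⟩ := exists_val_one (a := ch.b j) h0
  have a := hc.comp_an (analyticAt_val μ _)
  have b : val μ (c t) ≠ 0 := k.trans_ne one_ne_zero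
  exact (hol_div (h.clm (Yf.evL j μ)) a b).congr (((a.cont hπ).eventually_ne b).mono
    fun s d => mul_div_cancel_right₀ _ d)

/-- **Local holomorphic lifts**: a family whose image under `dH` is holomorphic is holomorphic modulo
the tangent spaces of the cone. -/
theorem exists_lift_dH (h : Le ch T e) (hπ : ContinuousAt π t) (hc : HolAt π c t)
    (h0 : ∀ i, c t i ≠ 0) (hf : HolAt π f t)
    (hR : ∀ w : K → ℂ, ∃ v : J → ℂ, ∀ k, ∑ j, v j * eval (f t) (pderiv j (T.F k)) = w k)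
    (hη : ∀ τ, HolAt π (fun s => dH T e τ (c s) (jm (c s) (f s)) (η s)) t) :
    ∃ g, HolAt π g t ∧ ∀ᶠ s in 𝓝 t, η s - g s ∈ jm (c s) '' T.tan (f s) := by
  choose μ hμ using fun j => exists_val_one (a := ch.b j) h0
  obtain ⟨ζ, hζ⟩ := exists_Zt (ch := ch) h0
  have a := fun j => hc.comp_an (analyticAt_val (μ j) _)
  have b : ∀ j, val (μ j) (c t) ≠ 0 := fun j => (hμ j).trans_ne one_ne_zero
  let v : Y → J → ℂ := fun s j => (η s).ap j (μ j) / val (μ j) (c s)
  let G : Y → Yf ch := fun s => η s - jm (c s) (v s)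
  have hG : HolAt π G t := Yf.hol_of fun j m => (hol_div (hη (.inl ⟨j, m, μ j⟩)) (a j) (b j)).congr
    ((((a j).cont hπ).eventually_ne (b j)).mono fun s d => by
      simp only [dH_inl, G, v, Yf.sub_ap, jm_apply]
      field_simp)
  let m : Y → (J → ℂ) →L[ℂ] K → ℂ := fun s => .pi fun k =>
    ∑ j, eval (f s) (pderiv j (T.F k)) • ContinuousLinearMap.proj j
  have em : ∀ s u k, m s u k = ∑ j, u j * eval (f s) (pderiv j (T.F k)) := fun s u k => by
    simp [m, mul_comm]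
  have hm : HolAt π m t := HolAt.of_apply fun u => HolAt.pi fun k => by
    simp only [em]
    exact HolAt.sum _ fun j _ => hol_mul (HolAt.const _)
      (hf.comp_an (AnalyticOnNhd.eval_mvPolynomial _ _ trivial))
  have p := fun k => hc.comp_an (analyticAt_val (pw ζ (e k)) _)
  have q : ∀ k, val (pw ζ (e k)) (c t) ≠ 0 := fun k => by simp [val_pw, hζ]
  have hw : HolAt π (fun s => m s (v s)) t := HolAt.pi fun k =>
    (hol_div ((hη (.inr (k, ζ))).sub (hol_dH hc (hol_jm hc hf) hG (.inr (k, ζ)))) (p k) (q k)).congr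
      ((((p k).cont hπ).eventually_ne (q k)).mono fun s d => by
        beta_reduce
        rw [← map_sub, sub_sub_cancel, dH_jm_inr h, ← val_pw, mul_div_cancel_right₀ _ d, em])
  obtain ⟨u, u1, u2⟩ := hol_solve hπ hm (fun w => (hR w).imp fun u k =>
    funext fun i => (em t u i).trans (k i)) hw
  refine ⟨fun s => G s + jm (c s) (u s), hG.add (hol_jm hc u1), u2.mono fun s d =>
    ⟨v s - u s, fun k => ?_, by simp only [G, map_sub]; abel⟩⟩
  rw [← em, map_sub, d, sub_self]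
  rfl

end lift

theorem PP_add_le' {X : Type} {M : ι → ℕ} (π : X → V M) (a b : ι → ℕ) :
    PP π (a + b) ≤ PP π a * PP π b := by
  rw [PP, Pol_eq_span, Submodule.map_span, Submodule.span_le]
  rintro _ ⟨_, ⟨l, rfl⟩, rfl⟩
  refine (congrArg (· ∈ PP π a * PP π b) (funext fun y => ?_)).mp (Submodule.mul_mem_mul
    ⟨_, prod_lin_mem fun s => l ⟨s.1, Fin.castAdd (b s.1) s.2⟩, rfl⟩
    ⟨_, prod_lin_mem fun s => l ⟨s.1, Fin.natAdd (a s.1) s.2⟩, rfl⟩)
  simp only [Pi.mul_apply, LinearMap.funLeft_apply, Fintype.prod_sigma, ← Finset.prod_mul_distrib]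
  exact Finset.prod_congr rfl fun i _ =>
    (Fin.prod_univ_add (a := a i) (b := b i) fun k => l ⟨i, k⟩ (π y i)).symm

theorem PP_sum_le' {X : Type} [TopologicalSpace X] {M : ι → ℕ} (π : X → V M) {β : Type} (S : Finset β)
    (d : β → ι → ℕ) : PP π (∑ b ∈ S, d b) ≤ ∏ b ∈ S, PP π (d b) := by
  classical
  induction S using Finset.induction_on with
  | empty =>
    intro s hs
    obtain ⟨μ, a⟩ := mem_PP.1 hs
    exact Submodule.mem_one.2 ⟨μ 0, funext fun y =>
      (congrArg μ (funext fun s => s.2.elim0)).trans (a y).symm⟩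
  | insert i S hi ih =>
    rw [Finset.prod_insert hi, Finset.sum_insert hi]
    exact (PP_add_le' _ _ _).trans (mul_le_mul' le_rfl ih)

theorem Hq_mem (h : Le ch T e) (k : K) (c : V ch.M) (y : Yf ch) :
    (fun ζ => Hq T e (.inr (k, ζ)) c y) ∈ ch.PiZ (e k) := by
  rw [show (fun ζ => Hq T e (.inr (k, ζ)) c y) = ∑ β ∈ (T.F k).support, coeff β (T.F k) •
      ((∏ j, (fun ζ => y.ap j (pw ζ _)) ^ β j) * fun ζ => val (pw ζ (ch.rst e k β)) c) from
    funext fun ζ => by simp [Hq, hmg, val_pw, rst, mul_assoc]]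
  refine Submodule.sum_mem _ fun β hβ => Submodule.smul_mem _ _ ?_
  have := PiZ.mul (PiZ.prod Finset.univ fun j _ => PiZ.pow (PiZ.pw _ (y.ap j).toLinearMap) (β j))
    (PiZ.pw (ch.rst e k β) (evL _ c).toLinearMap)
  refine (congrArg (_ ∈ ch.PiZ ·) (funext fun i => ?_)).mp this
  simp only [Pi.add_apply, Finset.sum_apply, Pi.smul_apply, smul_eq_mul, rst]
  exact Nat.add_sub_cancel' (h k β hβ i)

theorem dH_mem (h : Le ch T e) (k : K) (c : V ch.M) (y η : Yf ch) :
    (fun ζ => dH T e (.inr (k, ζ)) c y η) ∈ ch.PiZ (e k) :=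
  (ch.PiZ (e k)).closed_of_finiteDimensional.mem_of_tendsto (tendsto_pi_nhds.2 fun ζ =>
    hasDerivAt_iff_tendsto_slope_zero.1 (hasDerivAt_Hq T e (.inr (k, ζ)) c y η))
    (.of_forall fun t => Submodule.smul_mem _ t⁻¹ (sub_mem (Hq_mem h k c _) (Hq_mem h k c _)))

theorem dH_zero {k : K} (h0 : T.F k = 0) (ζ : ch.Zt) (c : V ch.M) (y η : Yf ch) :
    dH T e (.inr (k, ζ)) c y η = 0 := by
  simp [dH_inr, hmg, h0]

variable (ch a n) in
/-- the multidegree of the function that belongs to a test -/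
def wt (τ : Ts K ch) : ι → ℕ := τ.elim (fun t => ch.b t.1 + a) fun t => n t.1

variable (ch T e a n) in
/-- All fields have degree `a` and the equation `k` has degree `n k`. -/
structure Wd : Prop where
  le : Le ch T e
  ha : ∀ j, ch.a (some j) = a
  hn : ∀ k, ∀ α ∈ (T.F k).support, ch.nk e k α = n k
  a_ne : a ≠ 0
  n_ne : ∀ k, n k ≠ 0

variable (hw : Wd ch T e n a)
include hw

theorem Wd.chr_n {k : K} {α : J →₀ ℕ} (hα : α ∈ (T.F k).support) (t : ι → ℂ) :
    (∏ j, chr a t ^ α j) * chr (ch.rst e k α) t = chr (n k) t := by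
  rw [← hw.hn k α hα]
  simp only [chr, nk, hw.ha]
  exact prod_pow_pow t (fun _ => a) α _

theorem Hq_smul (τ : Ts K ch) (t : ι → ℂ) (c : V ch.M) (y : Yf ch) :
    Hq T e τ (t • c) (chr a t • y) = chr (wt ch n a τ) t * Hq T e τ c y := by
  rcases τ with ⟨j, m⟩ | ⟨k, ζ⟩
  · simp only [Hq, wt, Sum.elim_inl, Base.val_smul, Yf.smul_ap, chr_add]
    ring
  · simp only [Hq, wt, Sum.elim_inr, hmg, Finset.mul_sum]
    refine Finset.sum_congr rfl fun α hα => ?_
    simp only [← hw.chr_n hα, ← val_pw, Base.val_smul, Yf.smul_ap, mul_pow, Finset.prod_mul_distrib]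
    unfold rst
    ring

theorem dH_smul (τ : Ts K ch) (t : ι → ℂ) (c : V ch.M) (y η : Yf ch) :
    dH T e τ (t • c) (chr a t • y) (chr a t • η) = chr (wt ch n a τ) t * dH T e τ c y η := by
  have b := hasDerivAt_Hq T e τ (t • c) (chr a t • y) (chr a t • η)
  simp only [smul_comm _ (chr a t), ← smul_add, Hq_smul hw] at b
  exact b.unique ((hasDerivAt_Hq T e τ c y η).const_mul _)

theorem sv_tz (x : ch.W ν) (t : ι → ℂ) (z : ch.Pt) : sv x (tz t z) = chr a t • sv x z :=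
  Yf.ext fun j _ => by rw [← hw.ha j]; rfl

theorem ev1_tz {κ : ch.P K} (hκ : κ ∈ ch.pol T e) (τ : Ts K ch) (t : ι → ℂ) (z : ch.Pt) :
    ev1 (tz t z) τ κ = chr (wt ch n a τ) t * ev1 z τ κ := by
  have key : ∀ {Z : Type} {S : Set (ch.Pt → Z → ℂ)} {c : ℂ},
      (∀ g ∈ S, ∀ m, g (tz t z) m = c * g z m) → ∀ g ∈ Submodule.span ℂ S, ∀ m,
        g (tz t z) m = c * g z m := fun a g hg m => by
    induction hg using Submodule.span_induction with
    | mem g b => exact a g b m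
    | zero => simp
    | add _ _ _ _ a b => simp [a, b, mul_add]
    | smul _ _ _ a => simp [a, mul_left_comm]
  rcases τ with ⟨j, m⟩ | ⟨k, ζ⟩
  · refine key ?_ _ (hκ.1 j trivial) m
    rintro _ ⟨a, b, μ, y, rfl⟩ m
    simp only [tz, Base.val_smul, _root_.smul_apply, smul_eq_mul, wt, Sum.elim_inl, chr_add, hw.ha]
    ring
  · refine key ?_ _ (hκ.2 k trivial) ζ
    rintro _ ⟨β, hβ, v, y, μ, rfl⟩ ζ
    simp only [tz, Base.val_smul, _root_.smul_apply, smul_eq_mul, Finset.prod_mul_distrib, wt,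
      Sum.elim_inr, ← hw.chr_n hβ, hw.ha]
    rw [Fintype.prod_sigma fun _ : Σ j, Fin (β j) => chr a t]
    simp only [Fin.prod_const]
    unfold rst
    ring

open Pointwise in
/-- **restriction of the polynomial functions to the curve** -/
theorem exists_pol {x : ch.W ν} {g : Ts K ch → ch.Pt → ℂ}
    (h1 : ∀ τ, ∃ μ : Tens ch.M (wt ch n a τ), ∀ z ∈ gr x, g τ z = val μ z.1)
    (h2 : ∀ z ∈ gr x, ∃ y η, ∀ τ, g τ z = dH T e τ z.1 y η) :
    ∃ κ ∈ ch.pol T e, ∀ z ∈ gr x, ∀ τ, ev1 z τ κ = g τ z := by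
  let π : gr x → V ch.M := fun z => z.1.1
  choose! y η h2 using h2
  have hp : ∀ τ, (fun z : gr x => g τ z) ∈ PP π (wt ch n a τ) := fun τ =>
    mem_PP.2 ((h1 τ).imp fun _ b z => b z z.2)
  have k1 : ∀ j, ∃ f ∈ Submodule.span ℂ (ch.G1 j),
      rs Subtype.val f = fun m (z : gr x) => g (.inl ⟨j, m⟩) z := fun j => by
    have : (fun m (z : gr x) => g (.inl ⟨j, m⟩) z) ∈ Bi (ch.PiT j) (PP π (ch.b j + a)) :=
      ⟨fun m => hp (.inl ⟨j, m⟩), fun z => by
        simp only [h2 z z.2, dH_inl]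
        exact kos_mem (tvZ z.1.1 j) ((η z).ap j).toLinearMap⟩
    have b := Submodule.map₂_le_map₂_right ((PP_add_le' π _ _).trans
      (Submodule.mul_eq_span_mul_set _ _).le) (Bi_le this)
    rw [PiT, Submodule.map₂_span_span] at b
    rw [← Submodule.mem_map, Submodule.map_span]
    refine Submodule.span_mono ?_ b
    rintro _ ⟨_, ⟨l, rfl⟩, _, ⟨_, b, _, c, rfl⟩, rfl⟩
    obtain ⟨μ, b⟩ := mem_PP.1 b
    rw [← hw.ha j] at c
    obtain ⟨μ', c⟩ := mem_PP.1 c
    exact ⟨_, ⟨l.1, l.2, μ, x.Q _ μ', rfl⟩, funext₂ fun m z => by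
      simp [tens, rs, z.2.2, b, c, mul_assoc, π]⟩
  have k2 : ∀ k, ∃ f ∈ Submodule.span ℂ (ch.G2 e (fun k => (T.F k).support) k),
      rs Subtype.val f = fun ζ (z : gr x) => g (.inr (k, ζ)) z := fun k => by
    by_cases h0 : T.F k = 0
    · exact ⟨0, zero_mem _, funext₂ fun ζ z => ((h2 z z.2 _).trans (dH_zero h0 ..)).symm⟩
    obtain ⟨β, hβ⟩ := support_nonempty.2 h0
    have : (fun ζ (z : gr x) => g (.inr (k, ζ)) z) ∈ Bi (ch.PiZ (e k)) (PP π (n k)) :=
      ⟨fun ζ => hp (.inr (k, ζ)), fun z => by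
        simp only [h2 z z.2]
        exact dH_mem hw.le k _ _ _⟩
    have d : PP π (n k) ≤ Submodule.span ℂ ((∏ s : Σ j, Fin (β j),
        (PP π (ch.a (some s.1)) : Set (gr x → ℂ))) * (PP π (ch.rst e k β) : Set (gr x → ℂ))) := by
      simp only [← Submodule.span_mul_span, ← Submodule.prod_span, Submodule.span_eq]
      rw [← hw.hn k β hβ, show ch.nk e k β = (∑ s : Σ j, Fin (β j), ch.a (some s.1)) + ch.rst e k β from
        funext fun i => by simp [nk, Fintype.sum_sigma]]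
      exact (PP_add_le' _ _ _).trans (mul_le_mul' (PP_sum_le' _ _ _) le_rfl)
    have b := Submodule.map₂_le_map₂_right d (Bi_le this)
    rw [PiZ, Submodule.map₂_span_span] at b
    rw [← Submodule.mem_map, Submodule.map_span]
    refine Submodule.span_mono ?_ b
    rintro _ ⟨_, ⟨v, rfl⟩, _, ⟨_, b, _, c, rfl⟩, rfl⟩
    obtain ⟨w, d, rfl⟩ := (Set.mem_fintype_prod _ _).1 b
    choose μ b using fun s => mem_PP.1 (d s)
    obtain ⟨μ', c⟩ := mem_PP.1 c
    exact ⟨_, ⟨β, hβ, v, fun s => x.Q _ (μ s), μ', rfl⟩, funext₂ fun m z => by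
      simp only [tens, rs, LinearMap.mk₂_apply, LinearMap.coe_mk, AddHom.coe_mk, Pi.mul_apply,
        Finset.prod_apply, b, c, z.2.2, mul_assoc]
      rfl⟩
  choose f1 a1 b1 using k1
  choose f2 a2 b2 using k2
  refine ⟨(f1, f2), mem_polS.2 ⟨a1, a2⟩, fun z hz τ => ?_⟩
  rcases τ with ⟨j, m⟩ | ⟨k, ζ⟩
  exacts [congrFun (congrFun (b1 j) m) ⟨z, hz⟩, congrFun (congrFun (b2 k) ζ) ⟨z, hz⟩]

end Vale.Agent.P269L.I
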