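import Vale.Agent.P269L.I.Dat
import Vale.Agent.P269L.I.Hol
import Vale.Agent.P269L.I.Nob0
import Vale.Agent.P269.Asm.Ci

/-!
# The obstruction space is the space of sections of the normal bundle
-/

set_option linter.unusedSectionVars false

namespace Vale.Agent.P269L.I

open Set Function Topology Filter P269 P269.Ch P269.Ch.AnM P269.Vir P269.Base P269.Holo
open MvPolynomial hiding funext

variable {R J K ι ν : Type} [Fintype R] [Fintype J] [Fintype K] [Fintype ι] [DecidableEq ι]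
  [Fintype ν] {ch : Ch ι J} {T : Tgt R J K} {e n : K → ι → ℕ} {a : ι → ℕ} {x : ch.W ν}
  {c : V ch.M} {t : ι → ℂ}

theorem sv_uu (hx : x ∈ ch.sol ν T) (hc : c ∈ crv x) : sv x (c, uu x c) = jm c (fld x c) :=
  Yf.ext fun j μ => (fld_mem hx hc).2 j _ (uu_mem hc) μ

theorem uu_tz (hx : x ∈ ch.base ν) (hc : c ∈ crv x) (ht : ∀ i, t i ≠ 0) :
    ((t • c, uu x (t • c)) : ch.Pt) = tz t (c, uu x c) :=
  Prod.ext rfl (uu_eq hx (gr_smul (uu_mem hc) ht))

theorem hol_iff {E F : Type} [NormedAddCommGroup E] [NormedSpace ℂ E] [NormedAddCommGroup F]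
    [NormedSpace ℂ F] {C : Set E} {f : E → F} (y : C) :
    HolAt Subtype.val (fun s : C => f s) y ↔ ∃ g, AnalyticAt ℂ g y.1 ∧ ∀ᶠ s in 𝓝[C] y, f s = g s :=
  exists_congr fun g => and_congr_right fun _ =>
    eventually_nhds_subtype_iff C y fun s => f s = g s

theorem hol_uu (hx : x ∈ ch.base ν) (y : crv x) :
    HolAt Subtype.val (fun s : crv x => ((s, uu x s) : ch.Pt)) y := by
  obtain ⟨U, a, b⟩ := exists_an_ev hx.1 y.1
  have d : AnalyticAt ℂ (fun s : V ch.M => (x, s)) y.1 := analyticAt_const.prod analyticAt_id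
  exact HolAt.self.prod ⟨fun s => U (x, s), a.comp_of_eq d rfl,
    ((d.continuousAt.comp continuousAt_subtype_val).eventually b).mono fun s k => k _ (uu_mem s.2)⟩

section

variable (hw : Wd ch T e n a) (hx : x ∈ ch.sol ν T)
include hw hx

theorem jm_fld_smul (hc : c ∈ crv x) (ht : ∀ i, t i ≠ 0) :
    jm (t • c) (fld x (t • c)) = Base.chr a t • jm c (fld x c) := by
  rw [← sv_uu hx hc, ← sv_uu hx (hx.1.2.2.1.cone t ht c hc), uu_tz hx.1 hc ht, sv_tz hw]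

/-- **Sections of the normal bundle come from polynomial functions.** -/
theorem nm_pol {η : V ch.M → Yf ch} (h : Sec tor (crv x) (fun u w => chr a u • w)
    (fun c => jm c '' T.tan (fld x c)) η) : ∃ κ ∈ ch.pol T e, ∀ c ∈ crv x, ∀ τ,
      ev1 (c, uu x c) τ κ = dH T e τ c (sv x (c, uu x c)) (η c) := by
  have k : ∀ c ∈ crv x, ∀ u v, u - v ∈ jm c '' T.tan (fld x c) → ∀ τ,
      dH T e τ c (jm c (fld x c)) u = dH T e τ c (jm c (fld x c)) v := fun c hc u v ⟨w, b, d⟩ τ =>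
    sub_eq_zero.1 ((map_sub _ u v).symm.trans
      ((dH_eq_zero hw.le (crv_ne hc) _).2 ⟨w, b, d.symm⟩ τ))
  obtain ⟨κ, b, d⟩ := exists_pol hw (x := x)
    (g := fun τ z => dH T e τ z.1 (jm z.1 (fld x z.1)) (η z.1)) (fun τ => by
      refine (hx.1.2.2.1.normal (wt ch n a τ) ?_ (fun c => dH T e τ c (jm c (fld x c)) (η c))
        (isSec_of_hol (fun t ht c hc => ?_) fun c hc => ?_)).imp fun μ b z hz => b _ ⟨z, hz, rfl⟩
      · rcases τ with τ | τ
        exacts [fun b => hw.a_ne (add_eq_zero.1 b).2, hw.n_ne _]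
      · rw [k _ (hx.1.2.2.1.cone t ht c hc) _ _ ((h c hc).1 t (isUnit_pi_iff.2 ht)),
          jm_fld_smul hw hx hc ht]
        exact dH_smul hw τ t c _ _
      · obtain ⟨g, b, d⟩ := (h c hc).2
        obtain ⟨f, b', d'⟩ := fld_ext hx hc
        exact ⟨fun y => dH T e τ y (jm y (f y)) (g y),
          an_dH analyticAt_id (an_jm analyticAt_id b') b τ, by
            filter_upwards [d, d', self_mem_nhdsWithin] with y k1 k2 k3
            rw [k y k3 _ _ k1, k2]⟩) fun z _ => ⟨_, _, fun _ => rfl⟩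
  exact ⟨κ, b, fun c hc τ => by rw [d _ (uu_mem hc), sv_uu hx hc]⟩

/-- **Elements of the obstruction space give sections of the normal bundle.** -/
theorem obs_nm (hR : ∀ y ∈ T.cone, ∀ w : K → ℂ, ∃ v : J → ℂ,
      ∀ k, ∑ j, v j * eval y (pderiv j (T.F k)) = w k) {κ : ch.P K} (h : κ ∈ obs T e x) :
    ∃ η : V ch.M → Yf ch, Sec tor (crv x) (fun u w => chr a u • w)
      (fun c => jm c '' T.tan (fld x c)) η ∧ ∀ c ∈ crv x, ∀ τ,
        ev1 (c, uu x c) τ κ = dH T e τ c (sv x (c, uu x c)) (η c) := by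
  obtain ⟨hκ, h⟩ := mem_obs_iff.1 h
  choose! η b using fun c (hc : c ∈ crv x) => h _ (uu_mem hc)
  refine ⟨η, fun c hc => ⟨fun t ht => ?_, ?_⟩, b⟩
  · have ht := isUnit_pi_iff.1 ht
    have hc' := hx.1.2.2.1.cone t ht c hc
    refine ((dH_eq_zero hw.le (crv_ne hc') _).1 fun τ => ?_).imp fun v k => ⟨k.1, k.2.symm⟩
    rw [map_sub, ← sv_uu hx hc', ← b _ hc', uu_tz hx.1 hc ht, ev1_tz hw hκ, sv_tz hw, b c hc]
    exact sub_eq_zero.2 (dH_smul hw τ t c _ _).symm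
  · obtain ⟨g, ⟨G, k1, k2⟩, k3⟩ := exists_lift_dH (η := fun s : crv x => η s) (t := ⟨c, hc⟩) hw.le
      continuousAt_subtype_val HolAt.self (crv_ne hc) ((hol_iff ⟨c, hc⟩).2 (fld_ext hx hc))
      (hR _ (fld_mem hx hc).1) fun τ => ((hol_uu hx.1 _).comp_an (an_pol analyticAt_id
        (F := T.fam 0) (polF_fam.ge hκ) τ)).congr (.of_forall fun s => by
          beta_reduce
          rw [← sv_uu hx s.2, ← b _ s.2]
          rfl)
    exact ⟨G, k1, (eventually_nhds_subtype_iff (crv x) ⟨c, hc⟩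
      fun s => η s - G s ∈ jm s '' T.tan (fld x s)).1 ((k2.and k3).mono fun s k => k.1 ▸ k.2)⟩

end

theorem nm_iff {T : Tgt Unit J K} (hw : Wd ch T e n a) (hR : ∀ y ∈ T.cone, ∀ w : K → ℂ,
      ∃ v : J → ℂ, ∀ k, ∑ j, v j * eval y (pderiv j (T.F k)) = w k) {m r : ℕ} {b : ι → ℕ}
    {jj : (Fin r → ℂ) →ₗ[ℂ] ch.P K} {ρ' : ch.A (Fin m) → (Fin r → ℂ) → Fin r → ℂ}
    (hj : LinearMap.range jj = ch.pol T e) {x : ch.W (Fin m)} (hx : x ∈ ch.sol _ T) :
    (∀ η, (dat ch m T e a b jj ρ').Nm chr T.tan x η → ∃ κ, (dat ch m T e a b jj ρ').Df x κ η) ∧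
    {κ | ∃ η, (dat ch m T e a b jj ρ').Nm chr T.tan x η ∧ (dat ch m T e a b jj ρ').Df x κ η} =
      jj ⁻¹' obs T e x := by
  have k : ∀ κ η, (dat ch m T e a b jj ρ').Df x κ η ↔ ∀ c ∈ crv x, ∀ τ,
      ev1 (c, uu x c) τ (jj κ) = dH T e τ c (sv x (c, uu x c)) (η c) := fun κ η =>
    forall₂_congr fun c _ => forall_congr' fun τ =>
      Eq.congr_right (fderiv_Hq T e τ c (sv x (c, uu x c)) (η c))
  refine ⟨fun η h => ?_, Set.ext fun κ => ⟨fun ⟨η, _, h⟩ => mem_obs_iff.2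
    ⟨hj.le ⟨κ, rfl⟩, fun z hz => ⟨η z.1, fun τ => ?_⟩⟩, fun h =>
      (obs_nm hw hx hR h).imp fun η d => ⟨d.1, (k κ η).2 d.2⟩⟩⟩
  · obtain ⟨_, d, f⟩ := nm_pol hw hx h
    obtain ⟨κ, rfl⟩ := hj.ge d
    exact ⟨κ, (k κ η).2 f⟩
  · have := (k κ η).1 h z.1 ⟨z, hz, rfl⟩ τ
    rwa [uu_eq hx.1 (u := z.2) hz] at this

theorem wd_of {χ : K → R → ℤ} {K₀ : Set K} {ℓ : R → ι → ℤ} (h : ch.Std (T.fam χ) e K₀ ℓ)
    (ha : ∀ j, ch.a (some j) = a) (h0 : a ≠ 0) (hF : ∀ k, T.F k ≠ 0) :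
    Wd ch T e (fun k i => ((T.fam χ).dk ℓ k i + e k i).toNat) a := by
  have s : ∀ k, ((T.fam χ).G k).support = (T.F k).support := fun _ =>
    support_map_of_injective _ (C_injective _ _)
  have b : ∀ k, ∀ α ∈ (T.F k).support,
      ch.nk e k α = fun i => ((T.fam χ).dk ℓ k i + e k i).toNat := fun k α hα => funext fun i => by
    rw [← cast_nk h.inv h.fits h.wt ((s k).ge hα), Int.toNat_natCast]
  exact ⟨fun k α hα => h.fits.le k α ((s k).ge hα), ha, b, h0, fun k =>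
    let ⟨α, hα⟩ := support_nonempty.2 (hF k)
    b k α hα ▸ nk_ne h.fits h.cuts.ne k α⟩

theorem lNm : LNm := fun _ _ F g d n k D _ _ _ _ h _ hx =>
  let ⟨_, hs⟩ := h.std
  nm_iff (wd_of (T := ci F) hs (cH_a F g d n k D) (fun a => one_ne_zero (congrFun a none)) h.sm.ne)
    (fun y hy w => ((li_iff_surj _).1 (h.sm.li y hy) w).imp fun _ b q =>
      (Finset.sum_congr rfl fun _ _ => mul_comm _ _).trans (b q)) h.crd.rng hx

end Vale.Agent.P269L.I
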