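import Vale.Agent.P269L.I.Occ0
import Vale.Agent.P269L.I.Aut
import Vale.Agent.P269.Br.GWb
import Vale.Agent.P269.Br.IntB

/-!
# Every stable map occurs in the chart
-/

set_option linter.unusedSectionVars false

namespace Vale.Agent.P269L.I

open Set Function Topology Filter Vale.Agent.P269 Vale.Agent.P269.Cv Vale.Agent.P269.Base P291Z

variable {ι ι' ν J K : Type} [Fintype ι] [Fintype ι'] [Fintype ν] [Fintype J] [Fintype K]
  {M : ι → ℕ} {M' : ι' → ℕ} {o : ι} {o' : ι'} {C : Set (V M)} {C' : Set (V M')} {p : ν → V M}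
  {p' : ν → V M'} {y : V M → J → ℂ} {y' : V M' → J → ℂ} {E : V M → V M' → Prop}

/-- An isomorphism of pointed curves with maps, as a relation between the multicones. -/
structure SIso (o : ι) (C : Set (V M)) (p : ν → V M) (y : V M → J → ℂ) (o' : ι') (C' : Set (V M'))
    (p' : ν → V M') (y' : V M' → J → ℂ) (E : V M → V M' → Prop) : Prop where
  mor : Mor o C C' E
  inv : Mor o' C' C (flip E)
  mem : ∀ c c', E c c' → c ∈ C ∧ c' ∈ C'
  sat : ∀ c c' d d', E c c' → Orb c d → Orb c' d' → E d d'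
  mark : ∀ n, E (p n) (p' n)
  map : ∀ c c', E c c' → ∃ a : ℂ, a ≠ 0 ∧ y' c' = a • y c

section

variable {X X' : Type} [TopologicalSpace X] [TopologicalSpace X'] [T2Space X] [CompactSpace X]
  [T2Space X'] [CompactSpace X'] {R : RS X} {R' : RS X'} {N : Finset (X × X)}
  {N' : Finset (X' × X')} {A : ι → LB R} {A' : ι' → LB R'} {π : X → V M} {π' : X' → V M'}

/-- The relation given by a map of the normalisations. -/
def Rl (π : X → V M) (π' : X' → V M') (f : X → X') (c : V M) (c' : V M') : Prop :=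
  ∃ z, Orb (π z) c ∧ Orb (π' (f z)) c'

theorem SIso.of (h : Par o C N A π) (h' : Par o' C' N' A' π') (hy : HMap o C y)
    (hy' : HMap o' C' y') {f : X ≃ X'} (hf : LIso R R' f)
    (e : ∀ x z, Jn N x z ↔ Jn N' (f x) (f z)) {q : ν → X} (a : ∀ n, Orb (π (q n)) (p n))
    (a' : ∀ n, Orb (π' (f (q n))) (p' n)) (b : ∀ z, ∃ s : ℂ, y' (π' (f z)) = s • y (π z)) :
    SIso o C p y o' C' p' y' (Rl π π' f) := by
  refine ⟨.of_iso h h' hf e, ?_, fun c c' ⟨z, u, v⟩ => ⟨h.isNodal.nod.orb (h.mem z) u,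
    h'.isNodal.nod.orb (h'.mem _) v⟩, fun c c' d d' ⟨z, u, v⟩ s t => ⟨z, u.trans s, v.trans t⟩,
    fun n => ⟨_, a n, a' n⟩, fun c c' ⟨z, u, v⟩ => ?_⟩
  · convert Mor.of_iso h' h (hf.symm f) (jn_symm e) using 3 with c' c
    exact ⟨fun ⟨z, u, v⟩ => ⟨f z, v, by rwa [f.symm_apply_apply]⟩,
      fun ⟨z, u, v⟩ => ⟨_, v, by rwa [f.apply_symm_apply]⟩⟩
  · obtain ⟨r, -, k⟩ := hy.orb h.isNodal.nod (h.isNodal.nod.orb (h.mem z) u) u.symm
    obtain ⟨s, l⟩ := b z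
    obtain ⟨t, -, m⟩ := hy'.orb h'.isNodal.nod (h'.mem _) v
    have n : y' c' = (t * s * r) • y c := by rw [m, l, k, mul_smul, mul_smul]
    exact ⟨_, left_ne_zero_of_smul (n ▸ hy'.ne _ (h'.isNodal.nod.orb (h'.mem _) v)), n⟩

end

variable (o C p y) in
/-- The abstract map `m` presents the curve `C` with the points `p` and the map `y`. -/
structure Prs (m : AM Empty Unit J (ν ⊕ Empty) Empty) (A : ι → LB m.R) (π : m.X → V M) : Prop where
  par : Par o C m.N A π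
  mark : ∀ n, Orb (π (m.p (.inl (.inl n)))) (p n)
  val : ∀ j z, m.y j z = y (π z) j
  sec : ∀ j, m.y j ∈ H0 m.N (m.L ())

theorem exists_prs (h : IsNodal o C) (hp : ∀ n, p n ∈ C ∧ ¬IsNode o C (p n))
    (hi : ∀ n n', ∀ s : ι → ℂ, p n = s • p n' → n = n') (hy : HMap o C y) :
    ∃ m A π, Prs o C p y m A π := by
  obtain ⟨X, _, _, _, R, N, A, π, a⟩ := h.exists_par
  obtain ⟨q, b, c, d⟩ := exists_marks a hp hi
  obtain ⟨L, e⟩ := hy.exists_lb a
  exact ⟨⟨⟨X, R, N, q ∘ Br.em ν Empty _, a.nd, b.comp (Equiv.injective _), fun _ => c _⟩,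
    fun _ => L, 0, fun j z => y (π z) j⟩, A, π, a, d, fun _ _ => rfl, e⟩

variable {F : K → MvPolynomial J ℂ} {χ : K → Unit → ℤ} {m : AM Empty Unit J (ν ⊕ Empty) Empty}
  {A : ι → LB m.R} {π : m.X → V M}

theorem Prs.sol (h : Prs o C p y m A π) (hc : ∀ c ∈ C, y c ∈ (ciK F).cone) : m.Sol ((ciK F).fam χ) :=
  ⟨trivial, fun j => by simpa [bz, Tgt.fam, ciK] using h.sec j, fun z =>
    Tgt.mem_fam.2 ((funext fun j => h.val j z : (m.vl z).2 = y (π z)) ▸ hc _ (h.par.mem z))⟩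

theorem Prs.stable (h : Prs o C p y m A π) (hF : ((ciK F).fam χ).Good) (hy : HMap o C y)
    (hc : ∀ c ∈ C, y c ∈ (ciK F).cone) (hf : {E | SIso o C p y o C p y E}.Finite) :
    m.Stable ((ciK F).fam χ).θ := by_contra fun a => by
  obtain ⟨θ₀, N, hA⟩ := hF.ample
  refine ((infinite_isoD hA (h.sol hc) a).image (f := fun e : m.X ≃ m.X => Rl π π e) ?_).mono ?_ hf
  · rintro e ⟨b, t, c⟩ e' ⟨b', -⟩ k
    refine Equiv.ext fun z => ?_
    by_cases s : Sm m.N z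
    · obtain ⟨w, u, v⟩ : Rl π π e' (π z) (π (e z)) :=
        (congrFun₂ k _ _).mp ⟨z, .refl _, .refl _⟩
      obtain rfl := ((orb_iff h.par).1 u).resolve_right fun l => sm_iff.1 s _ l.symm
      exact (((orb_iff h.par).1 v).resolve_right fun l =>
        sm_iff.1 ((sm_equiv c.node _).1 s) _ l.symm).symm
    · obtain ⟨w, l⟩ := not_forall_not.1 (mt sm_iff.2 s)
      rw [b _ _ l, b' _ _ l]
  · rintro _ ⟨e, ⟨-, t, c⟩, rfl⟩
    refine .of h.par h.par hy hy c.liso c.node h.mark (fun n => (c.mark _).symm ▸ h.mark n)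
      fun z => ⟨t () z, funext fun j => ?_⟩
    simpa [h.val, Wt.actT, AM.vl, Tgt.fam, ciK] using c.y j trivial z

/-- the points of `sol` define holomorphic maps -/
theorem hmap_fld [DecidableEq ι] {ch : Ch ι J} {w : ι → ℤ} (hw : ∀ j, ch.wd j = w) {x : ch.W ν}
    (hx : x ∈ ch.sol ν (ciK F)) :
    HMap ch.o (Ch.crv x) (Ch.fld x) ∧ ∀ c ∈ Ch.crv x, Ch.fld x c ∈ (ciK F).cone := by
  obtain ⟨X, _, _, _, R, N, A, π, u, q, ξ, h⟩ := exists_cr hx.1
  obtain ⟨s, a, b⟩ := h.mem_sol.1 hx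
  have c : ∀ c ∈ Ch.crv x, Ch.fld x c ∈ (ciK F).cone := fun c hc => by
    obtain ⟨z, t, ht, rfl⟩ := (h.par.img c).1 hc
    rw [show Ch.fld x (t • π z) = _ from funext fun j => h.fld_smul (a j) z ht]
    exact b z t ht
  refine ⟨⟨fun _ hc => (c _ hc).1, fun c hc t ht => ⟨∏ i, t i ^ w i, funext fun j => ?_⟩,
    fun γ hγ => ⟨_, analyticAt_pi_iff.2 fun j => ?_, .of_forall fun _ => ⟨1, (one_smul _ _).symm⟩⟩⟩, c⟩
  · obtain ⟨z, r, hr, rfl⟩ := (h.par.img c).1 hc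
    rw [smul_smul, h.fld_smul (a j) z (t := t * r) fun i => mul_ne_zero (ht i) (hr i), Pi.smul_apply,
      h.fld_smul (a j) z hr, hw]
    simp only [Pi.mul_apply, mul_zpow, Finset.prod_mul_distrib, mul_assoc, smul_eq_mul]
  · obtain ⟨f, d, e⟩ := h.par.exists_isSecZ (h.ind_mem (a j))
    refine (d.holo γ hγ).congr (hγ.mem.mono fun t ht => ?_)
    obtain ⟨z, r, hr, k⟩ := (h.par.img _).1 ht
    simp only [Function.comp, k]
    rw [d.hom r hr _ (h.par.mem z), e, h.fld_smul (a j) z hr]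

theorem Prs.exists_pt (h : Prs o C p y m A π) (hF : ((ciK F).fam χ).Inv) {k D n : ℕ} {g : ℤ} {d : Unit → ℤ}
    (hk : ((ciK F).fam χ).Big k) (hD : ((ciK F).fam χ).BigD k D) (hn : Fintype.card ν = n) (hy : HMap o C y)
    (hs : m.Sol ((ciK F).fam χ)) (hb : m.Stable ((ciK F).fam χ).θ) (ht : m.Typ g d) :
    ∃ x ∈ ((ciK F).chart g n d k D).sol ν (ciK F), Ch.Rep ℓs univ (Ch.trW ν Empty Empty _ x) m ∧
      ∃ E, SIso none (Ch.crv x) x.p (Ch.fld x) o C p y E := by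
  obtain ⟨x, π', u, a, b, c⟩ := exists_std (n := n) hk hD m.nd m.sm m.inj hs.2.1 hs.2.2 m.sg_mem m.sg_ne
    hb ht.1 (by simpa using hn) ht.2 1 fun _ _ => one_ne_zero
  have r : Ch.RepD ℓs univ (m.l, x) m _ π' u 1 := ⟨rfl, a, c, fun r => by
    rw [ℓs, bz_stdA, bz_single, zpow_one]; exact .refl _, fun j _ => b j⟩
  have s := (r.mem_solF hF Fam.chart_wd').2 hs
  obtain ⟨x', e⟩ := (Ch.trW ν Empty Empty ((ciK F).chart g n d k D)).surjective (m.l, x)
  have hx : x' ∈ Ch.sol _ ν (ciK F) := (Ch.trW_sol (ν₀ := Empty) (κ := Empty) (χ := χ)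
    (u := 0)).2 (by rw [Ch.cyc_fam, e]; exact ⟨s, s.1⟩)
  obtain rfl : _ = x := congrArg Prod.snd e
  refine ⟨x', hx, e ▸ r.rep, _, .of (f := .refl _) a.par h.par
    (hmap_fld (w := Tgt.hat fun _ => 1) (chart_wd ((ciK F).fam χ) g n d k D) hx).1 hy (.id _) (fun _ _ => .rfl) (q := fun n => m.p (.inl (.inl n))) (fun n => a.mark (.inl (.inl n)))
    h.mark fun z => ⟨1, funext fun j => ?_⟩⟩
  exact (h.val j z).symm.trans ((a.fld_π (b j) z).symm.trans (one_mul _).symm)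

theorem Prs.cls (h : Prs o C p y m A π) (hF : ((ciK F).fam χ).Good) (hc : ∀ c ∈ C, y c ∈ (ciK F).cone)
    {γ : BM (Quo (fun (t : ι → ℂ) (c : V M) => t • c) C)} (hγ : IsFund _ C γ) {u : _ → (ciK F).X}
    (hu : ∀ c : C, u (Quo.mk _ c) = Quo.mk _ ⟨y c, hc c c.2⟩) {β : BM (ciK F).X} (hβ : Push u γ β) :
    m.cls ((ciK F).fam χ).toWt ((ciK F).fam χ).cone = (ciK F).xiB χ β := by
  have h1 := h.sol (χ := χ) hc
  have hp := h.par
  have := hF.nice
  have := hp.nice_quo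
  have := ((ciK F).xi χ).t2Space
  have h0 := AM.continuous_evm (fun _ a _ => hF.cone_act a) h1.2.1 h1.2.2
  have h3 : u ∘ hp.nrm = (ciK F).xi _ ∘ m.evm _ h1.2.2 := funext fun z =>
    (hu _).trans (congrArg (Quo.mk _) (Subtype.ext (funext fun j => (h.val j z).symm)))
  have h4 : Continuous u := (hp.continuous_nrm.isClosedMap.isQuotientMap hp.continuous_nrm
    hp.surjective_nrm).continuous_iff.2 (h3 ▸ ((ciK F).xi _).continuous.comp h0)
  have := hp.surjective_nrm.compactSpace hp.continuous_nrm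
  rw [push_iff (IsPr.of_compact h4), ← cpull_eq, hp.isFund_iff.1 hγ] at hβ
  refine ((ciK F).xiB _).symm_apply_eq.1 ((congrArg _ (AM.cls_eq h1.2.2)).trans (.trans ?_ hβ.symm))
  change push _ _ = push _ _
  rw [IntP.push_push (IsPr.of_compact hp.continuous_nrm) (IsPr.of_compact h4), h3,
    IntP.push_push (IsPr.of_compact h0) (IsPr.of_homeomorph _)]

/-- **every stable map occurs**, in the words of the chart -/
theorem occurs (hF : ((ciK F).fam χ).Good) [CompactSpace (((ciK F).fam χ).X ((ciK F).fam χ).cone)] {k D n : ℕ} {g d : ℤ}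
    {μ : ι → ℤ} (hk : ((ciK F).fam χ).Big k) (hD : ((ciK F).fam χ).BigD k D) (hn : Fintype.card ν = n)
    (hC : IsCurve o g μ C) (hp : ∀ n, p n ∈ C ∧ ¬IsNode o C (p n))
    (hi : ∀ n n', ∀ s : ι → ℂ, p n = s • p n' → n = n') (hy : HMap o C y)
    (hc : ∀ c ∈ C, y c ∈ (ciK F).cone) (hf : {E | SIso o C p y o C p y E}.Finite)
    {γ : BM (Quo (fun (t : ι → ℂ) (c : V M) => t • c) C)} (hγ : IsFund _ C γ) {u : _ → (ciK F).X}
    (hu : ∀ c : C, u (Quo.mk _ c) = Quo.mk _ ⟨y c, hc c c.2⟩) {β : BM (ciK F).X} (hβ : Push u γ β)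
    (hd : ∀ d' : ℤ, ev ((ciK F).xiB χ β)
      (rep (((ciK F).fam χ).lc ((ciK F).fam χ).cone 0 1)) = d' → d' = d) :
    ∃ x ∈ ((ciK F).chart g n (fun _ => d) k D).sol ν (ciK F),
      ∃ E, SIso none (Ch.crv x) x.p (Ch.fld x) o C p y E := by
  obtain ⟨m, A, π, h⟩ := exists_prs hC.isNodal hp hi hy
  obtain ⟨x, a, -, b⟩ := h.exists_pt (d := fun _ => d) hF.toInv hk hD hn hy (h.sol hc)
    (h.stable hF hy hc hf) ⟨(h.par.numbers hC).1, fun _ => hd _ (by
      rw [← h.cls hF hc hγ hu hβ, AM.ev_cls_lc hF (h.sol hc)]; simp)⟩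
  exact ⟨x, a, b⟩

end Vale.Agent.P269L.I
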