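import Vale.Agent.P269L.I.St

/-!
# Transport of the notions of the statement along equivariant linear isomorphisms
-/

set_option linter.unusedSectionVars false

namespace Vale.Agent.P269L.I

open Set Function Topology Filter

variable {B B' B'' E E₁ E' E₁' E'' ι : Type} [Monoid B] [Monoid B'] [Monoid B'']
  [NormedAddCommGroup E] [NormedSpace ℂ E] [NormedAddCommGroup E₁] [NormedSpace ℂ E₁]
  [NormedAddCommGroup E'] [NormedSpace ℂ E'] [NormedAddCommGroup E₁'] [NormedSpace ℂ E₁']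
  [NormedAddCommGroup E''] [NormedSpace ℂ E''] [Fintype ι] {n : ℕ}

/-- `κ` is an equivariant linear isomorphism that maps `C` to `C₁`. -/
structure Tk (act : B → E → E) (act₁ : B → E₁ → E₁) (C : Set E) (C₁ : Set E₁) (κ : E ≃L[ℂ] E₁) :
    Prop where
  eqv : ∀ t c, κ (act t c) = act₁ t (κ c)
  mem : ∀ c, c ∈ C ↔ κ c ∈ C₁

namespace Tk

variable {act : B → E → E} {act₁ : B → E₁ → E₁} {C : Set E} {C₁ : Set E₁} {κ : E ≃L[ℂ] E₁}
  {act' : B' → E' → E'} {act₁' : B' → E₁' → E₁'} {C' : Set E'} {C₁' : Set E₁'} {κ' : E' ≃L[ℂ] E₁'}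
  {sc : B'' → E'' → E''} {c c' : E} {γ δ : ℂ → E} {χ : (ι → ℕ) → B → ℂ}

theorem refl : Tk act act C C (.refl _ _) := ⟨fun _ _ => rfl, fun _ => .rfl⟩

variable (h : Tk act act₁ C C₁ κ)
include h

theorem symm : Tk act₁ act C₁ C κ.symm :=
  ⟨fun t c => κ.symm_apply_eq.2 (by rw [h.eqv, κ.apply_symm_apply]),
    fun c => by rw [h.mem, κ.apply_symm_apply]⟩

theorem same : Same act₁ (κ c) (κ c') ↔ Same act c c' :=
  exists_congr fun t => and_congr_right fun _ => by rw [← h.eqv, κ.injective.eq_iff]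

theorem dir : κ c' ∈ dir act₁ (κ c) ↔ c' ∈ dir act c :=
  exists_congr fun t => by simp only [← h.eqv, κ.injective.eq_iff]

theorem tends (c : E) : Tendsto κ (𝓝[C] c) (𝓝[C₁] (κ c)) :=
  κ.continuous.continuousWithinAt.tendsto_nhdsWithin fun y => (h.mem y).1

theorem pre {φ : E₁ → E'} (a : Hol act₁ act' C₁ C' φ) : Hol act act' C C' fun c => φ (κ c) :=
  fun c hc => let ⟨b, d, g, e, f⟩ := a _ ((h.mem c).1 hc)
    ⟨b, fun t ht => by simpa only [h.eqv] using d t ht, fun y => g (κ y), e.comp (κ.analyticAt c), h.tends c f⟩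

theorem post {φ : E' → E} (a : Hol act' act C' C φ) : Hol act' act₁ C' C₁ fun c => κ (φ c) :=
  fun c hc => let ⟨b, d, g, e, f⟩ := a c hc
    ⟨(h.mem _).1 b, fun t ht => h.same.2 (d t ht), fun y => κ (g y), (κ.analyticAt _).comp e,
      f.mono fun _ => h.same.2⟩

theorem iso (h' : Tk act' act₁' C' C₁' κ') {p : Fin n → E} {p' : Fin n → E'} {f : E → E''}
    {f' : E' → E''} {φ : E₁ → E₁'} (a : Iso act₁ act₁' sc C₁ C₁' (fun i => κ (p i)) (fun i => κ' (p' i))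
      (fun c => f (κ.symm c)) (fun c => f' (κ'.symm c)) φ) :
    Iso act act' sc C C' p p' f f' fun c => κ'.symm (φ (κ c)) := by
  obtain ⟨a, ⟨ψ, b, d, e⟩, k, l⟩ := a
  refine ⟨h'.symm.post (h.pre a), ⟨_, h.symm.post (h'.pre b), fun c hc => h.same.1 ?_,
    fun c hc => h'.same.1 ?_⟩, fun i => h'.same.1 ?_, fun c hc => ?_⟩
  · simpa using d _ ((h.mem c).1 hc)
  · simpa using e _ ((h'.mem c).1 hc)
  · simpa using k i
  · simpa using l _ ((h.mem c).1 hc)

omit h in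
theorem deriv_comp (a : AnalyticAt ℂ γ 0) : deriv (fun t => κ (γ t)) 0 = κ (deriv γ 0) :=
  (κ.hasFDerivAt.comp_hasDerivAt 0 a.differentiableAt.hasDerivAt).deriv

theorem br (a : Br act C γ) : Br act₁ C₁ fun t => κ (γ t) :=
  ⟨(κ.analyticAt _).comp a.1, a.2.1.mono fun _ => (h.mem _).1, fun b =>
    a.2.2 (h.dir.1 (deriv_comp (κ := κ) a.1 ▸ b))⟩

theorem cross (a : Cross act C c γ δ) : Cross act₁ C₁ (κ c) (fun t => κ (γ t)) fun t => κ (δ t) :=
  ⟨h.br a.1, h.br a.2.1, congrArg κ a.2.2.1, congrArg κ a.2.2.2.1, fun s b => a.2.2.2.2 s (h.dir.1 (by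
    rwa [deriv_comp a.1.1, deriv_comp a.2.1.1, ← map_smul, ← map_sub] at b))⟩

theorem pol {a : ι → ℕ} {q : E₁ → ℂ} (b : q ∈ pol act₁ χ a) : (fun c => q (κ c)) ∈ pol act χ a :=
  ⟨b.1.comp κ.differentiable, fun t c => by simp only [h.eqv, b.2]⟩

theorem rank (a : ι → ℕ) : Set.finrank ℂ (C₁.domRestrict '' I.pol act₁ χ a) =
    Set.finrank ℂ (C.domRestrict '' I.pol act χ a) := by
  let L := LinearEquiv.funCongrLeft ℂ ℂ (κ.toEquiv.subtypeEquiv h.mem)
  have : C.domRestrict '' I.pol act χ a = L.toLinearMap '' (C₁.domRestrict '' I.pol act₁ χ a) := by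
    rw [image_image]
    refine Subset.antisymm ?_ ?_
    · rintro _ ⟨q, b, rfl⟩
      exact ⟨_, h.symm.pol b, funext fun c => congrArg q (κ.symm_apply_apply _)⟩
    · rintro _ ⟨q, b, rfl⟩
      exact ⟨_, h.pol b, rfl⟩
  rw [this, Set.finrank, Set.finrank, Submodule.span_image, LinearEquiv.finrank_map_eq]

theorem crv {g : ℤ} {m : ι → ℤ} {p : Fin n → E} (a : Crv act C χ g m p) :
    Crv act₁ C₁ χ g m fun i => κ (p i) := by
  obtain ⟨a1, a2, a3, a4, a5, a6⟩ := a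
  refine ⟨κ.surjective.forall.2 fun c hc => ?_, κ.surjective.forall.2 fun c hc =>
    κ.surjective.forall.2 fun c' e => (h.mem _).1 (a2 c ((h.mem c).2 hc) c' (h.same.1 e)),
    κ.surjective.forall.2 fun c hc => ?_, fun a ha => ⟨fun f hf => ?_, h.rank a ▸ (a4 a ha).2⟩,
    fun i => ⟨(h.mem _).1 (a5 i).1, fun γ δ b => (a5 i).2 _ _
      (κ.symm_apply_apply (p i) ▸ h.symm.cross b)⟩, fun i j e => a6 i j (h.same.1 e)⟩
  · rw [← h.mem, a1 c (by
      rw [show C = κ.toHomeomorph ⁻¹' C₁ from Set.ext h.mem, ← Homeomorph.preimage_closure]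
      exact hc)]
    simp only [← h.eqv]
    exact (κ.injective.of_comp_iff _).symm
  · obtain ⟨γ, δ, b, d⟩ := a3 c ((h.mem c).2 hc)
    refine ⟨fun t => κ (γ t), fun t => κ (δ t), b.imp (fun b => ⟨h.br b.1, congrArg κ b.2.1, by
      rw [b.2.2]⟩) h.cross, fun ε hε => ?_⟩
    have := h.symm.tends (κ c)
    rw [κ.symm_apply_apply] at this
    refine (this.eventually (d ε hε)).mono fun y ⟨t, z, k, l⟩ => ⟨t, z, k, ?_⟩
    simpa only [← h.eqv, κ.symm_apply_eq] using l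
  · obtain ⟨q, b, d⟩ := (a4 a ha).1 (fun c => f (κ c)) fun c hc =>
      let ⟨b, g, d, e⟩ := hf _ ((h.mem c).1 hc)
      ⟨fun t ht => by simpa only [h.eqv] using b t ht, fun y => g (κ y), d.comp (κ.analyticAt c),
        h.tends c e⟩
    exact ⟨_, h.symm.pol b, fun c hc => by simpa using d ((h.symm.mem c).1 hc)⟩

theorem stb {K : Set E''} {g : ℤ} {m : ι → ℤ} {p : Fin n → E} {f : E → E''}
    (a : Stb act sc C K χ g m p f) :
    Stb act₁ sc C₁ K χ g m (fun i => κ (p i)) fun c => f (κ.symm c) := by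
  classical
  obtain ⟨a, b, Φ, d⟩ := a
  refine ⟨h.crv a, h.symm.pre b, Φ.image fun ψ c => κ (ψ (κ.symm c)), fun φ k => ?_⟩
  obtain ⟨ψ, e, l⟩ := d _ (h.iso h k)
  refine ⟨_, Finset.mem_image_of_mem _ e, fun c hc => h.symm.same.1 ?_⟩
  simpa using l _ ((h.symm.mem c).1 hc)

end Tk

end Vale.Agent.P269L.I
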