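import Vale.Agent.P269L.I.Dat
import Vale.Agent.P269L.I.Hol
import Vale.Agent.P269L.I.Crv
import Vale.Agent.P269L.I.Occ1
import Vale.Agent.P269L.I.Occ2
import Vale.Agent.P269.Asm.Ci
import Vale.Agent.P269.Pt.Bnd

/-!
# Every connected stable map occurs in the chart of its degree
-/

set_option linter.unusedSectionVars false

namespace Vale.Agent.P269L.I

open Set Function Topology Filter Vale.Agent.P269 Vale.Agent.P269.Cv Vale.Agent.P269.Base P291Z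

variable {ι ι' J K : Type} [Fintype ι] [Fintype ι'] [Fintype J] [Fintype K] {n : ℕ}
  {M : ι → ℕ} {M' : ι' → ℕ} {o : ι} {o' : ι'} {C : Set (V M)} {C' : Set (V M')} {p : Fin n → V M}
  {p' : Fin n → V M'} {y : V M → J → ℂ} {y' : V M' → J → ℂ} {E : V M → V M' → Prop}
  {F : K → MvPolynomial J ℂ}

theorem same_ciK {z z' : J → ℂ} : Same (ciK F).act z z' ↔ ∃ a : ℂ, a ≠ 0 ∧ z' = a • z :=
  ⟨fun ⟨t, a, b⟩ => ⟨t (), isUnit_pi_iff.1 a (), funext fun j => by simp [b, Tgt.act, ciK]⟩,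
    fun ⟨a, b, d⟩ => ⟨fun _ => a, isUnit_pi_iff.2 fun _ => b, funext fun j => by
      simp [d, Tgt.act, ciK]⟩⟩

theorem SIso.symm (h : SIso o C p y o' C' p' y' E) : SIso o' C' p' y' o C p y (flip E) :=
  ⟨h.inv, h.mor, fun _ _ a => (h.mem _ _ a).symm, fun _ _ _ _ a b c => h.sat _ _ _ _ a c b, h.mark,
    fun _ _ a => let ⟨s, b, c⟩ := h.map _ _ a
      ⟨s⁻¹, inv_ne_zero b, by rw [c, inv_smul_smul₀ b]⟩⟩

theorem SIso.orb (h : SIso o C p y o' C' p' y' E) {c c' d'} (a : E c c') (b : E c d') : Orb c' d' :=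
  (h.mor.iff _ (h.mem _ _ a).1 _ (h.mem _ _ a).1 _ (h.mem _ _ a).2 _ (h.mem _ _ b).2 a b).1 (.refl _)

theorem SIso.exists_iso (h : SIso o C p y o' C' p' y' E) (k : Nod o C) (k' : Nod o' C') :
    ∃ φ, Iso tor tor (ciK F).act C C' p p' y y' φ ∧ ∀ c ∈ C, E c (φ c) := by
  obtain ⟨φ, a, b⟩ := h.mor.exists_hol k
  obtain ⟨ψ, a', b'⟩ := h.inv.exists_hol k'
  exact ⟨φ, ⟨a, ⟨ψ, a', fun c hc => same_iff.2 (h.symm.orb (b c hc) (b' _ (a c hc).1)),
    fun c hc => same_iff.2 (h.orb (b' c hc) (b _ (a' c hc).1))⟩,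
    fun i => same_iff.2 (h.orb (h.mark i) (b _ (h.mem _ _ (h.mark i)).1)),
    fun c hc => same_ciK.2 (h.map _ _ (b c hc))⟩, b⟩

theorem Hol.hmap (h : Hol tor (ciK F).act C (ciK F).cone y) : HMap o C y :=
  ⟨fun c hc => (h c hc).1.1, fun c hc t ht =>
    (same_ciK.1 ((h c hc).2.1 t (isUnit_pi_iff.2 ht))).imp fun _ => And.right, fun _ hγ =>
      (h.br hγ.holo hγ.mem).imp fun _ a => ⟨a.1, a.2.mono fun _ b =>
        (same_ciK.1 b).imp fun _ => And.right⟩⟩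

theorem finite_siso (k : Nod o C) {Φ : Finset (V M → V M)} (h : ∀ φ,
    Iso tor tor (ciK F).act C C p p y y φ → ∃ ψ ∈ Φ, ∀ c ∈ C, Same tor (ψ c) (φ c)) :
    {E | SIso o C p y o C p y E}.Finite :=
  (Φ.finite_toSet.image fun ψ c c' => c ∈ C ∧ Orb (ψ c) c').subset fun E a => by
    obtain ⟨φ, b, d⟩ := a.exists_iso (F := F) k k
    obtain ⟨ψ, e, f⟩ := h φ b
    refine ⟨ψ, e, funext₂ fun c c' => propext ⟨fun ⟨u, v⟩ => a.sat _ _ _ _ (d c u) (.refl _)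
      ((same_iff.1 (f c u)).symm.trans v), fun u => ?_⟩⟩
    have v := (a.mem _ _ u).1
    exact ⟨v, (same_iff.1 (f c v)).trans (a.orb (d c v) u)⟩

/-- **Every connected stable map occurs.** -/
theorem lOcc : LOcc := by
  intro N c F dg g n k D M C μ p f hF hk hD h hC
  let κ := (ContinuousLinearEquiv.funUnique Unit ℂ (Fin M → ℂ)).symm
  have t : Tk Pub.scal (tor (M := fun _ : Unit => M)) C {c | c () ∈ C} κ :=
    ⟨fun _ _ => rfl, fun _ => .rfl⟩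
  obtain ⟨a, b, Φ, d⟩ := t.stb h
  obtain ⟨a1, a2, a3⟩ := isCurve_of () a
  have hy := Hol.hmap (F := F) (o := ()) b
  have hc := fun c hc => (b c hc).1
  obtain ⟨m, A, π, e⟩ := exists_prs a1.isNodal a2 a3 hy
  have hs := e.sol (F := F) (χ := fun k _ => dg k) hc
  have hb := e.stable hF.good hy hc (finite_siso (F := F) a1.isNodal.nod d)
  have ht : m.Typ g fun _ => deg (m.L ()) := ⟨(e.par.numbers a1).1, fun _ => rfl⟩
  obtain ⟨δ, hδ⟩ := Int.eq_ofNat_of_zero_le (a := deg (m.L ())) (by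
    simpa using (hs.eff ciF_ample ht).1)
  rw [hδ] at ht
  obtain ⟨z, hz⟩ := hC.nonempty
  obtain ⟨w, -⟩ := (e.par.img _).1 ((t.mem z).1 hz)
  have : Nonempty m.X := ⟨w⟩
  obtain ⟨x, hx, -, E, r⟩ := e.exists_pt hF.good.toInv hk hD (Fintype.card_fin n) hy hs hb ht
  obtain ⟨φ, s, -⟩ := r.symm.exists_iso (F := F) a1.isNodal.nod hx.1.2.2.1.isNodal.nod
  refine ⟨δ, ?_, x, hx, _, t.iso Tk.refl s⟩
  simpa [Tgt.fam, ciK] using hb.pos ht

end Vale.Agent.P269L.I
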