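import Vale.Agent.P269L.I.Onto
import Vale.Agent.P269L.I.KsT
import Vale.Agent.P269L.I.ExtS

/-!
# The relative tangent space of the chart maps onto the sections of the tangent bundle
-/

set_option linter.all false

namespace Vale.Agent.P269L.I

open Set Function Topology Filter Module P269 P269.Ch P269.Holo

variable {J K ι : Type} [Fintype J] [Fintype K] [Fintype ι] [DecidableEq ι] {ch : Ch ι J}
  {T : Tgt Unit J K} {e : K → ι → ℕ} {n r : ℕ} {a b : ι → ℕ} {jj : (Fin r → ℂ) →ₗ[ℂ] ch.P K}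
  {ρ₀ : ch.A (Fin n) → (Fin r → ℂ) → Fin r → ℂ} {x : ch.W (Fin n)}

theorem pt_dat (ha : ∀ j, ch.a (some j) = a) (hb : ∀ j, ch.b j = b) (h0 : 0 ∉ T.cone)
    (hx : x ∈ ch.sol (Fin n) T) : (dat ch n T e a b jj ρ₀).Pt x := by
  have hs : ∀ c ∈ crv x, (dat ch n T e a b jj ρ₀).s (x, c) = jm (ch := ch) c (fld x c) :=
    fun c hc => Yf.ext fun j μ => (fld_mem hx hc).2 j _ (uu_mem hc) μ
  exact ⟨rfl, hx.1, fun y hy c hc t ht => hy.2.2.1.cone t (isUnit_t.1 ht) c hc,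
    fun y hy c hc t ht => Ex.s_smul ha hy hc ht, fun c _ => Ex.ext_s hx.1 c,
    fun c hc k => h0 (jm_inj (crv_ne hc) (((hs c hc).symm.trans k).trans (map_zero _).symm) ▸
      (fld_mem hx hc).1),
    fun q => an_jm (ch := ch) analyticAt_fst analyticAt_snd,
    fun c r y => (jm (ch := ch) c).map_smul r y, fun u c y => jm_smul hb u c y, hs,
    fun c hc t ht => ⟨∏ i, t i ^ ((a i : ℤ) - b i), funext fun j =>
      (fld_smul hx hc (isUnit_t.1 ht) j).trans (by simp only [wd, ha, hb]; rfl)⟩,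
    fun c hc => let ⟨g, k1, k2⟩ := fld_ext hx hc
      ⟨g, k1, k2.mono fun y k => ⟨1, k.trans (one_smul _ _).symm⟩⟩⟩

theorem onto_dat (ha : ∀ j, ch.a (some j) = a) (hb : ∀ j, ch.b j = b) (h0 : 0 ∉ T.cone)
    (hn : ch.Num₀) (hι : Fintype.card ι = 2) (a0 : a ≠ 0) (hx : x ∈ ch.sol (Fin n) T)
    (hk : ∀ v ξ, (dat ch n T e a b jj ρ₀).Tl x v ξ → (dat ch n T e a b jj ρ₀).Rl x v ξ (fun _ => 0) →
      ∃ u, (dat ch n T e a b jj ρ₀).Li x v ξ u) {f}
    (hf : (dat ch n T e a b jj ρ₀).Sc chr x ((dat ch n T e a b jj ρ₀).Ln x) f) :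
    ∃ v ξ, (dat ch n T e a b jj ρ₀).Tl x v ξ ∧ (dat ch n T e a b jj ρ₀).Rl x v ξ f := by
  obtain ⟨d, h1, h2⟩ := hn.mfdAt hx.1
  obtain ⟨l, hl⟩ := hn.cut
  have hc := hx.1.2.2.1
  obtain ⟨Z, z1, z2, z3, z4⟩ := ks_text (C := crv) (p := fun i y => y.p i) h2 (locFam_base hl _) hc
    (fun i => an_mark i x) (.of_forall fun y k i => (k.2.2.2.1 i).1) (fun i => (hx.1.2.2.2.1 i).2)
    hx.1.2.2.2.2.1
  obtain ⟨Y, _, _, _, R, N, B, π, hp⟩ := hc.isNodal.exists_par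
  refine (pt_dat ha hb h0 hx).onto hp Z z3 z4 ?_ hk hf
  have e1 : finrank ℂ (Vv ch) = ∑ j, finrank ℂ (Tens ch.M (ch.b j)) := by
    simpa only [finrank_self, mul_one] using
      Base.finrank_pi_clm (fun j => Tens ch.M (ch.b j)) fun _ => ℂ
  have e2 : ∀ j, (ch.h (some j) : ℤ) = finrank ℂ (Cv.H0 N (Cv.bz B fun i => a i)) := fun j => by
    rw [h_eq₁ hx.1 (hn.a_ne _), ha, (hp.isCurve_iff.1 hc a a0).2]; rfl
  rw [dimB, hι, Fintype.card_fin] at h1
  push_cast at h1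
  simp only [e2, ← Finset.sum_mul] at h1
  rw [(hp.numbers hc).1, e1]
  push_cast
  change _ + (_ * (finrank ℂ (Cv.H0 N (Cv.bz B fun i => a i)) : ℤ) + _ - _) ≤ _
  linarith

/-- **The relative tangent space maps onto the sections.** -/
theorem lOnto (hk : LKer) : LOnto := fun N c F g d n k D r jj ρ' dg h x hx _ he =>
  onto_dat (T := ci F) (cH_a F g d n k D) (cH_b F g d n k D) (fun k => k.1 rfl) h.num rfl
    (fun k => one_ne_zero (congrFun k none)) hx (hk N c F g d n k D r jj ρ' dg h x hx) he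

end Vale.Agent.P269L.I
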