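import Vale.Agent.P269L.I.Dat

/-!
# Leaf: solutions, vanishing functions, the section
-/

set_option linter.unusedSectionVars false

namespace Vale.Agent.P269L.I

open Set Function Topology Filter P291Z P269 P269.Ch

section

variable {ι J K ν : Type} [Fintype ι] [DecidableEq ι] [Fintype J] [Fintype K] [Fintype ν]
  {ch : Ch ι J}

theorem forall_gr {x : ch.W ν} (hx : x ∈ ch.base ν) {Q : ch.Pt → Prop} :
    (∀ c ∈ crv x, Q (c, uu x c)) ↔ ∀ z ∈ gr x, Q z :=
  ⟨fun h z hz => by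
    have := h z.1 ⟨z, hz, rfl⟩
    rwa [uu_eq hx (u := z.2) hz] at this, fun h _ hc => h _ (uu_mem hc)⟩

variable {n r : ℕ} {T : Tgt Unit J K} {e : K → ι → ℕ} {a b : ι → ℕ}
  {jj : (Fin r → ℂ) →ₗ[ℂ] ch.P K} {ρ' : ch.A (Fin n) → (Fin r → ℂ) → Fin r → ℂ}
  {x : ch.W (Fin n)}

theorem dat_s_eq {c : V ch.M} {y : J → ℂ} :
    (dat ch n T e a b jj ρ').s (x, c) = (dat ch n T e a b jj ρ').j (c, y) ↔
      ∀ j μ, uu x c (some j) (x.X j μ) = y j * val μ c :=
  ⟨fun h j μ => congrArg (fun w : Vv ch => w j μ) h,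
    fun h => funext fun j => ContinuousLinearMap.ext (h j)⟩

theorem dat_sol : (dat ch n T e a b jj ρ').sol T.cone = ch.sol (Fin n) T :=
  Set.ext fun x => and_congr_right fun hx => (forall₂_congr fun _ _ => exists_congr fun _ =>
    and_congr_right fun _ => eq_comm.trans dat_s_eq).trans (forall_gr hx (Q := fun z =>
      ∃ y ∈ T.cone, ∀ j μ, z.2 (some j) (x.X j μ) = y j * val μ z.1))

theorem dat_van (h : ∀ u, jj u ∈ ch.pol T e) (hx : x ∈ ch.base (Fin n)) :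
    (dat ch n T e a b jj ρ').van x = jj ⁻¹' van T e x :=
  Set.ext fun κ => ((forall_gr hx (Q := fun z => ∀ l, evL (jj κ) l z = 0)).trans
    (forall₂_congr fun _ _ => ⟨fun k => ⟨fun j => funext fun m => k (.inl ⟨j, m⟩),
      fun q => funext fun ζ => k (.inr (q, ζ))⟩, fun k l => by
        rcases l with ⟨j, m⟩ | ⟨q, ζ⟩
        exacts [congrFun (k.1 j) m, congrFun (k.2 q) ζ]⟩)).trans (and_iff_right (h κ)).symm

theorem dat_fld (hx : x ∈ ch.sol (Fin n) T) {c : V ch.M} (hc : c ∈ crv x) : fld x c ∈ T.cone ∧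
    (dat ch n T e a b jj ρ').s (x, c) = (dat ch n T e a b jj ρ').j (c, fld x c) := by
  obtain ⟨y, k1, k2⟩ := hx.2 _ (uu_mem hc)
  obtain rfl : fld x c = y :=
    funext fun j => Cv.fld_eq hc fun u hu μ => uu_eq hx.1 hu ▸ k2 j μ
  exact ⟨k1, dat_s_eq.2 k2⟩

theorem dat_rank (c : G.Crd (P269L.T.kdT ch (Fin n) T e) jj ρ') (h : P269L.T.IsKur ch (Fin n) T e)
    (hx : x ∈ ch.sol (Fin n) T) : ∀ᶠ y in 𝓝[ch.base (Fin n)] x,
      Set.finrank ℂ ((dat ch n T e a b jj ρ').van y) =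
        Set.finrank ℂ ((dat ch n T e a b jj ρ').van x) := by
  obtain ⟨O, v, _, _, h⟩ := h
  obtain ⟨O', o, rfl⟩ := h.dom.opn
  have k : ∀ y ∈ ch.base (Fin n) ∩ O', Set.finrank ℂ ((dat ch n T e a b jj ρ').van y) = v :=
    fun y hy => by
      rw [dat_van c.mem hy.1, ← P269L.T.coe_van, ← Submodule.comap_coe, Set.finrank, Submodule.span_eq,
        (Submodule.equivMapOfInjective jj c.inj _).finrank_eq,
        Submodule.map_comap_eq_self (c.rng ▸ h.le y hy.1), h.ok.fam.rank y hy]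
  filter_upwards [inter_mem_nhdsWithin _ (o.mem_nhds (h.dom.sub hx).2)] with y hy
  rw [k y hy, k x (h.dom.sub hx)]

end

theorem lSol : LSol := fun N c F g d n k D r jj ρ' dg h => by
  obtain ⟨_, s⟩ := h.std
  refine ⟨dat_sol, fun x hx => ⟨dat_van h.crd.mem hx, invFun_eq (h.crd.rng.ge ?_)⟩, fun x hx => ?_⟩
  · have := s.fits.sctF_mem (Ch.trW (Fin n) Empty Empty _ x)
    rwa [ciF, sctF_trW, polF_fam] at this
  · rw [dat_sol] at hx
    exact ⟨dat_rank h.crd h.kur hx, fun c hc => dat_fld hx hc⟩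

end Vale.Agent.P269L.I
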