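import Vale.Agent.P269L.I.Dat
import Vale.Agent.P269L.I.Crd

/-!
# Leaf: the virtual class in coordinates
-/

namespace Vale.Agent.P269L.I

open Filter

theorem lVir : LVir := fun _ _ _ _ _ _ _ _ _ _ _ _ _ _ _ _ _ _ _ _ _ _ _ _ j _ _ _ _ h c hv ho b =>
  virE_crd h c (fun _ _ => .of_forall fun z u => and_congr_right fun hz => by
    rw [(hv z hz).1, Set.mem_preimage, map_sub, (hv z hz).2]
    rfl) (fun x hx u => by rw [ho x hx]; rfl) b

end Vale.Agent.P269L.I
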