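import Vale.Agent.P269.Pt.Rep
import Vale.Agent.P269L.I.Iso0

/-!
# Maps from a nodal multicone to projective space are given by sections of a line bundle
-/

set_option linter.unusedSectionVars false

namespace Vale.Agent.P269L.I

open Set Function Topology Filter Vale.Agent.P269 Vale.Agent.P269.Cv Vale.Agent.P269.Base

variable {X J : Type} [TopologicalSpace X] {R : RS X} [Fintype J]

/-- a map to projective space with local holomorphic lifts defines a line bundle -/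
theorem exists_lb {y : X → J → ℂ} (h0 : ∀ x, y x ≠ 0)
    (h : ∀ x, ∃ Y : ℂ → J → ℂ, AnalyticAt ℂ Y 0 ∧ ∀ᶠ t in 𝓝 0, ∃ c : ℂ, y (R.i x t) = c • Y t) :
    ∃ L : LB R, ∀ j, (fun x => y x j) ∈ L.Γ := by
  choose i hi using fun x => Function.ne_iff.1 (h0 x)
  replace hi : ∀ x, y x (i x) ≠ 0 := hi
  have key : ∀ x, (∀ᶠ z in 𝓝 x, y z (i x) ≠ 0) ∧ ∀ j, R.Hol (fun z => y z j / y z (i x)) x :=
    fun x => by
      obtain ⟨Y, a, b⟩ := h x
      have c := analyticAt_pi_iff.1 a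
      have d : Y 0 (i x) ≠ 0 := by
        obtain ⟨s, e⟩ := b.self_of_nhds
        rw [R.i_zero] at e
        exact right_ne_zero_of_mul (congrFun e (i x) ▸ hi x :)
      have f : ∀ᶠ t in 𝓝 0, ∃ s : ℂ, s ≠ 0 ∧ y (R.i x t) = s • Y t := b.mono fun t ⟨s, e⟩ =>
        ⟨s, left_ne_zero_of_smul (e ▸ h0 _), e⟩
      refine ⟨R.ev_iff.2 ((f.and ((c _).continuousAt.eventually_ne d)).mono
        fun t ⟨⟨s, u, e⟩, v⟩ => e ▸ mul_ne_zero u v), fun j =>
          ((c j).div (c _) d).congr (f.mono fun t ⟨s, u, e⟩ => ?_)⟩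
      simp only [e]
      exact (mul_div_mul_left _ _ u).symm
  exact ⟨.of (fun x z => y z (i x)) (fun x => (key x).1) fun x => .of_forall fun z => (key z).2 _,
    fun j x => (LB.sec_of _ _).2 ((key x).2 j)⟩

variable {ι ν : Type} [Fintype ι] {M : ι → ℕ} {o : ι} {C : Set (V M)} {N : Finset (X × X)}
  {A : ι → LB R} {π : X → V M} {y : V M → J → ℂ}

variable (o C y) in
/-- `c ↦ [y c]` is a holomorphic map from the curve with multicone `C` to projective space. -/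
structure HMap : Prop where
  ne : ∀ c ∈ C, y c ≠ 0
  inv : ∀ c ∈ C, ∀ t : ι → ℂ, (∀ i, t i ≠ 0) → ∃ a : ℂ, y (t • c) = a • y c
  hol : ∀ γ, IsBranch o C γ →
    ∃ Y : ℂ → J → ℂ, AnalyticAt ℂ Y 0 ∧ ∀ᶠ t in 𝓝 0, ∃ a : ℂ, y (γ t) = a • Y t

variable [T2Space X] [CompactSpace X]

theorem HMap.orb (hy : HMap o C y) (h : Nod o C) {c c' : V M} (hc : c ∈ C) (e : Orb c c') :
    ∃ a : ℂ, a ≠ 0 ∧ y c' = a • y c := by
  have b := hy.ne _ (h.orb hc e)
  obtain ⟨t, ht, rfl⟩ := e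
  obtain ⟨a, e⟩ := hy.inv c hc t ht
  exact ⟨a, left_ne_zero_of_smul (e ▸ b), e⟩

theorem HMap.exists_lb (hy : HMap o C y) (h : Par o C N A π) :
    ∃ L : LB R, ∀ j, (fun x => y (π x) j) ∈ H0 N L := by
  obtain ⟨L, a⟩ := I.exists_lb (R := R) (y := fun x => y (π x)) (fun x => hy.ne _ (h.mem x))
    fun x => by
      obtain ⟨Y, b, c⟩ := hy.hol _ (h.isBranch x)
      refine ⟨Y, b, c.mono fun t ⟨s, e⟩ => ?_⟩
      obtain ⟨r, -, f⟩ := hy.orb h.isNodal.nod (h.br_mem x t) (orb_br x t).symm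
      exact ⟨r * s, by rw [f, e, mul_smul]⟩
  exact ⟨L, fun j => ⟨a j, fun n hn => by simp only [node_eq h.sec hn]⟩⟩

theorem exists_marks (h : Par o C N A π) {p : ν → V M} (hp : ∀ n, p n ∈ C ∧ ¬IsNode o C (p n))
    (hi : ∀ n n', ∀ s : ι → ℂ, p n = s • p n' → n = n') :
    ∃ q : ν → X, Injective q ∧ (∀ n, Sm N (q n)) ∧ ∀ n, Orb (π (q n)) (p n) := by
  choose q t ht e using fun n => (h.img _).1 (hp n).1
  refine ⟨q, fun n n' a => hi n n' (t n * (t n')⁻¹) ?_, fun n => not_not.1 fun a =>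
    (hp n).2 (e n ▸ (h.isNode_iff (ht n)).2 a), fun n => ⟨_, ht n, e n⟩⟩
  rw [e n', mul_smul, Dict.inv_smul (ht n'), ← a, e n]

end Vale.Agent.P269L.I
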