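import Vale.Agent.P269L.I.Ds
import Vale.Agent.P269L.I.St

/-!
# The relative tangent space maps onto the sections of `s^* T_ℙ`
-/

set_option linter.unusedSectionVars false

noncomputable section

namespace Vale.Agent.P269L.I

open Set Function Topology Filter Module P269 P269.Cv P269.Cv.Dict

theorem finrank_le_of_rel {K A : Type*} [AddCommGroup K] [Module ℂ K] [AddCommGroup A] [Module ℂ A]
    [FiniteDimensional ℂ K] [FiniteDimensional ℂ A] (Γ : Submodule ℂ (K × A))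
    (h1 : ∀ k, ∃ a, (k, a) ∈ Γ) (h2 : ∀ k, (k, 0) ∈ Γ → k = 0) : finrank ℂ K ≤ finrank ℂ A :=
  (LinearMap.finrank_le_finrank_of_surjective (f := LinearMap.fst ℂ K A ∘ₗ Γ.subtype)
    fun k => let ⟨a, h⟩ := h1 k; ⟨⟨(k, a), h⟩, rfl⟩).trans
    (LinearMap.finrank_le_finrank_of_injective (f := LinearMap.snd ℂ K A ∘ₗ Γ.subtype)
      ((injective_iff_map_eq_zero _).2 fun q k => Subtype.ext (Prod.ext
        (h2 _ (by rw [← show q.1.2 = 0 from k]; exact q.2)) k)))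

section tan

variable {E F : Type} [NormedAddCommGroup E] [NormedSpace ℂ E] [NormedAddCommGroup F]
  [NormedSpace ℂ F] {S : Set E} {q w : E} {s g h : E → F}

theorem tan_zero (hw : w ∈ Tan S q) (hg : AnalyticAt ℂ g q) (h0 : ∀ᶠ y in 𝓝[S] q, g y = 0) :
    fderiv ℂ g q w = 0 :=
  SeparatingDual.eq_zero_of_forall_dual_eq_zero (R := ℂ) fun l => by
    have := hw (l ∘ g) ⟨(l.analyticAt _).comp hg, h0.mono fun y e => by simp [e]⟩
    rwa [(l.hasFDerivAt.comp q hg.differentiableAt.hasFDerivAt).fderiv] at this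

theorem tan_eq (hw : w ∈ Tan S q) (hg : AnalyticAt ℂ g q) (hh : AnalyticAt ℂ h q)
    (e : ∀ᶠ y in 𝓝[S] q, g y = h y) : fderiv ℂ g q w = fderiv ℂ h q w := by
  have := tan_zero hw (hg.sub hh) (e.mono fun y e => sub_eq_zero.2 e)
  rwa [fderiv_sub hg.differentiableAt hh.differentiableAt, sub_apply, sub_eq_zero] at this

theorem Ext.fderiv_eq (a : Ext S s q g) (b : Ext S s q h) (hw : w ∈ Tan S q) :
    fderiv ℂ g q w = fderiv ℂ h q w :=
  tan_eq hw a.1 b.1 ((a.2.and b.2).mono fun _ e => e.1.symm.trans e.2)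

theorem Ext.eventually [CompleteSpace F] (a : Ext S s q g) : ∀ᶠ y in 𝓝 q, Ext S s y g :=
  a.1.eventually_analyticAt.and (eventually_nhds_nhdsWithin.2 a.2)

end tan

section defs

variable {A B W E V P X ι Λ : Type} [NormedRing A] [NormedAlgebra ℂ A] [NormedRing B]
  [NormedAlgebra ℂ B] [NormedAddCommGroup W] [NormedSpace ℂ W] [NormedAddCommGroup E]
  [NormedSpace ℂ E] [NormedAddCommGroup V] [NormedSpace ℂ V] [NormedAddCommGroup P] [NormedSpace ℂ P]
  [NormedAddCommGroup X] [NormedSpace ℂ X] [Fintype ι] {n : ℕ} (D : Dat A B W E V P X ι Λ n)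

/-- `ξ` lifts `v` to the family -/
def Dat.Tl (x v : W) (ξ : E → E) : Prop := v ∈ Tan D.S x ∧ Sec D.τ (D.C x) D.τ (dir D.τ) ξ ∧
  (∀ c ∈ D.C x, (v, ξ c) ∈ Tan D.U (x, c)) ∧
  ∀ i, ξ (D.p i x) - fderiv ℂ (D.p i) x v ∈ dir D.τ (D.p i x)

/-- the line spanned by `s` -/
def Dat.Ln (x : W) (c : E) : Set V := range fun z : ℂ => z • D.s (x, c)

/-- `e` is the image of `(v, ξ)` -/
def Dat.Rl (x v : W) (ξ : E → E) (e : E → V) : Prop := ∀ c ∈ D.C x, ∀ h, Ext D.U D.s (x, c) h →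
  fderiv ℂ h (x, c) (v, ξ c) - fderiv ℂ D.j (c, D.f x c) (ξ c, 0) - e c ∈ D.Ln x c

/-- `(v, ξ)` is induced by `u` -/
def Dat.Li (x v : W) (ξ : E → E) (u : A) : Prop := v = fderiv ℂ (D.α · x) 1 u ∧
  ∀ c ∈ D.C x, ξ c - fderiv ℂ (D.ε · c) 1 u ∈ dir D.τ c

theorem Dat.obs_iff (χ : (ι → ℕ) → B → ℂ) (TK : X → Set X) (x : W) : D.Obs χ TK x ↔
    (∀ᶠ y in 𝓝[D.S] x, Set.finrank ℂ (D.van y) = Set.finrank ℂ (D.van x)) ∧
    (∀ e, D.Nm χ TK x e → ∃ κ, D.Df x κ e) ∧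
    (∀ e, D.Sc χ x (D.Ln x) e → ∃ v ξ, D.Tl x v ξ ∧ D.Rl x v ξ e) ∧
    ∀ v ξ, D.Tl x v ξ → D.Rl x v ξ (fun _ => 0) → ∃ u, D.Li x v ξ u := Iff.rfl

end defs

variable {ι : Type} [Fintype ι] {M : ι → ℕ}

theorem chr_eq (a : ι → ℕ) (t : ι → ℂ) : chr a t = ∏ i, t i ^ (a i : ℤ) := by
  simp only [chr, zpow_natCast]

theorem isUnit_t {t : ι → ℂ} : IsUnit t ↔ ∀ i, t i ≠ 0 := by
  simp only [Pi.isUnit_iff, isUnit_iff_ne_zero]

section dict

variable {Y J F : Type} [TopologicalSpace Y] [T2Space Y] [CompactSpace Y] {R : RS Y} [Fintype J]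
  [NormedAddCommGroup F] [NormedSpace ℂ F] {o : ι} {C : Set (V M)} {N : Finset (Y × Y)}
  {A : ι → LB R} {π : Y → V M} {a : ι → ℕ} (h : Cv.Par o C N A π)
include h

theorem tends_C (p : Y) : Tendsto (br A π p) (𝓝 0) (𝓝[C] (π p)) :=
  tendsto_nhdsWithin_iff.2 ⟨br_zero (A := A) (π := π) p ▸ (an_br h.sec p).continuousAt.tendsto,
    .of_forall (h.br_mem p)⟩

/-- sections in the words of the statement -/
theorem tsec_of_sec {s e : V M → F} (b : F →L[ℂ] J → ℂ)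
    (hs : ∀ c ∈ C, ∀ t, IsUnit t → s (t • c) = chr a t • s c)
    (he : Sec (fun (t : ι → ℂ) (c : V M) => t • c) C (fun u w => chr a u • w)
      (fun c => range fun z : ℂ => z • s c) e) :
    (fun y => b (e (π y))) ∈ TSec N (bz A fun i => a i) fun y => b (s (π y)) := by
  refine ⟨fun p => ?_, fun n hn => ⟨0, by simp only [zero_smul, node_eq h.sec hn, sub_self]⟩⟩
  obtain ⟨g, k1, k2⟩ := (he _ (h.mem p)).2
  refine ⟨fun y => (bz A fun i => a i).φ p y • b (g (br A π p (R.e p y))), fun j => ?_, ?_⟩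
  · refine (analyticAt_pi_iff.1 ((b.analyticAt _).comp
      (k1.comp_of_eq (an_br h.sec p) (br_zero p))) j).congr ((R.tgt_nhds p).mono fun t ht => ?_)
    simp only [LB.loc, R.e_i ht, Pi.smul_apply, smul_eq_mul]
    rw [mul_div_cancel_left₀ _ ((bz A _).ne _ _)]
    rfl
  · filter_upwards [R.src_nhds p, (R.tends_e p).eventually ((tends_C h p).eventually k2)]
      with y hy ⟨r, e1⟩
    have ht := isUnit_t.2 fun i => (A i).ne p y
    obtain ⟨r', e2⟩ := (he _ (h.br_mem p (R.e p y))).1 _ ht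
    refine ⟨r' + r, ?_⟩
    rw [br_e (A := A) (π := π) hy, bz_φ, ← chr_eq, ← map_smul, ← map_smul, ← map_sub, add_smul,
      show r' • _ = _ from e2, hs _ (h.br_mem p _) _ ht, smul_comm, show r • _ = _ from e1,
      smul_sub, sub_add_sub_cancel]

theorem h0_of_ext {s : V M → F} (b : F →L[ℂ] J → ℂ)
    (hs : ∀ c ∈ C, ∀ t, IsUnit t → s (t • c) = chr a t • s c) (he : ∀ c ∈ C, ∃ g, Ext C s c g)
    (j : J) : (fun y => b (s (π y)) j) ∈ H0 N (bz A fun i => a i) := by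
  have hb := fun w => analyticAt_pi_iff.1 (b.analyticAt w)
  refine h.mem_of_isSecZ (f := fun c => b (s c) j) ⟨fun c hc => ?_, fun t ht c hc => ?_,
    fun γ hγ => ?_⟩
  · obtain ⟨g, k1, k2⟩ := he c hc
    exact ((hb _ j).comp k1).continuousAt.continuousWithinAt.congr_of_eventuallyEq_of_mem
      (k2.mono fun _ e => congrArg (b · j) e) hc
  · rw [hs c hc t (isUnit_t.2 ht), map_smul, chr_eq]; rfl
  · obtain ⟨g, k1, k2⟩ := he _ hγ.mem.self_of_nhds
    exact (((hb _ j).comp k1).comp hγ.holo).congr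
      (((tendsto_nhdsWithin_iff.2 ⟨hγ.holo.continuousAt.tendsto, hγ.mem⟩).eventually k2).mono
        fun _ e => congrArg (b · j) e.symm)

end dict

variable {A W F P X Λ : Type} [NormedRing A] [NormedAlgebra ℂ A] [NormedAddCommGroup W]
  [NormedSpace ℂ W] [NormedAddCommGroup F] [NormedSpace ℂ F] [NormedAddCommGroup P] [NormedSpace ℂ P]
  [NormedAddCommGroup X] [NormedSpace ℂ X] {n : ℕ} {D : Dat A (ι → ℂ) W (V M) F P X ι Λ n} {x : W}

variable (D x) in
/-- the properties of the data at `x` that are used -/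
structure Dat.Pt : Prop where
  tau : D.τ = fun t c => t • c
  mem : x ∈ D.S
  cone : ∀ y ∈ D.S, ∀ c ∈ D.C y, ∀ t : ι → ℂ, IsUnit t → t • c ∈ D.C y
  hom : ∀ y ∈ D.S, ∀ c ∈ D.C y, ∀ t, IsUnit t → D.s (y, t • c) = chr D.a t • D.s (y, c)
  ext : ∀ c ∈ D.C x, ∃ h, Ext D.U D.s (x, c) h
  ne : ∀ c ∈ D.C x, D.s (x, c) ≠ 0
  jan : ∀ q, AnalyticAt ℂ D.j q
  jlin : ∀ c (r : ℂ) y, D.j (c, r • y) = r • D.j (c, y)
  jhom : ∀ u c y, D.j (u • c, y) = chr D.b u • D.j (c, y)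
  sj : ∀ c ∈ D.C x, D.s (x, c) = D.j (c, D.f x c)
  fhom : ∀ c ∈ D.C x, ∀ t : ι → ℂ, IsUnit t → ∃ r : ℂ, D.f x (t • c) = r • D.f x c
  fhol : ∀ c ∈ D.C x, ∃ g, AnalyticAt ℂ g c ∧ ∀ᶠ y in 𝓝[D.C x] c, ∃ r : ℂ, D.f x y = r • g y

namespace Dat.Pt

variable [FiniteDimensional ℂ F] (h : D.Pt x) {c e : V M} {v : W} {ξ : V M → V M}
  {g : W × V M → F}
include h

theorem torus (hc : c ∈ D.C x) (hg : Ext D.U D.s (x, c) g) (α : ι → ℂ) :
    fderiv ℂ g (x, c) (0, α • c) = (∑ i, (D.a i : ℤ) * α i) • D.s (x, c) := by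
  have h1 : HasDerivAt (fun ε : ℂ => (x, (fun i => Complex.exp (ε * α i)) • c)) (0, α • c) 0 :=
    (hasDerivAt_const _ _).prodMk (hasDerivAt_pi.2 fun i => by
      simpa using (((hasDerivAt_id (0 : ℂ)).mul_const (α i)).cexp).smul_const (c i))
  have e0 : (x, c) = (x, (fun i => Complex.exp (0 * α i)) • c) :=
    Prod.ext rfl (funext fun i => by simp)
  have hu : ∀ ε : ℂ, IsUnit fun i => Complex.exp (ε * α i) := fun ε =>
    isUnit_t.2 fun i => Complex.exp_ne_zero _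
  have h2 := hg.1.differentiableAt.hasFDerivAt.comp_hasDerivAt_of_eq 0 h1 e0
  have h3 := (((hasDerivAt_id (0 : ℂ)).mul_const (∑ i, (D.a i : ℤ) * α i)).cexp).smul_const
    (D.s (x, c))
  refine (h2.unique (h3.congr_of_eventuallyEq ?_)).trans (by simp)
  have h4 : Tendsto (fun ε : ℂ => (x, (fun i => Complex.exp (ε * α i)) • c)) (𝓝 0) (𝓝[D.U] (x, c)) :=
    tendsto_nhdsWithin_iff.2 ⟨e0 ▸ h1.continuousAt.tendsto,
      .of_forall fun ε => ⟨h.mem, h.cone x h.mem c hc _ (hu ε)⟩⟩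
  filter_upwards [h4.eventually hg.2] with ε k
  refine k.symm.trans ((h.hom x h.mem c hc _ (hu ε)).trans (congrArg (· • _) ?_))
  simp only [chr_eq, ← Complex.exp_int_mul, ← Complex.exp_sum, id, Finset.mul_sum]
  exact congrArg _ (Finset.sum_congr rfl fun i _ => by ring)

theorem scale {g' : W × V M → F} {t : ι → ℂ} (ht : IsUnit t) (hg : Ext D.U D.s (x, c) g)
    (hg' : Ext D.U D.s (x, t • c) g') (he : (v, e) ∈ Tan D.U (x, c)) :
    fderiv ℂ g' (x, t • c) (v, t • e) = chr D.a t • fderiv ℂ g (x, c) (v, e) := by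
  let L := (ContinuousLinearMap.id ℂ W).prodMap (tL (M := M) t)
  have h1 : Tendsto L (𝓝[D.U] (x, c)) (𝓝[D.U] (x, t • c)) :=
    L.continuous.continuousWithinAt.tendsto_nhdsWithin fun q k => ⟨k.1, h.cone _ k.1 _ k.2 t ht⟩
  have h2 := tan_eq he (hg'.1.comp_of_eq (L.analyticAt _) rfl) (hg.1.const_smul (c := chr D.a t))
    (by
      filter_upwards [h1.eventually hg'.2, hg.2, self_mem_nhdsWithin] with q k1 k2 k3
      exact k1.symm.trans ((h.hom _ k3.1 _ k3.2 t ht).trans (congrArg _ k2)))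
  rwa [(HasFDerivAt.comp (x, c) (f := L) hg'.1.differentiableAt.hasFDerivAt L.hasFDerivAt).fderiv,
    (hg.1.differentiableAt.hasFDerivAt.const_smul (chr D.a t)).fderiv] at h2

theorem dj_eq (c : V M) (y : X) (e : V M) : fderiv ℂ D.j (c, y) (e, 0) =
    fderiv ℂ (fun q : X × V M => D.j (q.2, q.1)) (y, c) (0, e) :=
  (DFunLike.congr_fun (HasFDerivAt.comp (y, c) (f := fun q : X × V M => (q.2, q.1))
    (h.jan (c, y)).differentiableAt.hasFDerivAt
    (((ContinuousLinearMap.snd ℂ X (V M)).prod (.fst ℂ X (V M))).hasFDerivAt)).fderiv (0, e)).symm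

theorem dj_smul (c : V M) (r : ℂ) (y : X) (e : V M) :
    fderiv ℂ D.j (c, r • y) (e, 0) = r • fderiv ℂ D.j (c, y) (e, 0) := by
  have h1 : ∀ y, HasFDerivAt (fun c => D.j (c, y)) (fderiv ℂ D.j (c, y) ∘L .inl ℂ _ _) c := fun y =>
    (h.jan _).differentiableAt.hasFDerivAt.comp c (hasFDerivAt_prodMk_left c y)
  exact DFunLike.congr_fun ((h1 (r • y)).unique (((h1 y).const_smul r).congr_of_eventuallyEq
    (.of_forall fun c => h.jlin c r y))) e

theorem jh (y : X) (t : ι → ℂ) (c : V M) (_ : ∀ i, t i ≠ 0) :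
    (fun q : X × V M => D.j (q.2, q.1)) (y, t • c) =
      (∏ i, t i ^ (D.b i : ℤ)) • (fun q : X × V M => D.j (q.2, q.1)) (y, c) :=
  chr_eq D.b t ▸ h.jhom t c y

theorem jd (y : X) (c : V M) : DifferentiableAt ℂ (fun q : X × V M => D.j (q.2, q.1)) (y, c) :=
  ((h.jan _).comp (analyticAt_snd.prod analyticAt_fst)).differentiableAt

theorem dj_torus (c : V M) (y : X) (α : ι → ℂ) (e : V M) : fderiv ℂ D.j (c, y) (α • c + e, 0) =
    fderiv ℂ D.j (c, y) (e, 0) + (∑ i, (D.b i : ℤ) * α i) • D.j (c, y) := by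
  rw [h.dj_eq, h.dj_eq, fderiv_add_torus h.jh (h.jd y c)]

theorem dj_scale {t : ι → ℂ} (ht : IsUnit t) (c : V M) (y : X) (e : V M) :
    fderiv ℂ D.j (t • c, y) (t • e, 0) = chr D.b t • fderiv ℂ D.j (c, y) (e, 0) := by
  rw [h.dj_eq, h.dj_eq, fderiv_scale h.jh (isUnit_t.1 ht) (h.jd _ _) (h.jd _ _), chr_eq]

theorem add_torus (hc : c ∈ D.C x) (hg : Ext D.U D.s (x, c) g) (α : ι → ℂ) :
    fderiv ℂ g (x, c) (v, α • c + e) =
      fderiv ℂ g (x, c) (v, e) + (∑ i, (D.a i : ℤ) * α i) • D.s (x, c) := by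
  rw [← h.torus hc hg, ← map_add, Prod.mk_add_mk, add_zero, add_comm e]

/-- the image of a lift is a section -/
theorem sc {G : V M → W × V M → F} (hG : ∀ c ∈ D.C x, Ext D.U D.s (x, c) (G c)) (hξ : D.Tl x v ξ) :
    D.Sc chr x (D.Ln x) fun c =>
      fderiv ℂ (G c) (x, c) (v, ξ c) - fderiv ℂ D.j (c, D.f x c) (ξ c, 0) := by
  have := FiniteDimensional.complete ℂ F
  obtain ⟨-, h1, h2, -⟩ := hξ
  rw [h.tau] at h1
  rw [Dat.Sc, h.tau]
  refine fun c hc => ⟨fun t ht => ?_, ?_⟩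
  · have hc' := h.cone x h.mem c hc t ht
    obtain ⟨α, e1⟩ := (h1 c hc).1 t ht
    obtain ⟨r, e2⟩ := h.fhom c hc t ht
    have e3 : r * chr D.b t = chr D.a t := smul_left_injective ℂ (h.ne c hc) (by
      show _ • _ = _ • _
      rw [← h.hom x h.mem c hc t ht, h.sj _ hc', e2, h.jlin, h.jhom, h.sj c hc, mul_smul])
    refine ⟨∑ i, (D.a i : ℤ) * α i - ∑ i, (D.b i : ℤ) * α i, ?_⟩
    show _ • _ = _ - _ - _ • (_ - _)
    rw [show ξ (t • c) = α • t • c + t • ξ c from eq_add_of_sub_eq e1.symm,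
      h.add_torus hc' (hG _ hc'),
      h.dj_torus, ← h.sj _ hc', h.scale ht (hG c hc) (hG _ hc') (h2 c hc), e2, h.dj_smul,
      h.dj_scale ht, smul_smul, e3, sub_smul, smul_sub]
    abel
  · obtain ⟨η, k1, k2⟩ := (h1 c hc).2
    obtain ⟨φ, k3, k4⟩ := h.fhol c hc
    obtain ⟨r₀, k5⟩ := k4.self_of_nhdsWithin hc
    obtain ⟨l, k7⟩ := SeparatingDual.exists_ne_zero (R := ℂ) (x := D.j (c, φ c)) fun e =>
      h.ne c hc (by rw [h.sj c hc, k5, h.jlin, e, smul_zero])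
    have a1 : AnalyticAt ℂ (fun y => (x, y)) c := analyticAt_const.prod analyticAt_id
    have a2 : AnalyticAt ℂ (fun y => (y, φ y)) c := analyticAt_id.prod k3
    have a3 : AnalyticAt ℂ (fun y => l (D.j (y, φ y))) c :=
      (l.analyticAt _).comp ((h.jan _).comp a2)
    refine ⟨fun y => fderiv ℂ (G c) (x, y) (v, η y) -
      (l (G c (x, y)) / l (D.j (y, φ y))) • fderiv ℂ D.j (y, φ y) (η y, 0),
      (Holo.an_apply ((hG c hc).1.fderiv.comp_of_eq a1 rfl) (analyticAt_const.prod k1)).sub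
        ((((l.analyticAt _).comp ((hG c hc).1.comp_of_eq a1 rfl)).div a3 k7).smul
          (Holo.an_apply ((h.jan _).fderiv.comp a2) (k1.prod analyticAt_const))), ?_⟩
    filter_upwards [k2, k4, self_mem_nhdsWithin,
      nhdsWithin_le_nhds (a1.continuousAt.eventually (hG c hc).eventually),
      nhdsWithin_le_nhds (a3.continuousAt.eventually_ne k7)] with y ⟨α, e1⟩ ⟨r, e2⟩ hy e3 e4
    have e5 : l (G c (x, y)) / l (D.j (y, φ y)) = r := by
      rw [← e3.2.self_of_nhdsWithin ⟨h.mem, hy⟩, h.sj y hy, e2, h.jlin, map_smul,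
        smul_eq_mul, mul_div_cancel_right₀ _ e4]
    refine ⟨∑ i, (D.a i : ℤ) * α i - ∑ i, (D.b i : ℤ) * α i, ?_⟩
    show _ • _ = _ - _ - (_ - _)
    rw [(hG y hy).fderiv_eq e3 (h2 y hy), e5, eq_add_of_sub_eq e1.symm, h.add_torus hy e3,
      h.dj_torus, ← h.sj _ hy, e2, h.dj_smul, sub_smul]
    abel

variable {Y : Type} [TopologicalSpace Y] [T2Space Y] [CompactSpace Y] {R : RS Y} {o : ι}
  {N : Finset (Y × Y)} {B : ι → LB R} {π : Y → V M}

/-- **The lifts map onto the sections of `s^* T_ℙ`.** -/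
theorem onto [FiniteDimensional ℂ A] (hp : Cv.Par o (D.C x) N B π)
    (Z : Submodule ℂ (W × (V M → V M))) [FiniteDimensional ℂ Z] (hZ : ∀ z ∈ Z, D.Tl x z.1 z.2)
    (h0 : ∀ z ∈ Z, z.1 = 0 → (∀ c ∈ D.C x, z.2 c ∈ dir D.τ c) → z = 0)
    (hd : finrank ℂ A + (finrank ℂ F * finrank ℂ (H0 N (bz B fun i => D.a i)) + gen R N - 1) ≤
      (finrank ℂ Z : ℤ))
    (hk : ∀ v ξ, D.Tl x v ξ → D.Rl x v ξ (fun _ => 0) → ∃ u, D.Li x v ξ u)
    {e : V M → F} (he : D.Sc chr x (D.Ln x) e) : ∃ v ξ, D.Tl x v ξ ∧ D.Rl x v ξ e := by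
  choose! G hG using h.ext
  let b : F ≃L[ℂ] Fin (finrank ℂ F) → ℂ := .ofFinrankEq (finrank_fin_fun ℂ).symm
  let Φ : W × (V M → V M) →ₗ[ℂ] V M → F :=
    { toFun := fun z c =>
        fderiv ℂ (G c) (x, c) (z.1, z.2 c) - fderiv ℂ D.j (c, D.f x c) (z.2 c, 0)
      map_add' := fun z w => funext fun c => by
        simp only [Pi.add_apply, Prod.fst_add, Prod.snd_add]
        rw [← Prod.mk_add_mk, map_add, ← add_zero (0 : X), ← Prod.mk_add_mk, map_add, add_zero,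
          add_sub_add_comm]
      map_smul' := fun r z => funext fun c => by
        simp only [Pi.smul_apply, Prod.smul_fst, Prod.smul_snd, RingHom.id_apply, smul_sub,
          ← map_smul, Prod.smul_mk, smul_zero] }
  let p : (V M → F) →ₗ[ℂ] Y → Fin (finrank ℂ F) → ℂ :=
    { toFun := fun e y => b (e (π y))
      map_add' := fun _ _ => funext fun _ => map_add b _ _
      map_smul' := fun _ _ => funext fun _ => map_smul b _ _ }
  let s := fun y => b (D.s (x, π y))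
  have hs := h0_of_ext hp (s := fun c => D.s (x, c)) b.toContinuousLinearMap (h.hom x h.mem)
    fun c hc => ⟨fun y => G c (x, y), (hG c hc).1.comp_of_eq (analyticAt_const.prod analyticAt_id) rfl,
      ((Continuous.prodMk_right x).continuousWithinAt.tendsto_nhdsWithin
        fun _ k => And.intro h.mem k).eventually (hG c hc).2⟩
  have hs0 : ∀ y, s y ≠ 0 := fun y => b.map_ne_zero_iff.2 (h.ne _ (hp.mem y))
  have ht : ∀ e, D.Sc chr x (D.Ln x) e → p e ∈ TSec N (bz B fun i => D.a i) s := fun e he =>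
    tsec_of_sec hp (s := fun c => D.s (x, c)) b.toContinuousLinearMap (h.hom x h.mem)
      (by rwa [Dat.Sc, h.tau] at he)
  have hR : ∀ z ∈ Z, ∀ e, D.Sc chr x (D.Ln x) e → p e - p (Φ z) ∈ Rad s → D.Rl x z.1 z.2 e := by
    intro z hz e he k c hc g hg
    rw [hg.fderiv_eq (hG c hc) ((hZ z hz).2.2.1 c hc)]
    obtain ⟨y, t, k1, rfl⟩ := (hp.img c).1 hc
    obtain ⟨r, k2⟩ := k y
    obtain ⟨r₁, k3⟩ := (he _ (hp.mem y)).1 t (isUnit_t.2 k1)
    obtain ⟨r₂, k4⟩ := (h.sc hG (hZ z hz) _ (hp.mem y)).1 t (isUnit_t.2 k1)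
    rw [h.tau] at k3 k4
    have k5 : e (π y) - Φ z (π y) = r • D.s (x, π y) := b.injective (by
      rw [map_sub, map_smul]; exact k2)
    refine ⟨r₂ - r₁ - r, ?_⟩
    show _ • _ = Φ z (t • π y) - _
    rw [sub_smul, sub_smul, show r₁ • _ = _ from k3,
      show r₂ • _ = Φ z (t • π y) - chr D.a t • Φ z (π y) from k4,
      h.hom x h.mem _ (hp.mem y) t (isUnit_t.2 k1), smul_comm, ← k5, smul_sub]
    abel
  let f := p ∘ₗ Φ ∘ₗ Z.subtype
  let K := (Rad s).comap f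
  obtain ⟨K', hK⟩ := K.exists_isCompl
  have hKA : finrank ℂ K ≤ finrank ℂ A := by
    let Γ : Submodule ℂ (K × A) :=
      { carrier := {q | D.Li x q.1.1.1.1 q.1.1.1.2 q.2}
        zero_mem' := ⟨(map_zero _).symm, fun c _ => ⟨0, by simp [h.tau]⟩⟩
        add_mem' := fun {q q'} a a' => ⟨by rw [Prod.snd_add, map_add, ← a.1, ← a'.1]; rfl,
          fun c hc =>
            let ⟨t, k⟩ := a.2 c hc
            let ⟨t', k'⟩ := a'.2 c hc
            ⟨t + t', by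
              simp only [h.tau] at k k' ⊢
              rw [add_smul, k, k', Prod.snd_add, map_add, ← add_sub_add_comm]; rfl⟩⟩
        smul_mem' := fun r q a => ⟨by rw [Prod.smul_snd, map_smul, ← a.1]; rfl, fun c hc =>
          let ⟨t, k⟩ := a.2 c hc
          ⟨r • t, by
            simp only [h.tau] at k ⊢
            rw [smul_assoc, k, Prod.smul_snd, map_smul, smul_sub]; rfl⟩⟩ }
    refine finrank_le_of_rel (K := K) (A := A) Γ (fun z => hk _ _ (hZ _ z.1.2) (hR _ z.1.2 0 (fun c _ =>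
      ⟨fun _ _ => ⟨0, by simp⟩, 0, analyticAt_const, .of_forall fun _ => ⟨0, by simp⟩⟩)
        (by rw [map_zero, zero_sub]; exact neg_mem z.2))) fun z k => ?_
    have k2 : D.Li x z.1.1.1 z.1.1.2 0 := k
    rw [Dat.Li, map_zero] at k2
    exact Subtype.ext (Subtype.ext (h0 _ z.1.2 k2.1 fun c hc => by simpa using k2.2 c hc))
  have hdim := Submodule.finrank_add_eq_of_isCompl hK
  obtain ⟨z, hz⟩ := euler_onto (Z := K') hs hs0 (f := f.domRestrict K')
    (fun z => ht _ (h.sc hG (hZ _ z.1.2)))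
    (fun z k => Subtype.ext (Submodule.disjoint_def.1 hK.disjoint z.1 k z.2))
    (by rw [Fintype.card_fin]; omega) (ht e he)
  exact ⟨_, _, hZ _ z.1.2, hR _ z.1.2 e he hz⟩

end Dat.Pt

end Vale.Agent.P269L.I
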